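import Vale.Agent.P073.H880.Met1

/-!
# P073, H880: from the local inequality to Lipschitz bounds, derivatives and variations
-/

open Set Metric Topology Filter
open scoped ENNReal

namespace P073.H880

open P073 P073.H936 P073.H341 P073.H669

section gen

variable {κ E : Type*} [Fintype κ]

/-- the total change of finitely many functions -/
def dsum (w : κ → E → ℝ) (x y : E) : ℝ := ∑ i, |w i y - w i x|

theorem dsum_nonneg (w : κ → E → ℝ) (x y : E) : 0 ≤ dsum w x y :=
  Finset.sum_nonneg fun _ _ => abs_nonneg _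

theorem dsum_self (w : κ → E → ℝ) (x : E) : dsum w x x = 0 := by simp [dsum]

theorem dsum_comm (w : κ → E → ℝ) (x y : E) : dsum w x y = dsum w y x := by
  unfold dsum
  exact Finset.sum_congr rfl fun i _ => abs_sub_comm _ _

theorem dsum_triangle (w : κ → E → ℝ) (x y z : E) : dsum w x z ≤ dsum w x y + dsum w y z := by
  unfold dsum
  rw [← Finset.sum_add_distrib]
  refine Finset.sum_le_sum fun i _ => ?_
  have := abs_sub_le (w i z) (w i y) (w i x)
  linarith

omit [Fintype κ] in
theorem abs_sum_sub_le (w : κ → E → ℝ) (T : Finset κ) (x y : E) :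
    |∑ i ∈ T, w i y - ∑ i ∈ T, w i x| ≤ ∑ i ∈ T, |w i y - w i x| := by
  rw [← Finset.sum_sub_distrib]
  exact Finset.abs_sum_le_sum_abs _ _

/-- the levels of the two families together -/
theorem two_sides_le (side : κ → Bool) (w : κ → E → ℝ) (x y : E) :
    ∑ X : Bool, |∑ i with side i = X, w i y - ∑ i with side i = X, w i x| ≤ dsum w x y := by
  classical
  have h1 : dsum w x y = ∑ X : Bool, ∑ i with side i = X, |w i y - w i x| := by
    rw [dsum, Finset.sum_fiberwise]
  rw [h1]
  exact Finset.sum_le_sum fun X _ => abs_sum_sub_le w _ x y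

end gen

section lip

variable {κ E : Type*} [Fintype κ] [NormedAddCommGroup E] [NormedSpace ℝ E]

/-- a local bound at every point gives a bound on a convex set -/
theorem dsum_le_of_local {q : Set E} (hq : Convex ℝ q) {w : κ → E → ℝ}
    (hw : ∀ i, ContinuousOn (w i) q) {K : ℝ}
    (hloc : ∀ x ∈ q, ∀ᶠ y in 𝓝[q] x, dsum w x y ≤ K * dist y x) {x y : E} (hx : x ∈ q)
    (hy : y ∈ q) : dsum w x y ≤ K * dist y x := by
  set γ : ℝ → E := fun t => AffineMap.lineMap x y t with hγ
  have hγq : ∀ t ∈ Icc (0:ℝ) 1, γ t ∈ q := fun t ht =>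
    hq.lineMap_mem hx hy ht
  have hγc : Continuous γ := AffineMap.lineMap_continuous
  have hd : ∀ s t : ℝ, dist (γ s) (γ t) = |s - t| * dist y x := by
    intro s t
    rw [hγ]
    show dist (AffineMap.lineMap x y s) (AffineMap.lineMap x y t) = _
    rw [dist_lineMap_lineMap, Real.dist_eq, dist_comm x y]
  set S : Set ℝ := {t | dsum w x (γ t) ≤ K * (t * dist y x)} with hS
  have hcl : IsClosed (S ∩ Icc (0:ℝ) 1) := by
    have h1 : ContinuousOn (fun t => dsum w x (γ t)) (Icc (0:ℝ) 1) := by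
      unfold dsum
      refine continuousOn_finsetSum _ fun i _ => ?_
      exact (((hw i).comp hγc.continuousOn fun t ht => hγq t ht).sub continuousOn_const).abs
    have h2 : ContinuousOn (fun t : ℝ => K * (t * dist y x)) (Icc (0:ℝ) 1) := by fun_prop
    have h3 := h1.prodMk h2
    have h4 := h3.preimage_isClosed_of_isClosed isClosed_Icc
      (isClosed_le continuous_fst continuous_snd)
    rw [inter_comm]
    exact h4
  have h0 : (0:ℝ) ∈ S := by
    show dsum w x (γ 0) ≤ _
    have : γ 0 = x := by simp [hγ]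
    rw [this, dsum_self]; simp
  have h1 := hcl.Icc_subset_of_forall_exists_gt h0 (b := 1) (by
    rintro t ⟨htS, ht0, ht1⟩ u hu
    have ht : t ∈ Icc (0:ℝ) 1 := ⟨ht0, ht1.le⟩
    have h2 : Tendsto γ (𝓝[Icc (0:ℝ) 1] t) (𝓝[q] (γ t)) := by
      refine tendsto_nhdsWithin_iff.2 ⟨(hγc.tendsto t).mono_left nhdsWithin_le_nhds, ?_⟩
      filter_upwards [self_mem_nhdsWithin] with s hs using hγq s hs
    have h3 := h2.eventually (hloc (γ t) (hγq t ht))
    have h4 : ∀ᶠ s in 𝓝[>] t, dsum w (γ t) (γ s) ≤ K * dist (γ s) (γ t) := by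
      have h5 : 𝓝[>] t ≤ 𝓝[Icc (0:ℝ) 1] t := by
        rw [← nhdsWithin_Ioo_eq_nhdsGT ht1]
        exact nhdsWithin_mono _ fun s hs => ⟨ht0.trans hs.1.le, hs.2.le⟩
      exact h3.filter_mono h5
    have h6 : ∀ᶠ s in 𝓝[>] t, s ∈ Ioc t (min u 1) := by
      filter_upwards [Ioo_mem_nhdsGT (show t < min u 1 from lt_min hu ht1)] with s hs
      exact ⟨hs.1, hs.2.le⟩
    obtain ⟨s, hs1, hs2⟩ := (h4.and h6).exists
    refine ⟨s, ?_, hs2.1, hs2.2.trans (min_le_left _ _)⟩
    show dsum w x (γ s) ≤ _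
    have htS' : dsum w x (γ t) ≤ K * (t * dist y x) := htS
    have h7 := dsum_triangle w x (γ t) (γ s)
    rw [hd, abs_of_nonneg (by linarith [hs2.1])] at hs1
    calc dsum w x (γ s) ≤ K * (t * dist y x) + K * ((s - t) * dist y x) := by linarith
      _ = K * (s * dist y x) := by ring)
  have h2 : (1:ℝ) ∈ S := h1 (right_mem_Icc.2 zero_le_one)
  have h3 : dsum w x (γ 1) ≤ K * (1 * dist y x) := h2
  have h4 : γ 1 = y := by simp [hγ]
  rwa [h4, one_mul] at h3

/-- a local bound controls the derivative of the sum over one family -/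
theorem norm_fderiv_le_of_local {w : κ → E → ℝ} {K : ℝ} {x : E} (hK : 0 ≤ K)
    (hloc : ∀ᶠ y in 𝓝 x, dsum w x y ≤ K * dist y x) (T : Finset κ) :
    ‖fderiv ℝ (fun y => ∑ i ∈ T, w i y) x‖ ≤ K := by
  refine norm_fderiv_le_of_lip' (𝕜 := ℝ) hK ?_
  filter_upwards [hloc] with y hy
  rw [Real.norm_eq_abs, ← dist_eq_norm]
  refine le_trans (abs_sum_sub_le w T x y) (le_trans ?_ hy)
  exact Finset.sum_le_univ_sum_of_nonneg fun i => abs_nonneg _

end lip

end P073.H880
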