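import Vale.Agent.P073.H880.Hook2

/-!
# P073, H880: [HOOK], passive sets: the new map is Lipschitz relative to the old one
-/

open Set Metric Topology Filter
open scoped ENNReal

namespace P073.H880

open P073 P073.H936 P073.H936.K3 P073.H142

/-! ### from local inequalities to curves -/

theorem eVar_add {W : Type*} [PseudoEMetricSpace W] (f : ℝ → W) {s m t : ℝ} (hsm : s ≤ m)
    (hmt : m ≤ t) :
    eVariationOn f (Icc s m) + eVariationOn f (Icc m t) = eVariationOn f (Icc s t) := by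
  have := eVariationOn.Icc_add_Icc f (s := univ) hsm hmt (mem_univ _)
  simpa using this

/-- the variation of a curve which is locally bounded by other curves -/
theorem eVariationOn_le_of_local {F H : Type*} [PseudoMetricSpace F] [PseudoMetricSpace H]
    {κ : Type*} [Fintype κ] {G : ℝ → F} {u : κ → ℝ → ℝ} {γ : ℝ → H} {a b L e : ℝ}
    (hL : 0 ≤ L) (he : 0 ≤ e)
    (hloc : ∀ t ∈ Icc a b, ∀ᶠ s in 𝓝[Icc a b] t,
      dist (G t) (G s) ≤ L * ∑ j, |u j s - u j t| + e * dist (γ t) (γ s)) :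
    eVariationOn G (Icc a b) ≤ ENNReal.ofReal L * ∑ j, eVariationOn (u j) (Icc a b) +
      ENNReal.ofReal e * eVariationOn γ (Icc a b) := by
  set μ : ℝ → ℝ → ℝ≥0∞ := fun s t => ENNReal.ofReal L * ∑ j, eVariationOn (u j) (Icc s t) +
    ENNReal.ofReal e * eVariationOn γ (Icc s t) with hμ
  have hsup : ∀ s m t, s ≤ m → m ≤ t → μ s m + μ m t ≤ μ s t := by
    intro s m t hsm hmt
    simp only [hμ]
    rw [← eVar_add γ hsm hmt]
    simp_rw [← eVar_add (u _) hsm hmt]
    rw [Finset.sum_add_distrib, mul_add, mul_add]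
    exact le_of_eq (by ring)
  have hcost : ∀ s ∈ Icc a b, ∀ t ∈ Icc a b, s ≤ t → edist (G s) (G t) ≤ μ s t := by
    intro s hs t ht hst
    refine cost_le_of_local (c := fun s t => edist (G s) (G t)) (μ := μ) (a := a) (b := b)
      (fun s _ m _ t _ hsm hmt => hsup s m t hsm hmt) (fun t => edist_self _)
      (fun s _ m _ t _ _ _ => edist_triangle _ _ _) ?_ hs ht hst
    intro t ht
    have hone : ∀ s t, s ≤ t → ENNReal.ofReal (L * ∑ j, |u j s - u j t| +
        e * dist (γ t) (γ s)) ≤ μ s t := by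
      intro s t hst
      rw [ENNReal.ofReal_add (mul_nonneg hL (Finset.sum_nonneg fun _ _ => abs_nonneg _))
        (mul_nonneg he dist_nonneg), ENNReal.ofReal_mul hL, ENNReal.ofReal_mul he,
        ENNReal.ofReal_sum_of_nonneg fun _ _ => abs_nonneg _]
      refine add_le_add (mul_le_mul_right (Finset.sum_le_sum fun j _ => ?_) _)
        (mul_le_mul_right ?_ _)
      · rw [← Real.dist_eq, ← edist_dist]
        exact eVariationOn.edist_le _ ⟨le_refl _, hst⟩ ⟨hst, le_refl _⟩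
      · rw [← edist_dist]
        exact eVariationOn.edist_le _ ⟨hst, le_refl _⟩ ⟨le_refl _, hst⟩
    filter_upwards [hloc t ht] with s hs
    refine ⟨fun hts => ?_, fun hst => ?_⟩
    · refine le_trans ?_ (hone t s hts)
      show edist (G t) (G s) ≤ _
      rw [edist_dist]
      refine ENNReal.ofReal_le_ofReal (hs.trans (le_of_eq ?_))
      rw [dist_comm (γ t)]
      congr 2
      exact Finset.sum_congr rfl fun j _ => abs_sub_comm _ _
    · refine le_trans ?_ (hone s t hst)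
      show edist (G s) (G t) ≤ _
      rw [edist_dist, dist_comm (G s)]
      exact ENNReal.ofReal_le_ofReal hs
  refine iSup_le ?_
  rintro ⟨n, v, hv, hvm⟩
  have h1 : ∀ n, ∑ i ∈ Finset.range n, edist (G (v (i + 1))) (G (v i)) ≤ μ (v 0) (v n) := by
    intro n
    induction n with
    | zero => simp
    | succ n ih =>
      rw [Finset.sum_range_succ]
      refine (add_le_add ih ?_).trans (hsup _ _ _ (hv (Nat.zero_le n)) (hv (Nat.le_succ n)))
      rw [edist_comm]
      exact hcost _ (hvm _) _ (hvm _) (hv (Nat.le_succ n))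
  refine (h1 n).trans ?_
  have h2 : Icc (v 0) (v n) ⊆ Icc a b := Icc_subset_Icc (hvm 0).1 (hvm n).2
  simp only [hμ]
  exact add_le_add (mul_le_mul_right (Finset.sum_le_sum fun j _ => eVariationOn.mono _ h2) _)
    (mul_le_mul_right (eVariationOn.mono _ h2) _)

/-! ### relative bounds -/

variable {E : Type} [NormedAddCommGroup E] [NormedSpace ℝ E] {Ω : Set E} {Λ : Set (Fin 3 → ℝ)}
  {γ : Type*} {X : γ → HBox} {h h' : ConHomeo Ω Λ}

/-- the levels of the bands of the box `b`, clipped at `r` -/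
noncomputable def HBox.lv (X : HBox) (r : ℝ) (g : E → Fin 3 → ℝ) : X.ι → E → ℝ :=
  wlev X.side X.ax r X.c X.w g

theorem sum_bool_le {ax : Bool → Fin 3} (hax : ax true ≠ ax false) {f : Fin 3 → ℝ}
    (hf : ∀ j, 0 ≤ f j) : ∑ b : Bool, f (ax b) ≤ ∑ j, f j := by
  classical
  have hinj : Function.Injective ax := by
    intro a b hab
    cases a <;> cases b
    · rfl
    · exact absurd hab.symm hax
    · exact absurd hab hax
    · rfl
  calc ∑ b : Bool, f (ax b) = ∑ j ∈ Finset.univ.image ax, f j := by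
        rw [Finset.sum_image fun a _ b _ hab => hinj hab]
    _ ≤ ∑ j, f j := Finset.sum_le_sum_of_subset_of_nonneg (Finset.subset_univ _)
        fun j _ _ => hf j

/-- **one box**: outside the open drawn cells, the new levels are Lipschitz relative to the old
map -/
theorem HBox.In.lv_le {X : HBox} {h : ConHomeo Ω Λ} (I : X.In h) (hΩ : IsOpen Ω) {κ : Type*}
    [Fintype κ] {u : κ → E → ℝ} (hu : Loc (I.boxK hΩ) u) {L A : ℝ} (hL : 0 ≤ L) (hA : 0 ≤ A)
    (hAw : ∀ i, A ≤ L * X.w i) {x : E} (hx : x ∈ X.U h) :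
    ∀ᶠ y in 𝓝[X.U h] x, (∀ q, y ∉ interior (I.K.C q)) →
      A * dsum u x y ≤ L * ∑ j, |h.toFun y j - h.toFun x j| := by
  filter_upwards [hu.rest hx] with y hy hyq
  refine (mul_le_mul_of_nonneg_left (hy hyq) hA).trans ?_
  refine (dsum_wlev_le (g := h.toFun) I.H hL hAw x y).trans ?_
  exact mul_le_mul_of_nonneg_left (sum_bool_le (f := fun j => |h.toFun y j - h.toFun x j|)
    I.H.axne fun _ => abs_nonneg _) hL

/-- **[REL]** If `G` is controlled by the new levels in the boxes and by the map `h` outside, then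
it is controlled by `h` on passive sets. -/
theorem rel_of_loc (hΩ : IsOpen Ω) (I : ∀ b, (X b).In h)
    (hfin : ∀ z ∈ Λ, ∃ O ∈ 𝓝 z, {b | ((X b).P ∩ O).Nonempty}.Finite)
    {κ : γ → Type*} [∀ b, Fintype (κ b)] {u : ∀ b, κ b → E → ℝ}
    (hu : ∀ b, Loc ((I b).boxK hΩ) (u b))
    {F : Type*} [PseudoMetricSpace F] {G : E → F} {Z : Set E} (hZ : Z ⊆ Ω)
    (hZd : ∀ b q, ∀ x ∈ Z, x ∉ interior ((I b).K.C q))
    {L e : ℝ} (hL : 0 ≤ L) {A : γ → ℝ} (hA : ∀ b, 0 ≤ A b) (hAw : ∀ b i, A b ≤ L * (X b).w i)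
    (hbox : ∀ b, ∀ x ∈ Z, h.toFun x ∈ (X b).P → ∀ᶠ y in 𝓝[Z] x, h.toFun y ∈ (X b).P →
      dist (G x) (G y) ≤ A b * dsum (u b) x y + e * dist x y)
    (hoff : ∀ x ∈ Z, (∀ b, h.toFun x ∉ interior (X b).P) →
      ∀ᶠ y in 𝓝[Z] x, (∀ b, h.toFun y ∉ (X b).P) →
        dist (G x) (G y) ≤ L * ∑ j, |h.toFun y j - h.toFun x j| + e * dist x y) :
    ∀ x ∈ Z, ∀ᶠ y in 𝓝[Z] x,
      dist (G x) (G y) ≤ L * ∑ j, |h.toFun y j - h.toFun x j| + e * dist x y := by
  intro x hx
  have hxΩ := hZ hx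
  have hcont : ContinuousAt h.toFun x := h.cont.continuousAt (hΩ.mem_nhds hxΩ)
  obtain ⟨O, hO, hOf⟩ := hfin _ (h.mapsTo hxΩ)
  -- only finitely many boxes near `x`
  have e1 : ∀ᶠ y in 𝓝[Z] x, ∀ b, h.toFun y ∈ (X b).P → h.toFun x ∈ (X b).P := by
    have h1 : ∀ᶠ y in 𝓝 x, h.toFun y ∈ O := hcont hO
    have h2 : ∀ᶠ y in 𝓝 x, ∀ b ∈ {b | ((X b).P ∩ O).Nonempty},
        h.toFun y ∈ (X b).P → h.toFun x ∈ (X b).P := by
      rw [eventually_all_finite hOf]
      intro b _
      by_cases hb : h.toFun x ∈ (X b).P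
      · exact Eventually.of_forall fun _ _ => hb
      · filter_upwards [hcont ((X b).isCompact_P.isClosed.isOpen_compl.mem_nhds hb)]
          with y hy hy2
        exact absurd hy2 hy
    filter_upwards [nhdsWithin_le_nhds h1, nhdsWithin_le_nhds h2] with y h1 h2 b hb
    exact h2 b ⟨_, hb, h1⟩ hb
  have hfx : {b | h.toFun x ∈ (X b).P}.Finite := hOf.subset fun b hb =>
    ⟨_, hb, mem_of_mem_nhds hO⟩
  have e2 : ∀ᶠ y in 𝓝[Z] x, ∀ b ∈ {b | h.toFun x ∈ (X b).P}, h.toFun y ∈ (X b).P →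
      dist (G x) (G y) ≤ L * ∑ j, |h.toFun y j - h.toFun x j| + e * dist x y := by
    rw [eventually_all_finite hfx]
    intro b hb
    have hxU : x ∈ (X b).U h := (HBox.mem_U (I b) hxΩ).2 hb
    have h3 := eventually_nhdsWithin_iff.1 ((I b).lv_le hΩ (hu b) hL (hA b) (hAw b) hxU)
    filter_upwards [hbox b x hx hb, nhdsWithin_le_nhds h3, self_mem_nhdsWithin]
      with y h4 h5 hyZ hyb
    have h6 := h5 ((HBox.mem_U (I b) (hZ hyZ)).2 hyb) fun q => hZd b q y hyZ
    linarith [h4 hyb]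
  by_cases hint : ∃ b, h.toFun x ∈ interior (X b).P
  · obtain ⟨b, hb⟩ := hint
    have h1 : ∀ᶠ y in 𝓝[Z] x, h.toFun y ∈ interior (X b).P :=
      nhdsWithin_le_nhds (hcont (isOpen_interior.mem_nhds hb))
    filter_upwards [h1, e2] with y h1 h2
    exact h2 b (interior_subset hb) (interior_subset h1)
  · push Not at hint
    filter_upwards [e1, e2, hoff x hx hint] with y h1 h2 h3
    by_cases hy : ∃ b, h.toFun y ∈ (X b).P
    · obtain ⟨b, hb⟩ := hy
      exact h2 b (h1 b hb) hb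
    · push Not at hy
      exact h3 hy

end P073.H880
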