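import Vale.Agent.P073.H142.PS3
import Vale.Agent.P073.H228.Sig
import Vale.Agent.P073.H919.HookFD

/-!
# P073, H880: **[K3-RP]**, the last map of ROUND P in the plates, local estimate

`Sg3`: the second staircases (bands of the hook to almost the whole window).  After the hook the
positions in the bands are controlled (`wlev`), the rest is contracted.
-/

open Set Metric Topology Filter

set_option linter.unusedSectionVars false

namespace P073.H880.RP

open _root_.P073 _root_.P073.Net _root_.P073.PA691 _root_.P073.H236 _root_.P073.H579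
  _root_.P073.H345 _root_.P073.H880 _root_.P073.H142 _root_.P073.H228
open Vale.Agent.P073.St (V)
open Vale.Agent.P073.H471 Vale.Agent.P073.H267 Vale.Agent.P073.H267.Geo
open Vale.Agent.P073.H73 (Mesh)
open P073.H919 (PI bc bw pcen pwid)

variable {Ω Λ : Set V} {v : V} {K : BoxCx Λ v} {S : Rad K} {W : Wid K S} {B : Boxes W}
  {G : Geo B}

/-! ### positions in the bands -/

/-- the position in a smaller band, in terms of the clipped position in the band -/
theorem clam_band {c w r t t' : ℝ} (hw : 0 < w) (hr : 0 ≤ r) :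
    clam (c - r * w) (c + r * w) t - clam (c - r * w) (c + r * w) t' =
      w * (H880.clp r ((t - c) / w) - H880.clp r ((t' - c) / w)) := by
  have key : ∀ t, clam (c - r * w) (c + r * w) t = w * H880.clp r ((t - c) / w) + r * w := by
    intro t
    have h0 : 0 ≤ r * w := by positivity
    rcases le_total t (c - r * w) with h | h
    · rw [clam_of_le h]
      have h1 : (t - c) / w ≤ -r := by rw [div_le_iff₀ hw]; linarith
      have h2 : H880.clp r ((t - c) / w) = -r := by
        unfold H880.clp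
        rw [min_eq_left (by linarith), max_eq_left h1]
      rw [h2]; ring
    · rcases le_total t (c + r * w) with h' | h'
      · rw [clam_of_mem h h']
        have h2 : H880.clp r ((t - c) / w) = (t - c) / w := by
          refine H880.clp_of_le (abs_le.2 ⟨?_, ?_⟩)
          · rw [le_div_iff₀ hw]; linarith
          · rw [div_le_iff₀ hw]; linarith
        rw [h2]; field_simp; ring
      · rw [clam_of_ge (by linarith) h']
        have h1 : r ≤ (t - c) / w := by rw [le_div_iff₀ hw]; linarith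
        have h2 : H880.clp r ((t - c) / w) = r := by
          unfold H880.clp
          rw [min_eq_right h1, max_eq_right (by linarith)]
        rw [h2]; ring
  rw [key, key]; ring

/-! ### the second staircases -/

/-- the second staircases of ROUND P at the squares of `S₀` -/
structure Sg3 (L : PLev G) (S₀ : Set K.S) (F : Bool → BFam 3 S₀ Λ) (ς : Bool → S₀ → ℝ)
    (T : Bool → ConHomeo Λ Λ) : Prop where
  B : ∀ β s, BxR ((F β).B s) (L.bx β s.1)
  isS : ∀ β, IsSg (F β) (ς β) (T β)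

namespace Sg3

variable {L : PLev G} {S₀ : Set K.S} {F : Bool → BFam 3 S₀ Λ} {ς : Bool → S₀ → ℝ}
  {T : Bool → ConHomeo Λ Λ} {s : S₀} {β : Bool} {y y' : V}

theorem mem_K (P : Sg3 L S₀ F ς T) (hK : y ∈ ((F β).B s).K) : y ∈ PK G s.1 :=
  (PLev.mem_bxK.1 ((P.B β s).sub_K hK)).1

theorem plate (P : Sg3 L S₀ F ς T) (s : S₀) (β : Bool) : PlateB G (F β) s s.1 (tg s.1 β) where
  dir := (P.B β s).j
  ne := tg_ne s.1 β
  al := (P.B β s).al
  be := (P.B β s).be
  full := fun y hy => (P.B β s).full.2 (PLev.PB_full hy)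
  disj := fun s' hs' => by
    rw [Set.disjoint_left]
    intro y hy hy'
    exact hs' (Subtype.ext (PK_unique (P.mem_K hy) (PB_sub_PK (by norm_num) s.1 hy')))

/-- the function of one variable -/
noncomputable def fn (F : Bool → BFam 3 S₀ Λ) (ς : Bool → S₀ → ℝ) (β : Bool) (s : S₀) : ℝ → ℝ :=
  sg ((F β).B s).N ((F β).B s).al ((F β).B s).be ((F β).e s) (ς β s)

theorem map_one (P : Sg3 L S₀ F ς T) (β : Bool) (hy : y ∈ G.PB (7 / 8) s.1) :
    (T β).toFun y = Function.update y (tg s.1 β) (fn F ς β s (y (tg s.1 β))) := by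
  have hj := (P.plate s β).dir
  have hok := (P.isS β).ok s
  by_cases hw : ((F β).B s).al ≤ y (tg s.1 β) ∧ y (tg s.1 β) ≤ ((F β).B s).be
  · have h1 : (F β).FullK s y := ⟨by rw [hj]; exact hw, (P.plate s β).full y hy⟩
    rw [(P.isS β).full h1, hj]
    rfl
  · have hw' : y (tg s.1 β) ≤ ((F β).B s).al ∨ ((F β).B s).be ≤ y (tg s.1 β) := by
      by_contra hcon
      push Not at hcon
      exact hw ⟨hcon.1.le, hcon.2.le⟩
    have h1 : ∀ b', y ∉ ((F β).B b').K := by
      intro b' hb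
      by_cases hbs : b' = s
      · subst hbs
        refine hw ?_
        have := hb.1
        rw [hj] at this
        exact this
      · exact Set.disjoint_left.1 ((P.plate s β).disj b' hbs) hb hy
    rw [(P.isS β).off y h1]
    unfold fn
    rw [hok.out hw', Function.update_eq_self]

theorem fn_win (P : Sg3 L S₀ F ς T) {t : ℝ} (ht : t ∈ pwin G s.1 (tg s.1 β)) :
    fn F ς β s t ∈ pwin G s.1 (tg s.1 β) := by
  have e : pwin G s.1 (tg s.1 β) = Icc ((F β).B s).al ((F β).B s).be := by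
    rw [(P.B β s).al, (P.B β s).be]; rfl
  rw [e] at ht ⊢
  exact ((P.isS β).ok s).win ht

theorem fn_out (P : Sg3 L S₀ F ς T) {t : ℝ} (ht : t ∉ pwin G s.1 (tg s.1 β)) :
    fn F ς β s t = t := by
  have e : pwin G s.1 (tg s.1 β) = Icc ((F β).B s).al ((F β).B s).be := by
    rw [(P.B β s).al, (P.B β s).be]; rfl
  rw [e] at ht
  refine ((P.isS β).ok s).out ?_
  by_contra hcon
  push Not at hcon
  exact ht ⟨hcon.1.le, hcon.2.le⟩

theorem fn_mem (P : Sg3 L S₀ F ς T) {t : ℝ} :
    fn F ς β s t ∈ pwin G s.1 (tg s.1 β) ↔ t ∈ pwin G s.1 (tg s.1 β) := by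
  refine ⟨fun h => ?_, P.fn_win⟩
  by_contra hcon
  rw [P.fn_out hcon] at h
  exact hcon h

theorem fn_PB (P : Sg3 L S₀ F ς T) {c : ℝ} (hc : c ≤ 1) {t : ℝ} :
    (K.slo s.1 (tg s.1 β) + c * G.p s.1 ≤ fn F ς β s t ∧
      fn F ς β s t ≤ K.shi s.1 (tg s.1 β) - c * G.p s.1) ↔
    (K.slo s.1 (tg s.1 β) + c * G.p s.1 ≤ t ∧ t ≤ K.shi s.1 (tg s.1 β) - c * G.p s.1) := by
  have hp := G.p_pos s.1
  have hpa := G.p_a s.1
  by_cases hw : t ∈ pwin G s.1 (tg s.1 β)
  · have hw' := P.fn_win hw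
    constructor
    · intro _
      constructor <;> nlinarith [hw.1, hw.2]
    · intro _
      constructor <;> nlinarith [hw'.1, hw'.2]
  · rw [P.fn_out hw]

theorem upd_PB (P : Sg3 L S₀ F ς T) {c : ℝ} (hc : c ≤ 1) :
    Function.update y (tg s.1 β) (fn F ς β s (y (tg s.1 β))) ∈ G.PB c s.1 ↔ y ∈ G.PB c s.1 := by
  have hne := tg_ne s.1 β
  rw [Geo.mem_PB, Geo.mem_PB, Function.update_of_ne hne.symm]
  refine and_congr_left fun _ => ?_
  constructor
  · intro h i hi
    by_cases hij : i = tg s.1 β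
    · subst hij
      have := h _ hi
      rw [Function.update_self] at this
      exact (P.fn_PB hc).1 this
    · have := h i hi
      rwa [Function.update_of_ne hij] at this
  · intro h i hi
    by_cases hij : i = tg s.1 β
    · subst hij
      rw [Function.update_self]
      exact (P.fn_PB hc).2 (h _ hi)
    · rw [Function.update_of_ne hij]
      exact h i hi

theorem map_eq (P : Sg3 L S₀ F ς T) (hy : y ∈ G.PB (7 / 8) s.1) :
    PS.map T y = Function.update (Function.update y (tg s.1 false)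
      (fn F ς false s (y (tg s.1 false)))) (tg s.1 true) (fn F ς true s (y (tg s.1 true))) := by
  have h1 := P.map_one false hy
  have h2 : (T false).toFun y ∈ G.PB (7 / 8) s.1 := by
    rw [h1]
    exact (P.upd_PB (by norm_num)).2 hy
  have hne : tg s.1 false ≠ tg s.1 true := tg_ne_not s.1 false
  unfold PS.map
  rw [P.map_one true h2, h1, Function.update_of_ne hne.symm]

theorem apply (P : Sg3 L S₀ F ς T) (hy : y ∈ G.PB (7 / 8) s.1) (β : Bool) :
    PS.map T y (tg s.1 β) = fn F ς β s (y (tg s.1 β)) := by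
  have hne : tg s.1 false ≠ tg s.1 true := tg_ne_not s.1 false
  rw [P.map_eq hy]
  cases β
  · rw [Function.update_of_ne hne, Function.update_self]
  · rw [Function.update_self]

theorem nrm (P : Sg3 L S₀ F ς T) (hy : y ∈ G.PB (7 / 8) s.1) :
    PS.map T y (K.nrm s.1) = y (K.nrm s.1) := by
  rw [P.map_eq hy, Function.update_of_ne (tg_ne s.1 true).symm,
    Function.update_of_ne (tg_ne s.1 false).symm]

theorem mem_PB (P : Sg3 L S₀ F ς T) {c : ℝ} (hc : 7 / 8 ≤ c) (hc1 : c ≤ 1)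
    (hy : y ∈ G.PB c s.1) : PS.map T y ∈ G.PB c s.1 := by
  have hy' : y ∈ G.PB (7 / 8) s.1 := Vale.Agent.P073.H805.PB_mono hc s.1 hy
  have h1 := P.map_one false hy'
  have h2 : (T false).toFun y ∈ G.PB c s.1 := by
    rw [h1]
    exact (P.upd_PB hc1).2 hy
  unfold PS.map
  rw [P.map_one true (Vale.Agent.P073.H805.PB_mono hc s.1 h2)]
  exact (P.upd_PB hc1).2 h2

theorem mem_win (P : Sg3 L S₀ F ς T) (hy : y ∈ G.PB (7 / 8) s.1) {j : Fin 3}
    (hj : j ≠ K.nrm s.1) : PS.map T y j ∈ pwin G s.1 j ↔ y j ∈ pwin G s.1 j := by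
  obtain ⟨β, rfl⟩ : ∃ β, j = tg s.1 β := ⟨bt s.1 j, (tg_bt s.1 hj).symm⟩
  rw [P.apply hy]
  exact P.fn_mem

/-- **the local estimate in the plate**: `r`: part of the bands of the target of the first
staircase `e` which are controlled by the hook -/
theorem lip (P : Sg3 L S₀ F ς T) {g : V → V} {x x' : V} (hx : g x ∈ G.PB (7 / 8) s.1)
    (hx' : g x' ∈ G.PB (7 / 8) s.1) {e : Bool → ℝ} {r : ℝ} (hr : 0 ≤ r)
    (hw : ∀ β, 0 < bw (L.N s.1 β) (K.slo s.1 (tg s.1 β) + G.a s.1)
      (K.shi s.1 (tg s.1 β) - G.a s.1) (e β))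
    (he : ∀ β, (F β).e s = stp (L.N s.1 β) (K.slo s.1 (tg s.1 β) + G.a s.1)
      (K.shi s.1 (tg s.1 β) - G.a s.1) / 2 - r * bw (L.N s.1 β)
        (K.slo s.1 (tg s.1 β) + G.a s.1) (K.shi s.1 (tg s.1 β) - G.a s.1) (e β))
    {A : ℝ} (hA : ∀ β, slAK (F β) (ς β) s * bw (L.N s.1 β) (K.slo s.1 (tg s.1 β) + G.a s.1)
      (K.shi s.1 (tg s.1 β) - G.a s.1) (e β) ≤ A)
    {j : Fin 3} (hj : j ≠ K.nrm s.1) (hwj : g x j ∈ pwin G s.1 j) (hwj' : g x' j ∈ pwin G s.1 j) :
    |PS.map T (g x') j - PS.map T (g x) j| ≤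
      A * dsum (wlev (ι := PI L s.1) Sigma.fst (tg s.1) r (pcen L s.1) (pwid L e s.1) g) x x' +
        ς (bt s.1 j) s * |g x' j - g x j| := by
  classical
  obtain ⟨β, rfl⟩ : ∃ β, j = tg s.1 β := ⟨bt s.1 j, (tg_bt s.1 hj).symm⟩
  rw [P.apply hx, P.apply hx', bt_tg]
  have hbx := P.B β s
  have hN : ((F β).B s).N = L.N s.1 β := hbx.N
  have hal : ((F β).B s).al = K.slo s.1 (tg s.1 β) + G.a s.1 := hbx.al
  have hbe : ((F β).B s).be = K.shi s.1 (tg s.1 β) - G.a s.1 := hbx.be
  have e2 : pwin G s.1 (tg s.1 β) = Icc ((F β).B s).al ((F β).B s).be := by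
    rw [hal, hbe]; rfl
  rw [e2] at hwj hwj'
  have h1 := ((P.isS β).ok s).abs_sub_le hwj' hwj
  refine h1.trans (add_le_add ?_ le_rfl)
  set st := stp (L.N s.1 β) (K.slo s.1 (tg s.1 β) + G.a s.1) (K.shi s.1 (tg s.1 β) - G.a s.1) with hst
  have hwβ := hw β
  have hwid : ∀ k : Fin (L.N s.1 β), pwid L e s.1 ⟨β, k⟩ = bw (L.N s.1 β)
      (K.slo s.1 (tg s.1 β) + G.a s.1) (K.shi s.1 (tg s.1 β) - G.a s.1) (e β) := fun k => rfl
  set w := bw (L.N s.1 β) (K.slo s.1 (tg s.1 β) + G.a s.1) (K.shi s.1 (tg s.1 β) - G.a s.1) (e β)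
    with hwdef
  have hsl : 0 ≤ slAK (F β) (ς β) s := by
    have := one_le_slA ((F β).he s) ((F β).heo s) ((P.isS β).s1 s)
    unfold slAK
    linarith
  -- one band
  have hone : ∀ k : Fin (L.N s.1 β),
      clam (bl ((F β).B s).N ((F β).B s).al ((F β).B s).be ((F β).e s) k)
        (bh ((F β).B s).N ((F β).B s).al ((F β).B s).be ((F β).e s) k) (g x' (tg s.1 β)) -
      clam (bl ((F β).B s).N ((F β).B s).al ((F β).B s).be ((F β).e s) k)
        (bh ((F β).B s).N ((F β).B s).al ((F β).B s).be ((F β).e s) k) (g x (tg s.1 β)) =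
      w * (wlev (ι := PI L s.1) Sigma.fst (tg s.1) r (pcen L s.1) (pwid L e s.1) g ⟨β, k⟩ x' -
        wlev (ι := PI L s.1) Sigma.fst (tg s.1) r (pcen L s.1) (pwid L e s.1) g ⟨β, k⟩ x) := by
    intro k
    have e3 : bl ((F β).B s).N ((F β).B s).al ((F β).B s).be ((F β).e s) k =
        pcen L s.1 ⟨β, k⟩ - r * w := by
      rw [hN, hal, hbe, he β]
      show _ + _ * _ + (_ - _) = (_ + (_ + 1 / 2) * _) - _
      rw [← hst]
      ring
    have e4 : bh ((F β).B s).N ((F β).B s).al ((F β).B s).be ((F β).e s) k =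
        pcen L s.1 ⟨β, k⟩ + r * w := by
      rw [hN, hal, hbe, he β]
      show _ + (_ + 1) * _ - (_ - _) = (_ + (_ + 1 / 2) * _) + _
      rw [← hst]
      ring
    rw [e3, e4, clam_band hwβ hr]
    rfl
  have hsum : ∑ k ∈ Finset.range ((F β).B s).N,
      |clam (bl ((F β).B s).N ((F β).B s).al ((F β).B s).be ((F β).e s) k)
        (bh ((F β).B s).N ((F β).B s).al ((F β).B s).be ((F β).e s) k) (g x' (tg s.1 β)) -
      clam (bl ((F β).B s).N ((F β).B s).al ((F β).B s).be ((F β).e s) k)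
        (bh ((F β).B s).N ((F β).B s).al ((F β).B s).be ((F β).e s) k) (g x (tg s.1 β))| ≤
      w * dsum (wlev (ι := PI L s.1) Sigma.fst (tg s.1) r (pcen L s.1) (pwid L e s.1) g) x x' := by
    rw [hN, ← Fin.sum_univ_eq_sum_range (fun k =>
      |clam (bl (L.N s.1 β) ((F β).B s).al ((F β).B s).be ((F β).e s) k)
        (bh (L.N s.1 β) ((F β).B s).al ((F β).B s).be ((F β).e s) k) (g x' (tg s.1 β)) -
      clam (bl (L.N s.1 β) ((F β).B s).al ((F β).B s).be ((F β).e s) k)
        (bh (L.N s.1 β) ((F β).B s).al ((F β).B s).be ((F β).e s) k) (g x (tg s.1 β))|)]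
    have h3 : ∀ k : Fin (L.N s.1 β),
        |clam (bl (L.N s.1 β) ((F β).B s).al ((F β).B s).be ((F β).e s) k)
          (bh (L.N s.1 β) ((F β).B s).al ((F β).B s).be ((F β).e s) k) (g x' (tg s.1 β)) -
        clam (bl (L.N s.1 β) ((F β).B s).al ((F β).B s).be ((F β).e s) k)
          (bh (L.N s.1 β) ((F β).B s).al ((F β).B s).be ((F β).e s) k) (g x (tg s.1 β))| =
        w * |wlev (ι := PI L s.1) Sigma.fst (tg s.1) r (pcen L s.1) (pwid L e s.1) g ⟨β, k⟩ x' -
          wlev (ι := PI L s.1) Sigma.fst (tg s.1) r (pcen L s.1) (pwid L e s.1) g ⟨β, k⟩ x| := by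
      intro k
      have := hone k
      rw [hN] at this
      rw [this, abs_mul, abs_of_pos hwβ]
    rw [Finset.sum_congr rfl fun k _ => h3 k, ← Finset.mul_sum]
    refine mul_le_mul_of_nonneg_left ?_ hwβ.le
    unfold dsum
    rw [Fintype.sum_sigma]
    exact Finset.single_le_sum (f := fun β' : Bool => ∑ k : Fin (L.N s.1 β'),
      |wlev (ι := PI L s.1) Sigma.fst (tg s.1) r (pcen L s.1) (pwid L e s.1) g ⟨β', k⟩ x' -
        wlev (ι := PI L s.1) Sigma.fst (tg s.1) r (pcen L s.1) (pwid L e s.1) g ⟨β', k⟩ x|)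
      (fun _ _ => Finset.sum_nonneg fun _ _ => abs_nonneg _) (Finset.mem_univ β)
  calc _ ≤ slAK (F β) (ς β) s * (w * dsum (wlev (ι := PI L s.1) Sigma.fst (tg s.1) r
        (pcen L s.1) (pwid L e s.1) g) x x') := mul_le_mul_of_nonneg_left hsum hsl
    _ = (slAK (F β) (ς β) s * w) * dsum (wlev (ι := PI L s.1) Sigma.fst (tg s.1) r
        (pcen L s.1) (pwid L e s.1) g) x x' := by ring
    _ ≤ _ := mul_le_mul_of_nonneg_right (hA β) (dsum_nonneg _ _ _)

end Sg3

end P073.H880.RP
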