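import Vale.Agent.P073.H880.Out

/-!
# P073, H880: the homeomorphism after the full switch
-/

open Set Metric Topology Filter

namespace P073.H880

open P073 P073.H936 P073.H341 P073.H669

variable {ι E G : Type*} [NormedAddCommGroup E] [NormedSpace ℝ E] [NormedAddCommGroup G]
  [NormedSpace ℝ G] {V : VFam ι E} {r : ℝ}

omit [NormedAddCommGroup G] [NormedSpace ℝ G] in
theorem face_shr (h0 : 0 < r) {N : Set G} {s : G → ℝ} {c : ℝ} (hc : |c| ≤ 1) :
    face (shr N s r) (fun x => s x / r) c = face N s (r * c) := by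
  ext x
  constructor
  · rintro ⟨⟨hx, -⟩, h⟩
    refine ⟨hx, ?_⟩
    have h' : s x / r = c := h
    rw [← h', mul_div_cancel₀ _ h0.ne']
  · rintro ⟨hx, h⟩
    refine ⟨⟨hx, ?_⟩, ?_⟩
    · rw [show s x = r * c from h, abs_mul, abs_of_pos h0]
      exact mul_le_of_le_one_right h0.le hc
    · show s x / r = c
      rw [show s x = r * c from h, mul_div_cancel_left₀ _ h0.ne']

/-- **[OUT]** The homeomorphism after the full switch. -/
theorem exists_out [Fintype ι] {L : LamData V.swData} (O : SwOut V.swData L r) (h0 : 0 < r)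
    (h1 : r ≤ 1) {C : Set E} (hone : One V C) {C' B' : Set G} {D' N' : ι → Set G}
    {s' : ι → G → ℝ} (S' : FSys V.side C' B' D' N' s') {h : ConHomeo V.Bd B'}
    (hh : BEq V.N V.s N' s' h)
    (hcr : ∀ i j, V.side i = false → V.side j = true → ∀ a b : ℝ, |a| ≤ 1 → |b| ≤ 1 →
      Crosses C' (face (N' i) (s' i) a) (face (N' j) (s' j) b)) :
    ∃ g : ConHomeo C C', EqOn g.toFun h.toFun V.Bd ∧
      (∀ i, g.toFun '' O.B i = shr (N' i) (s' i) r) ∧
      ∀ i, ∀ x ∈ O.B i, s' i (g.toFun x) = O.b i x := by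
  have hB : BEq O.B (fun i x => O.b i x / r) (fun i => shr (N' i) (s' i) r)
      (fun i x => s' i x / r) h := by
    constructor
    · intro i x hx
      constructor
      · rintro ⟨hy, hyr⟩
        have h2 := (hh.mem i x hx).1 hy
        rw [hh.lev i x hx h2] at hyr
        exact root_sub O i (LamData.mem_PP_root h2 hyr (Or.inr ((VFam.norm_phi (V := V) h2).2 hx)))
      · intro hxB
        have h2 := root_N (root_of_bd O hxB hx)
        refine ⟨(hh.mem i x hx).2 h2.1, ?_⟩
        rw [hh.lev i x hx h2.1]; exact h2.2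
    · intro i x hx hxB
      have h3 := root_of_bd O hxB hx
      have h2 := root_N h3
      show s' i (h.toFun x) / r = O.b i x / r
      rw [hh.lev i x hx h2.1, lev_root O h3]
  obtain ⟨g, hg1, hg2, hg3⟩ := (newSys O h0 h1 hone).exists_equiv (S'.shrink h0 h1) hB (by
    intro i j hi hj a b ha hb
    have ha' : |a| ≤ 1 := by rcases ha with rfl | rfl <;> norm_num
    have hb' : |b| ≤ 1 := by rcases hb with rfl | rfl <;> norm_num
    rw [face_shr h0 ha', face_shr h0 hb']
    refine hcr i j hi hj _ _ ?_ ?_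
    · rw [abs_mul, abs_of_pos h0]; exact mul_le_one₀ h1 (abs_nonneg _) ha'
    · rw [abs_mul, abs_of_pos h0]; exact mul_le_one₀ h1 (abs_nonneg _) hb')
  refine ⟨g, hg1, hg2, fun i x hx => ?_⟩
  have h2 := hg3 i x hx
  have h3 : s' i (g.toFun x) / r * r = O.b i x / r * r := by rw [h2]
  rwa [div_mul_cancel₀ _ h0.ne', div_mul_cancel₀ _ h0.ne'] at h3

end P073.H880
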