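import Vale.Agent.P073.H880.Tgt
import Vale.Agent.P073.H880.Out2

/-!
# P073, H880: one box after the full switch
-/

open Set Metric Topology Filter
open scoped ENNReal

namespace P073.H880

open P073 P073.H936 P073.H341 P073.H669 P073.H579

section stair

variable {ι : Type*}

theorem clp_mono {r s t : ℝ} (h : s ≤ t) : clp r s ≤ clp r t := by
  unfold clp
  gcongr

/-- clipped levels of a coordinate -/
noncomputable def cl (r : ℝ) (c w : ι → ℝ) (i : ι) (t : ℝ) : ℝ := clp r ((t - c i) / w i)

theorem cl_mono {r : ℝ} {c w : ι → ℝ} {i : ι} (hw : 0 < w i) {s t : ℝ} (h : s ≤ t) :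
    cl r c w i s ≤ cl r c w i t :=
  clp_mono (div_le_div_of_nonneg_right (by linarith) hw.le)

/-- the staircase of finitely many levels of one coordinate -/
noncomputable def stair (r : ℝ) (c w : ι → ℝ) (T : Finset ι) (t : ℝ) : ℝ :=
  ∑ i ∈ T, cl r c w i t

/-- the changes of the levels of one coordinate have the same sign -/
theorem sum_abs_cl {r : ℝ} {c w : ι → ℝ} {T : Finset ι} (hw : ∀ i ∈ T, 0 < w i) (s t : ℝ) :
    ∑ i ∈ T, |cl r c w i t - cl r c w i s| = |stair r c w T t - stair r c w T s| := by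
  have key : ∀ s t : ℝ, s ≤ t → ∑ i ∈ T, |cl r c w i t - cl r c w i s| =
      |stair r c w T t - stair r c w T s| := by
    intro s t hst
    unfold stair
    rw [← Finset.sum_sub_distrib, abs_of_nonneg (Finset.sum_nonneg fun i hi =>
      sub_nonneg.2 (cl_mono (hw i hi) hst))]
    exact Finset.sum_congr rfl fun i hi => abs_of_nonneg (sub_nonneg.2 (cl_mono (hw i hi) hst))
  rcases le_total s t with h | h
  · exact key s t h
  · rw [abs_sub_comm (stair r c w T t), ← key t s h]
    exact Finset.sum_congr rfl fun i _ => abs_sub_comm _ _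

end stair

variable {ι E : Type*} [NormedAddCommGroup E] [NormedSpace ℝ E] {V : VFam ι E} {r : ℝ}
  {L : LamData V.swData} {lo hi : Fin 3 → ℝ} {ax : Bool → Fin 3} {c w : ι → ℝ}

/-- the clipped levels of a homeomorphism onto a box -/
noncomputable def wlev (side : ι → Bool) (ax : Bool → Fin 3) (r : ℝ) (c w : ι → ℝ)
    (g : E → Fin 3 → ℝ) (i : ι) (x : E) : ℝ := cl r c w i (g x (ax (side i)))

omit [NormedAddCommGroup E] [NormedSpace ℝ E] in
theorem dsum_wlev [Fintype ι] {side : ι → Bool} {g : E → Fin 3 → ℝ} (hw : ∀ i, 0 < w i)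
    (x y : E) : dsum (wlev side ax r c w g) x y =
      ∑ X : Bool, |stair r c w (Finset.univ.filter fun i => side i = X) (g y (ax X)) -
        stair r c w (Finset.univ.filter fun i => side i = X) (g x (ax X))| := by
  classical
  rw [dsum, ← Finset.sum_fiberwise (g := side)]
  refine Finset.sum_congr rfl fun X _ => ?_
  rw [← sum_abs_cl fun i _ => hw i]
  refine Finset.sum_congr rfl fun i hi => ?_
  rw [Finset.mem_filter] at hi
  rw [wlev, wlev, hi.2]

/-- **one box after the full switch** -/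
theorem exists_box [Fintype ι] (O : SwOut V.swData L r) (h0 : 0 < r) (h1 : r < 1) {U : Set E}
    (hone : One V U) (H : Bands V.side ax lo hi c w)
    {h : ConHomeo V.Bd (frontier (Icc lo hi))}
    (hmem : ∀ i, ∀ x ∈ V.Bd, (|h.toFun x (ax (V.side i)) - c i| ≤ w i ↔ x ∈ V.N i))
    (hlev : ∀ i, ∀ x ∈ V.Bd, x ∈ V.N i →
      (h.toFun x (ax (V.side i)) - c i) / w i = V.s i x) :
    ∃ g : ConHomeo U (Icc lo hi), EqOn g.toFun h.toFun V.Bd ∧
      (∀ i, g.toFun '' O.B i =
        {y | y ∈ Icc lo hi ∧ |y (ax (V.side i)) - c i| ≤ r * w i}) ∧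
      (∀ i, ∀ x ∈ O.B i, (g.toFun x (ax (V.side i)) - c i) / w i = O.b i x) ∧
      Lev O U (wlev V.side ax r c w g.toFun) := by
  have hh : BEq V.N V.s (fun i => band lo hi (ax (V.side i)) (c i) (w i))
      (fun i => blev (ax (V.side i)) (c i) (w i)) h := by
    constructor
    · intro i x hx
      rw [← hmem i x hx]
      have h2 := (mem_frontier_box.1 (h.mapsTo hx)).1
      exact ⟨fun h3 => h3.2, fun h3 => ⟨h2, h3⟩⟩
    · intro i x hx hxN
      exact hlev i x hx hxN
  obtain ⟨g, hg1, hg2, hg3⟩ := exists_out O h0 h1.le hone H.sys hh H.cross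
  have hshr : ∀ i, shr (band lo hi (ax (V.side i)) (c i) (w i))
      (blev (ax (V.side i)) (c i) (w i)) r =
      {y | y ∈ Icc lo hi ∧ |y (ax (V.side i)) - c i| ≤ r * w i} := by
    intro i
    have hw := (H.ok i).pos
    ext y
    constructor
    · rintro ⟨⟨hy, -⟩, h2⟩
      refine ⟨hy, ?_⟩
      have h2' : |(y (ax (V.side i)) - c i) / w i| ≤ r := h2
      rwa [abs_div, abs_of_pos hw, div_le_iff₀ hw] at h2'
    · rintro ⟨hy, h2⟩
      refine ⟨⟨hy, h2.trans (mul_le_of_le_one_left hw.le h1.le)⟩, ?_⟩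
      show |(y (ax (V.side i)) - c i) / w i| ≤ r
      rwa [abs_div, abs_of_pos hw, div_le_iff₀ hw]
  have hBsub : ∀ i, O.B i ⊆ U := fun i => B_sub O hone i
  refine ⟨g, hg1, fun i => by rw [hg2, hshr], fun i x hx => hg3 i x hx, ?_, ?_, ?_, ?_⟩
  · intro i
    refine ContinuousOn.comp (g := clp r) (t := univ) (continuous_clp r).continuousOn ?_
      (mapsTo_univ _ _)
    have h2 : ContinuousOn (fun x => g.toFun x (ax (V.side i))) U :=
      (continuous_apply (ax (V.side i))).comp_continuousOn g.cont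
    exact (h2.sub continuousOn_const).div_const _
  · intro i x _
    exact abs_clp_le h0
  · intro i x hx hxB
    refine abs_clp_of_ge h0 ?_
    have hw := (H.ok i).pos
    by_contra hlt
    push Not at hlt
    apply hxB
    have h2 : g.toFun x ∈ g.toFun '' O.B i := by
      rw [hg2, hshr]
      refine ⟨g.mapsTo hx, ?_⟩
      rw [abs_div, abs_of_pos hw, div_lt_iff₀ hw] at hlt
      exact hlt.le
    obtain ⟨z, hz, hzx⟩ := h2
    rwa [← g.injOn (hBsub i hz) hx hzx]
  · intro i x hx
    have h2 := hg3 i x hx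
    have h3 : |O.b i x| ≤ r := by
      have h4 : g.toFun x ∈ g.toFun '' O.B i := ⟨x, hx, rfl⟩
      rw [hg2] at h4
      rw [← h2]
      exact h4.2
    have h5 : (g.toFun x (ax (V.side i)) - c i) / w i = O.b i x := h2
    show clp r ((g.toFun x (ax (V.side i)) - c i) / w i) = O.b i x
    rw [h5]
    exact clp_of_le h3

/-- **[MET]** the two staircase functions after the switch: the local inequality -/
theorem Lev.eventually_stair [Fintype ι] {O : SwOut V.swData L r} {U : Set E}
    {g : E → Fin 3 → ℝ} (hL : Lev O U (wlev V.side ax r c w g)) (hw : ∀ i, 0 < w i) (h0 : 0 < r)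
    (h1 : r < 1) {x : E} (hx : x ∈ U) : ∀ᶠ y in 𝓝[U] x,
      ∑ X : Bool, |stair r c w (Finset.univ.filter fun i => V.side i = X) (g y (ax X)) -
        stair r c w (Finset.univ.filter fun i => V.side i = X) (g x (ax X))| ≤
      tot V.N V.s x y := by
  filter_upwards [hL.eventually_dsum_le h0 h1 hx] with y hy
  rwa [dsum_wlev hw] at hy

/-- **[MET]** the variations of the two staircase functions along a curve -/
theorem Lev.sum_eVariationOn_le [Fintype ι] {O : SwOut V.swData L r} {U : Set E}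
    {g : E → Fin 3 → ℝ} (hL : Lev O U (wlev V.side ax r c w g)) (hw : ∀ i, 0 < w i) (h0 : 0 < r)
    (h1 : r < 1) {γ : ℝ → E} {a b : ℝ} (hab : a ≤ b)
    (hγ : ContinuousOn γ (Icc a b)) (hC : MapsTo γ (Icc a b) U) :
    ∑ X : Bool, eVariationOn (fun t => stair r c w (Finset.univ.filter fun i => V.side i = X)
        (g (γ t) (ax X))) (Icc a b) ≤
      cvar (fun s t => ENNReal.ofReal (tot V.N V.s (γ s) (γ t))) a b := by
  refine le_trans ?_ (hL.cvar_le h0 h1 hγ hC)
  simp only [eVariationOn_eq_cvar]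
  refine (sum_cvar_le Finset.univ (fun X _ => tri_abs _) hab).trans ?_
  refine cvar_congr fun s _ t _ _ => ?_
  rw [dsum_wlev hw, ← ENNReal.ofReal_sum_of_nonneg fun _ _ => abs_nonneg _]

end P073.H880
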