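import Vale.Agent.P073.H880.RP0

/-!
# P073, H880: **[K3-RP]**, the insertion step of ROUND P for `K3C`

`passFace_of`: from `PassedD` (399, PASS2) to `PassFace`.  `exists_stage3`: given maps `Θ ∘ h1` on
`WF` and `Gc`, good maps on `Peel`, `PassFace` for all other faces.
-/

open Set Metric Topology Filter

namespace P073.H880.RP

open _root_.P073 _root_.P073.Net _root_.P073.PA691 _root_.P073.H236 _root_.P073.H579
  _root_.P073.H345 _root_.P073.H880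
open Vale.Agent.P073.St (V)
open Vale.Agent.P073.H471 Vale.Agent.P073.H267 Vale.Agent.P073.H267.Geo
open Vale.Agent.P073.H73 (Mesh)
open Vale.Agent.P073.H193 (Edges Cyc)
open P073.H196 (MvInv)

variable {Ω Λ : Set V} {v : V} {K : BoxCx Λ v} {S : Rad K} {W : Wid K S} {B : Boxes W}
  {M : Mesh Ω} {E : Edges M}

/-! ### passive faces -/

theorem passFace_of {h : ConHomeo Ω Λ} {κ : V → V} (hpre : ∀ X ⊆ Ω, Pre κ Λ h X = κ ⁻¹' (h.toFun '' X))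
    {ι : Type*} {F : ι → Set V} {k : M.κ} (hFe : ∀ e, ∃ i, F i = E.seg e)
    (hFv : ∀ x ∈ E.verts, ∃ i, F i = {x})
    {Φ : ConHomeo (M.F k) (κ ⁻¹' (h.toFun '' M.F k))} {γ : V → V}
    (P : PassedD (M.F k) h.toFun κ F Φ γ) :
    PassFace M E h κ k ∧ ∀ x ∈ E.verts, x ∈ M.F k → (Pre κ Λ h {x}).Subsingleton := by
  have hFΩ : M.F k ⊆ Ω := Vale.Agent.P073.H193.mesh_sub M k
  refine ⟨⟨Φ.cast rfl (hpre _ hFΩ).symm, fun e he => ?_, fun x hx hxk => ?_⟩, fun x hx hxk => ?_⟩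
  · obtain ⟨i, hi⟩ := hFe e
    have h2 := P.img i
    rw [hi, inter_eq_left.2 he] at h2
    rw [hpre _ (he.trans hFΩ)]
    exact h2
  · obtain ⟨i, hi⟩ := hFv x hx
    have h2 := (P.iff i x hxk).2 (by rw [hi]; rfl)
    rw [hi, mem_singleton_iff] at h2
    show κ (Φ.toFun x) = h.toFun x
    rw [P.eq x hxk, h2]
  · obtain ⟨i, hi⟩ := hFv x hx
    have h2 := P.img i
    rw [hi, inter_eq_left.2 (singleton_subset_iff.2 hxk), image_singleton] at h2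
    rw [hpre _ (singleton_subset_iff.2 (hFΩ hxk)), ← h2]
    exact subsingleton_singleton

/-! ### the preserved sets -/

/-- the thin insertion map preserves the sets which are invariant in the thick cells -/
theorem mem_iff_κ {G : Geo B} {L : PLev G} {S₀ : Set K.S} {c : K.S → Bool → ℝ}
    {h0 : ∀ s β, 0 < c s β} {h1 : ∀ s β, c s β ≤ L.c s β} {β : Bool} {κ : V → V}
    (hκ : IsQ (fun s : S₀ => (thinL L c h0 h1).bx β s.1) κ) {A : Set V} (hA : Inv L S₀ A) (y : V) :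
    κ y ∈ A ↔ y ∈ A := by
  refine P073.H196.IsQ.mem_iff_of hκ fun s hs b hb hyb => ?_
  have hc := h1 s.1 β
  obtain ⟨n, hn, rfl⟩ := (L.lvs s.1 β).mem_L.1 hb
  have hsK : y ∈ PK G s.1 := (PLev.mem_bxK.1 hs).1
  refine (hA s.1 s.2 β n hn).mono (Icc_subset_Icc ?_ ?_) (singleton_subset_iff.2 hsK)
  · show L.a s.1 β n - 2 * L.c s.1 β ≤ L.a s.1 β n - 2 * c s.1 β
    linarith
  · show L.a s.1 β n + 2 * c s.1 β ≤ L.a s.1 β n + 2 * L.c s.1 β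
    linarith

/-! ### given faces and cells -/

theorem Dat.face_Gc {D : Dat K M} {G : Geo B} {h : ConHomeo Ω Λ} {i : M.ι} (hi : i ∈ D.Gc G h)
    {k : M.κ} (hk : M.F k ⊆ M.Q i) : k ∈ D.WF G h := by
  by_cases hP : k ∈ D.PF
  · exact Or.inr hP
  · rcases hi with hi | ⟨hi, -, hi2⟩
    · exact Or.inr ⟨i, hi, hk⟩
    · exact Or.inl ⟨⟨⟨i, hi, hk⟩, fun i' hi' hk' => hP ⟨i', hi', hk'⟩⟩, hi2 k hk⟩

theorem Dat.peel_not_WF {D : Dat K M} {G : Geo B} {h : ConHomeo Ω Λ} {k : M.κ}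
    (hk : k ∈ D.Peel G h) : k ∉ D.WF G h := by
  rintro (⟨-, h1⟩ | ⟨i, hi, hki⟩)
  · exact h1 hk
  · obtain ⟨s, -, hA, -⟩ := hk
    exact hA.2 i hi hki

/-- **the output of the insertion step** -/
structure Out3 (G : Geo B) (E : Edges M) (D : Dat K M) (h1 h2 : ConHomeo Ω Λ) (κ : V → V)
    (Θ : ConHomeo Λ Λ) (GE : E.ε → (V → V) → Prop) (GF : M.κ → (V → V) → Prop)
    (h3 : ConHomeo Ω Λ) : Prop extends Out2 M E h2 κ (D.Peel G h1) GE GF h3 where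
  /-- the given faces -/
  giv : ∀ k ∈ D.WF G h1, ∀ x ∈ M.F k, h3.toFun x = Θ.toFun (h1.toFun x)
  /-- the given cells -/
  givc : ∀ i ∈ D.Gc G h1, ∀ x ∈ M.Q i, h3.toFun x = Θ.toFun (h1.toFun x)

/-- **ROUND P for `K3C`, the insertion step** -/
theorem exists_stage3 (hΩ : IsOpen Ω) {G : Geo B} {D : Dat K M} {L : PLev G}
    {h1 h2 : ConHomeo Ω Λ} {κ : V → V} {Θ : ConHomeo Λ Λ} (hInv : InvIn G E D L h1)
    (hoff : ∀ k ∈ D.WF G h1, EqOn h2.toFun h1.toFun (M.F k))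
    (hoffc : ∀ i ∈ D.Gc G h1, EqOn h2.toFun h1.toFun (M.Q i))
    (hI : InsMap κ Λ Λ) (hκ : ∀ A, Inv L D.S₀ A → ∀ y ∈ Λ, (κ y ∈ A ↔ y ∈ A))
    (hΘ : ∀ A, Inv L D.S₀ A → ∀ y ∈ Λ, (Θ.toFun y ∈ A ↔ y ∈ A))
    (hN : ∀ x ∈ E.verts, (Pre κ Λ h2 {x}).Subsingleton)
    (hpass : ∀ k, k ∉ D.WF G h1 → k ∉ D.Peel G h1 → PassFace M E h2 κ k)
    (GE : E.ε → (V → V) → Prop) (GF : M.κ → (V → V) → Prop)
    (hGE : ∀ e (f g : V → V), EqOn f g (E.seg e) → GE e f → GE e g)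
    (hshared : ∀ k ∈ D.Peel G h1, ∀ l ∈ D.WF G h1, ∀ e, E.seg e ⊆ M.F k →
      E.seg e ⊆ M.F l → GE e fun x => Θ.toFun (h1.toFun x))
    (hedge : ∀ k ∈ D.Peel G h1, ∀ e, E.seg e ⊆ M.F k →
      (∀ l ∈ D.WF G h1, ¬ E.seg e ⊆ M.F l) →
      ∃ Φ : ConHomeo (E.seg e) (Pre κ Λ h2 (E.seg e)),
      GE e Φ.toFun ∧ ∀ x ∈ E.seg e, x ∈ E.verts → κ (Φ.toFun x) = h2.toFun x)
    (hface : ∀ k ∈ D.Peel G h1,
      ∀ Φe : ∀ e, E.seg e ⊆ M.F k → ConHomeo (E.seg e) (Pre κ Λ h2 (E.seg e)),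
      (∀ e he, GE e (Φe e he).toFun) →
      (∀ e he e' he', EqOn (Φe e he).toFun (Φe e' he').toFun (E.seg e ∩ E.seg e')) →
      (∀ e he, ∀ x ∈ E.seg e, x ∈ E.verts → κ ((Φe e he).toFun x) = h2.toFun x) →
      ∃ Φ : ConHomeo (M.F k) (Pre κ Λ h2 (M.F k)), GF k Φ.toFun ∧
        ∀ e he, EqOn Φ.toFun (Φe e he).toFun (E.seg e)) :
    ∃ h3 : ConHomeo Ω Λ, Out3 G E D h1 h2 κ Θ GE GF h3 := by
  classical
  have hFΩ : ∀ k, M.F k ⊆ Ω := Vale.Agent.P073.H193.mesh_sub M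
  have hQΩ : ∀ i, M.Q i ⊆ Ω := fun i => M.sub i
  have hsub : ∀ {X Y : Set V}, Y ⊆ X → EqOn h2.toFun h1.toFun X → h2.toFun '' Y = h1.toFun '' Y :=
    fun hYX he => image_congr fun x hx => he (hYX hx)
  have hpre : ∀ X Y : Set V, Y ⊆ X → EqOn h2.toFun h1.toFun X → Pre κ Λ h1 Y = Pre κ Λ h2 Y := by
    intro X Y hYX he
    have e1 := hsub hYX he
    ext y
    show (y ∈ Λ ∧ κ y ∈ h1.toFun '' Y) ↔ (y ∈ Λ ∧ κ y ∈ h2.toFun '' Y)
    rw [e1]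
  -- given faces
  have hW : ∀ k ∈ D.WF G h1, ∃ Φ : ConHomeo (M.F k) (Pre κ Λ h2 (M.F k)),
      ∀ x, Φ.toFun x = Θ.toFun (h1.toFun x) := by
    intro k hk
    obtain ⟨Φ, hΦ, -⟩ := P073.H196.exists_theta (κ := κ) h1 Θ (hFΩ k)
      (Vale.Agent.P073.H244.conBall_face M k).conicalSet (hκ _ (hInv.face k hk))
      (hΘ _ (hInv.face k hk))
    exact ⟨Φ.cast rfl (hpre _ _ Subset.rfl (hoff k hk)), hΦ⟩
  choose ΦW hΦW using hW
  have hC : ∀ i ∈ D.Gc G h1, ∃ Φ : ConHomeo (M.Q i) (Pre κ Λ h2 (M.Q i)),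
      ∀ x, Φ.toFun x = Θ.toFun (h1.toFun x) := by
    intro i hi
    obtain ⟨Φ, hΦ, -⟩ := P073.H196.exists_theta (κ := κ) h1 Θ (hQΩ i)
      (Vale.Agent.P073.H244.conBall_cell M i).conicalSet (hκ _ (hInv.cell i hi)) (hΘ _ (hInv.cell i hi))
    exact ⟨Φ.cast rfl (hpre _ _ Subset.rfl (hoffc i hi)), hΦ⟩
  choose Ψ hΨ using hC
  obtain ⟨h3, a1, a2, a3⟩ := exists_stage2G hΩ M E h2 hI hN (D.WF G h1) ΦW
    { agree := fun k hk l hl x hx => by rw [hΦW, hΦW]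
      edge := fun k hk e he => by
        have h3 : (ΦW k hk).toFun '' E.seg e = (fun x => Θ.toFun (h1.toFun x)) '' E.seg e :=
          image_congr fun x _ => hΦW k hk x
        rw [h3, ← hpre _ _ he (hoff k hk)]
        exact P073.H196.theta_image (he.trans (hFΩ k)) (hκ _ (hInv.edge k hk e he))
          (hΘ _ (hInv.edge k hk e he))
      vert := fun k hk x hx hxk => by
        have hv := hInv.vert k hk x hx hxk
        have hxΛ := h1.mapsTo (hFΩ k hxk)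
        have e1 : Θ.toFun (h1.toFun x) = h1.toFun x := (hΘ _ hv _ hxΛ).2 rfl
        have e2 : κ (h1.toFun x) = h1.toFun x := (hκ _ hv _ hxΛ).2 rfl
        rw [hΦW, e1, e2, hoff k hk hxk] }
    (D.Peel G h1) (fun k hk => Dat.peel_not_WF hk) hpass GE GF
    (fun k hk e he ⟨l, hl, hel⟩ => hGE e _ _ (fun x _ => (hΦW k hk x).symm)
      (hshared l hl k hk e hel he))
    hedge hface (D.Gc G h1) Ψ
    (fun i hi k hk => ⟨Dat.face_Gc hi hk, fun x _ => by rw [hΨ, hΦW]⟩)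
  exact ⟨h3, ⟨a1, fun k hk x hx => (a2 k hk hx).trans (hΦW k hk x),
    fun i hi x hx => (a3 i hi hx).trans (hΨ i hi x)⟩⟩

end P073.H880.RP
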