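import Vale.Agent.P073.H880.Fib
import Vale.Agent.P073.H341.Uncond
import Vale.Agent.P073.PRT483.Prod

/-!
# P073, H880: systems of fibred sheets in a ball
-/

open Set Metric Topology Filter

namespace P073.H880

open P073 P073.H936 P073.H341

variable {E : Type*} [NormedAddCommGroup E] [NormedSpace ℝ E]

/-- a level set in a sheet -/
def face (N : Set E) (s : E → ℝ) (c : ℝ) : Set E := {x | x ∈ N ∧ s x = c}

theorem face_sub {N : Set E} {s : E → ℝ} {c : ℝ} : face N s c ⊆ N := fun _ hx => hx.1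

section one

variable {n : ℕ} {D N B : Set E} {s : E → ℝ}

theorem Fib.face_eq (F : Fib D N s) {c : ℝ} (hc : c ∈ LI) :
    face N s c = F.Γ.toFun '' (D ×ˢ {c}) := by
  ext x
  constructor
  · rintro ⟨hx, hs⟩
    exact ⟨(F.pr x, s x), ⟨F.pr_mem hx, hs⟩, F.pr_eq hx⟩
  · rintro ⟨⟨z, t⟩, ⟨hz, ht⟩, rfl⟩
    have ht' : t = c := ht
    subst ht'
    exact ⟨F.mem_N hz hc, F.lev z hz t hc⟩

/-- the fibres over the boundary lie in the boundary, the other fibres do not meet it -/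
def Fib.Bd (F : Fib D N s) (B : Set E) : Prop :=
  ∀ z ∈ D, ∀ t ∈ Icc (-1:ℝ) 1, (F.Γ.toFun (z, t) ∈ B ↔ z ∈ B)

theorem Fib.Bd.image {F : Fib D N s} (h : F.Bd B) {X : Set ℝ} (hX : X ⊆ LI) :
    F.Γ.toFun '' ((D ∩ B) ×ˢ X) = F.Γ.toFun '' (D ×ˢ X) ∩ B := by
  ext x
  constructor
  · rintro ⟨⟨z, t⟩, ⟨hz, ht⟩, rfl⟩
    exact ⟨⟨(z, t), ⟨hz.1, ht⟩, rfl⟩, (h z hz.1 t (hX ht)).2 hz.2⟩
  · rintro ⟨⟨⟨z, t⟩, ⟨hz, ht⟩, rfl⟩, hB⟩
    exact ⟨(z, t), ⟨⟨hz, (h z hz t (hX ht)).1 hB⟩, ht⟩, rfl⟩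

theorem Fib.Bd.pr_iff {F : Fib D N s} (h : F.Bd B) {x : E} (hx : x ∈ N) : F.pr x ∈ B ↔ x ∈ B := by
  have := h (F.pr x) (F.pr_mem hx) (s x) (F.lev_mem hx)
  rw [F.pr_eq hx] at this
  exact this.symm

theorem Fib.image_N (F : Fib D N s) : F.Γ.toFun '' (D ×ˢ Icc (-1:ℝ) 1) = N := F.Γ.image_eq

/-- a level set of a fibred ball is a ball -/
theorem Fib.conBall_face (F : Fib D N s) (hD : ConBall n D (D ∩ B)) (h : F.Bd B) {c : ℝ}
    (hc : c ∈ LI) : ConBall n (face N s c) (face N s c ∩ B) := by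
  have h1 : (D ×ˢ {c} : Set (E × ℝ)) ⊆ D ×ˢ Icc (-1:ℝ) 1 :=
    prod_mono Subset.rfl (by rintro t ht; rw [show t = c from ht]; exact hc)
  have h2 := (hD.slice c).image F.Γ h1
  rw [h.image (X := {c}) (by rintro t ht; rw [show t = c from ht]; exact hc), ← F.face_eq hc] at h2
  exact h2

/-- a fibred ball is a ball -/
theorem Fib.conBall_N (F : Fib D N s) (hD : ConBall n D (D ∩ B)) (h : F.Bd B) :
    ConBall (n + 1) N (face N s (-1) ∪ face N s 1 ∪ (N ∩ B)) := by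
  have h2 := hD.prodIcc.image F.Γ Subset.rfl
  have e : F.Γ.toFun '' prodBd D (D ∩ B) = face N s (-1) ∪ face N s 1 ∪ (N ∩ B) := by
    rw [F.face_eq ⟨le_refl _, by norm_num⟩, F.face_eq ⟨by norm_num, le_refl _⟩]
    have e1 : prodBd D (D ∩ B) = (D ×ˢ {(-1:ℝ)} ∪ D ×ˢ {(1:ℝ)}) ∪ (D ∩ B) ×ˢ Icc (-1:ℝ) 1 := by
      ext ⟨z, t⟩
      simp only [prodBd, mem_union, mem_prod, mem_insert_iff, mem_singleton_iff]
      tauto
    rw [e1, image_union, image_union, h.image Subset.rfl, F.image_N]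
  rw [e, F.image_N] at h2
  exact h2

theorem face_disj {N : Set E} {s : E → ℝ} {c c' : ℝ} (h : c ≠ c') :
    Disjoint (face N s c) (face N s c') :=
  disjoint_left.2 fun _ hx hx' => h (hx.2.symm.trans hx'.2)

end one

section two

variable {D N D' N' B : Set E} {s s' : E → ℝ}

/-- the trace of the second sheet on the middle sheet of the first one -/
noncomputable def Fib.strip (F : Fib D N s) (F' : Fib D' N' s') (h' : Pres F' N s) :
    Fib (D ∩ D') (D ∩ N') s' where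
  Γ := (F'.Γ.restr ((F.conicalSet_D.inter F'.conicalSet_D).prod (conicalSet_Icc _ _))
    (prod_mono inter_subset_right Subset.rfl)).cast rfl (by
      apply Subset.antisymm
      · rintro _ ⟨⟨z, t⟩, ⟨hz, ht⟩, rfl⟩
        exact blk_mid F F' h' hz.1 hz.2 ht
      · rintro y ⟨hy, hy'⟩
        obtain ⟨h1, h2⟩ := h'.pr_mem hy' (F.sub hy)
        refine ⟨(F'.pr y, s' y), ⟨⟨F.mem_D_iff.2 ⟨h1, ?_⟩, F'.pr_mem hy'⟩, F'.lev_mem hy'⟩,
          F'.pr_eq hy'⟩
        rw [h2]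
        exact (F.mem_D_iff.1 hy).2)
  lev := fun z hz t ht => F'.lev z hz.2 t ht
  zero := fun z hz => F'.zero z hz.2

theorem Fib.strip_toFun (F : Fib D N s) (F' : Fib D' N' s') (h' : Pres F' N s) (q : E × ℝ) :
    (F.strip F' h').Γ.toFun q = F'.Γ.toFun q := rfl

theorem Fib.Bd.strip {F : Fib D N s} {F' : Fib D' N' s'} (h' : Pres F' N s) (hB : F'.Bd B) :
    (F.strip F' h').Bd B := fun z hz t ht => hB z hz.2 t ht

end two

/-- a system of fibred sheets in the ball `C` with boundary `B`: two families, every pair of sheets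
of different families meets in one arc block -/
structure FSys {ι : Type*} (side : ι → Bool) (C B : Set E) (D N : ι → Set E) (s : ι → E → ℝ) where
  hC : ConBall 3 C B
  F : ∀ i, Fib (D i) (N i) (s i)
  sub : ∀ i, N i ⊆ C
  disc : ∀ i, ConBall 2 (D i) (D i ∩ B)
  bd : ∀ i, (F i).Bd B
  disj : ∀ i j, i ≠ j → side i = side j → Disjoint (N i) (N j)
  pres : ∀ i j, side i ≠ side j → Pres (F i) (N j) (s j)
  arc : ∀ i j, side i ≠ side j → ConBall 1 (D i ∩ D j) (D i ∩ D j ∩ B)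

namespace FSys

variable {ι : Type*} {side : ι → Bool} {C B : Set E} {D N : ι → Set E} {s : ι → E → ℝ}
  (S : FSys side C B D N s)

include S

/-- the family of one side is a family of thick sheets -/
theorem tfam (X : Bool) (K : Finset ι) (hK : ∀ k ∈ K, side k = X) :
    TFam 1 C B K N (fun i => face (N i) (s i) (-1)) (fun i => face (N i) (s i) 1) where
  hC := S.hC
  h0 := fun k _ => (S.F k).conBall_face (S.disc k) (S.bd k) ⟨le_refl _, by norm_num⟩
  h1 := fun k _ => (S.F k).conBall_face (S.disc k) (S.bd k) ⟨by norm_num, le_refl _⟩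
  mid := fun k _ => ⟨(S.F k).conBall_N (S.disc k) (S.bd k), S.sub k⟩
  hf := fun k _ => face_disj (by norm_num)
  hd := fun k hk k' hk' hne => S.disj k k' hne ((hK k hk).trans (hK k' hk').symm)

/-- the traces on a middle sheet -/
theorem tfam_strip (i : ι) (K : Finset ι) (hK : ∀ k ∈ K, side i ≠ side k) :
    TFam 0 (D i) (D i ∩ B) K (fun k => D i ∩ N k) (fun k => face (D i ∩ N k) (s k) (-1))
      (fun k => face (D i ∩ N k) (s k) 1) where
  hC := S.disc i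
  h0 := fun k hk => by
    have := ((S.F i).strip (S.F k) (S.pres k i (hK k hk).symm)).conBall_face (S.arc i k (hK k hk))
      (Fib.Bd.strip _ (S.bd k)) (c := -1) ⟨le_refl _, by norm_num⟩
    rwa [show face (D i ∩ N k) (s k) (-1) ∩ (D i ∩ B) = face (D i ∩ N k) (s k) (-1) ∩ B by
      rw [← inter_assoc, inter_eq_left.2 (face_sub.trans inter_subset_left)]]
  h1 := fun k hk => by
    have := ((S.F i).strip (S.F k) (S.pres k i (hK k hk).symm)).conBall_face (S.arc i k (hK k hk))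
      (Fib.Bd.strip _ (S.bd k)) (c := 1) ⟨by norm_num, le_refl _⟩
    rwa [show face (D i ∩ N k) (s k) 1 ∩ (D i ∩ B) = face (D i ∩ N k) (s k) 1 ∩ B by
      rw [← inter_assoc, inter_eq_left.2 (face_sub.trans inter_subset_left)]]
  mid := fun k hk => by
    have := ((S.F i).strip (S.F k) (S.pres k i (hK k hk).symm)).conBall_N (S.arc i k (hK k hk))
      (Fib.Bd.strip _ (S.bd k))
    refine ⟨?_, inter_subset_left⟩
    rwa [show D i ∩ N k ∩ (D i ∩ B) = D i ∩ N k ∩ B by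
      rw [← inter_assoc, inter_eq_left.2 (inter_subset_left : D i ∩ N k ⊆ D i)]]
  hf := fun k _ => face_disj (by norm_num)
  hd := fun k hk k' hk' hne => by
    have h1 : side k = side k' := by
      have a := hK k hk; have b := hK k' hk'
      revert a b; cases side i <;> cases side k <;> cases side k' <;> simp
    exact (S.disj k k' hne h1).mono inter_subset_right inter_subset_right

theorem exists_blk (i j : ι) (h : side i ≠ side j) :
    ∃ Ψ : ConHomeo ((D i ∩ D j) ×ˢ Sq) (N i ∩ N j),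
      (∀ z ∈ D i ∩ D j, ∀ p ∈ Sq, s i (Ψ.toFun (z, p)) = p.1) ∧
      (∀ z ∈ D i ∩ D j, ∀ p ∈ Sq, s j (Ψ.toFun (z, p)) = p.2) ∧
      (∀ z ∈ D i ∩ D j, ∀ p ∈ Sq, (Ψ.toFun (z, p) ∈ B ↔ z ∈ B)) ∧
      ∀ z ∈ D i ∩ D j, Ψ.toFun (z, 0) = z := by
  obtain ⟨Ψ, h1, h2, h3, h4⟩ := exists_block (S.F i) (S.F j) (S.pres i j h) (S.pres j i h.symm)
  refine ⟨Ψ, h1, h2, fun z hz p hp => ?_, h4⟩
  have h5 := (blk_mid (S.F i) (S.F j) (S.pres j i h.symm) hz.1 hz.2 hp.2).1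
  rw [h3 z hz p hp, S.bd i _ h5 _ hp.1, S.bd j z hz.2 _ hp.2]

/-- the crossing arcs of the faces -/
theorem conBall_cross (i j : ι) (h : side i ≠ side j) {a b : ℝ} (ha : a ∈ LI) (hb : b ∈ LI) :
    ConBall 1 (face (N i) (s i) a ∩ face (N j) (s j) b)
      (face (N i) (s i) a ∩ face (N j) (s j) b ∩ B) := by
  obtain ⟨Ψ, h1, h2, h3, -⟩ := S.exists_blk i j h
  have hS : ConicalSet ({(a, b)} : Set (ℝ × ℝ)) := P073.Convex.conicalSet (convex_singleton _)
  have hX : ConicalSet (D i ∩ D j) := (S.arc i j h).conicalSet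
  have hab : ((a, b) : ℝ × ℝ) ∈ Sq := ⟨ha, hb⟩
  have hsub : ((D i ∩ D j) ×ˢ {(a, b)} : Set (E × ℝ × ℝ)) ⊆ (D i ∩ D j) ×ˢ Sq :=
    prod_mono Subset.rfl (by rintro t ht; rw [show t = (a, b) from ht]; exact hab)
  let φ : ConHomeo (D i ∩ D j) ((D i ∩ D j) ×ˢ ({(a, b)} : Set (ℝ × ℝ))) :=
    { toFun := fun x => (x, (a, b))
      invFun := fun z => z.1
      mapsTo := fun x hx => ⟨hx, rfl⟩
      mapsTo_inv := fun z hz => hz.1
      left_inv := fun x _ => rfl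
      right_inv := fun z hz => Prod.ext rfl (show (a, b) = z.2 from hz.2.symm)
      cont := by fun_prop
      cont_inv := continuous_fst.continuousOn
      conical := (conicalOn_id hX).prodMk (conicalOn_const (a, b) hX) }
  have e1 : φ.toFun '' (D i ∩ D j) = (D i ∩ D j) ×ˢ ({(a, b)} : Set (ℝ × ℝ)) := φ.image_eq
  have e2 : φ.toFun '' (D i ∩ D j ∩ B) = (D i ∩ D j ∩ B) ×ˢ ({(a, b)} : Set (ℝ × ℝ)) := by
    ext z
    constructor
    · rintro ⟨x, hx, rfl⟩
      exact ⟨hx, rfl⟩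
    · rintro ⟨hz1, hz2⟩
      exact ⟨z.1, hz1, Prod.ext rfl (show (a, b) = z.2 from hz2.symm)⟩
  have k1 := ((S.arc i j h).image φ Subset.rfl)
  rw [e1, e2] at k1
  have k2 := k1.image Ψ hsub
  have e3 : Ψ.toFun '' ((D i ∩ D j) ×ˢ {(a, b)}) = face (N i) (s i) a ∩ face (N j) (s j) b := by
    ext x
    constructor
    · rintro ⟨⟨z, p⟩, ⟨hz, hp⟩, rfl⟩
      have hp' : p = (a, b) := hp
      subst hp'
      have h5 := Ψ.mapsTo (show (z, (a, b)) ∈ (D i ∩ D j) ×ˢ Sq from ⟨hz, hab⟩)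
      exact ⟨⟨h5.1, h1 z hz _ hab⟩, ⟨h5.2, h2 z hz _ hab⟩⟩
    · rintro ⟨⟨hx, hxa⟩, ⟨hx', hxb⟩⟩
      have h5 := Ψ.mapsTo_inv (show x ∈ N i ∩ N j from ⟨hx, hx'⟩)
      have h6 := Ψ.right_inv (show x ∈ N i ∩ N j from ⟨hx, hx'⟩)
      have h7 := h1 _ h5.1 _ h5.2
      have h8 := h2 _ h5.1 _ h5.2
      simp only [Prod.mk.eta] at h7 h8
      rw [h6] at h7 h8
      refine ⟨Ψ.invFun x, ⟨h5.1, ?_⟩, h6⟩
      exact Prod.ext (h7.symm.trans hxa) (h8.symm.trans hxb)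
  have e4 : Ψ.toFun '' ((D i ∩ D j ∩ B) ×ˢ {(a, b)}) =
      face (N i) (s i) a ∩ face (N j) (s j) b ∩ B := by
    rw [← e3]
    ext x
    constructor
    · rintro ⟨⟨z, p⟩, ⟨hz, hp⟩, rfl⟩
      have hp' : p = (a, b) := hp
      subst hp'
      exact ⟨⟨(z, (a, b)), ⟨hz.1, rfl⟩, rfl⟩, (h3 z hz.1 _ hab).2 hz.2⟩
    · rintro ⟨⟨⟨z, p⟩, ⟨hz, hp⟩, rfl⟩, hB⟩
      have hp' : p = (a, b) := hp
      subst hp'
      exact ⟨(z, (a, b)), ⟨⟨hz, (h3 z hz _ hab).1 hB⟩, rfl⟩, rfl⟩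
  rwa [e3, e4] at k2

/-- the two families form a thick two-family configuration -/
theorem ttwo (K L : Finset ι) (hK : ∀ k ∈ K, side k = false) (hL : ∀ k ∈ L, side k = true) :
    TTwo 1 C B K N (fun i => face (N i) (s i) (-1)) (fun i => face (N i) (s i) 1) L N
      (fun i => face (N i) (s i) (-1)) (fun i => face (N i) (s i) 1) where
  fN := S.tfam false K hK
  fM := S.tfam true L hL
  hX := by
    intro k hk l hl a b _
    have h : side k ≠ side l := by rw [hK k hk, hL l hl]; decide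
    cases a <;> cases b
    · exact S.conBall_cross k l h ⟨le_refl _, by norm_num⟩ ⟨le_refl _, by norm_num⟩
    · exact S.conBall_cross k l h ⟨le_refl _, by norm_num⟩ ⟨by norm_num, le_refl _⟩
    · exact S.conBall_cross k l h ⟨by norm_num, le_refl _⟩ ⟨le_refl _, by norm_num⟩
    · exact S.conBall_cross k l h ⟨by norm_num, le_refl _⟩ ⟨by norm_num, le_refl _⟩

end FSys

end P073.H880
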