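import Vale.Agent.P073.H880.Stage2G
import Vale.Agent.P073.H345.PStage2
import Vale.Agent.P073.H919.Zone2
import Vale.Agent.P073.H196.Theta
import Vale.Agent.P073.H196.MvInv

/-!
# P073, H880: **[K3-RP]**, ROUND P for `K3C`: data, classes of faces and cells, output of the exchange

`h1`: output of round T (hooked map).  `h2`: output of the exchange in the boxes `PE s` of the
processed squares.  `thinL L c`: the levels of `L` with thin flats (chosen after `h2`).
Classes: `DF` faces of drawn cells which are in no protected cell, `PF` faces of protected cells,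
`Peel` faces of `DF` which meet a plate `PB 1 s`, `WF = (DF \ Peel) ∪ PF` given faces, all other
faces are passive; `Gc` given cells (protected cells, and drawn cells without peeled face), `Hk`
drawn cells with a peeled face (redrawn by the hook).
-/

open Set Metric Topology Filter

namespace P073.H880.RP

open _root_.P073 _root_.P073.Net _root_.P073.PA691 _root_.P073.H236 _root_.P073.H579
  _root_.P073.H345 _root_.P073.H880
open Vale.Agent.P073.St (V)
open Vale.Agent.P073.H471 Vale.Agent.P073.H267 Vale.Agent.P073.H267.Geo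
open Vale.Agent.P073.H805 (t1 t2 EdgeOk lvs)
open Vale.Agent.P073.H73 (Mesh)
open Vale.Agent.P073.H193 (Edges Cyc)
open P073.H196 (MvInv)

variable {Ω Λ : Set V} {v : V} {K : BoxCx Λ v} {S : Rad K} {W : Wid K S} {B : Boxes W}

/-! ### thin flats -/

/-- the levels of `L` with thinner flats -/
noncomputable def thinL {G : Geo B} (L : PLev G) (c : K.S → Bool → ℝ) (h0 : ∀ s β, 0 < c s β)
    (h1 : ∀ s β, c s β ≤ L.c s β) : PLev G where
  N := L.N
  a := L.a
  c := c
  lvs := fun s β => (thin (L.bx β s) (c s β) (h0 s β) (h1 s β)).lvs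

section

variable {G : Geo B} {L : PLev G} {c : K.S → Bool → ℝ} {h0 : ∀ s β, 0 < c s β}
  {h1 : ∀ s β, c s β ≤ L.c s β}

theorem thinL_bx (β : Bool) (s : K.S) :
    (thinL L c h0 h1).bx β s = thin (L.bx β s) (c s β) (h0 s β) (h1 s β) := rfl

theorem thinL_L (s : K.S) (β : Bool) : ((thinL L c h0 h1).lvs s β).L = (L.lvs s β).L := rfl

theorem thinL_lv (s : K.S) (j : Fin 3) : (thinL L c h0 h1).lv s j = L.lv s j := by
  by_cases h : j = K.nrm s
  · rw [h, PLev.lv_nrm, PLev.lv_nrm]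
  · rw [← tg_bt s h, PLev.lv_tg, PLev.lv_tg]; rfl

end

/-! ### the data and the classes -/

/-- the data of ROUND P for `K3C` -/
structure Dat (K : BoxCx Λ v) (M : Mesh Ω) where
  /-- processed squares (926: `pS`) -/
  S₀ : Set K.S
  /-- processed boxes of round T (926: `pB`) -/
  G₀ : Set (TBx K)
  /-- protected cells -/
  Pr : Set M.ι
  /-- drawn cells (926: `Zmax (2 / 2 ^ j)`) -/
  Zd : Set M.ι
  /-- the sides of the squares with a protected cell; `true` is the upper side -/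
  sd : K.S → Bool → Prop
  /-- heights of the boxes of the exchange: the height of the protected cell at a protected side,
  and `τ / 2` at the other sides -/
  ht : K.S → Bool → ℝ

variable {M : Mesh Ω}

namespace Dat

variable (D : Dat K M)

/-- box of the exchange -/
def PE (G : Geo B) (s : K.S) : Set V :=
  {y | (∀ k, k ≠ K.nrm s → K.slo s k + G.p s ≤ y k ∧ y k ≤ K.shi s k - G.p s) ∧
    K.slo s (K.nrm s) - D.ht s false ≤ y (K.nrm s) ∧ y (K.nrm s) ≤ K.slo s (K.nrm s) + D.ht s true}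

/-- the safe part of the box of the exchange, at the sides which are not protected -/
def ZE (G : Geo B) (s : K.S) : Set V :=
  {y | y ∈ D.PE G s ∧ ((¬ D.sd s true ∧ K.slo s (K.nrm s) + D.ht s true / 2 ≤ y (K.nrm s)) ∨
    (¬ D.sd s false ∧ y (K.nrm s) ≤ K.slo s (K.nrm s) - D.ht s false / 2))}

/-- drawn faces -/
def DF : Set M.κ := {k | (∃ i ∈ D.Zd, M.F k ⊆ M.Q i) ∧ ∀ i ∈ D.Pr, ¬ M.F k ⊆ M.Q i}

/-- faces of the protected cells -/
def PF : Set M.κ := {k | ∃ i ∈ D.Pr, M.F k ⊆ M.Q i}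

/-- the face `k` is drawn and meets the plate of `s` -/
def PkS (G : Geo B) (h : ConHomeo Ω Λ) (s : K.S) (k : M.κ) : Prop :=
  s ∈ D.S₀ ∧ AkP G M h D.DF s k

/-- peeled faces -/
def Peel (G : Geo B) (h : ConHomeo Ω Λ) : Set M.κ := {k | ∃ s, D.PkS G h s k}

/-- faces with a given map -/
def WF (G : Geo B) (h : ConHomeo Ω Λ) : Set M.κ := (D.DF \ D.Peel G h) ∪ D.PF

/-- cells with a given map -/
def Gc (G : Geo B) (h : ConHomeo Ω Λ) : Set M.ι :=
  D.Pr ∪ {i | i ∈ D.Zd ∧ i ∉ D.Pr ∧ ∀ k, M.F k ⊆ M.Q i → k ∉ D.Peel G h}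

/-- cells to be redrawn -/
def Hk (G : Geo B) (h : ConHomeo Ω Λ) : Set M.ι :=
  {i | i ∈ D.Zd ∧ i ∉ D.Pr ∧ ∃ k, M.F k ⊆ M.Q i ∧ k ∈ D.Peel G h}

end Dat

/-- `A` is invariant under the moves inside the cells of the levels, in the supports -/
def Inv {G : Geo B} (L : PLev G) (S₀ : Set K.S) (A : Set V) : Prop :=
  ∀ s ∈ S₀, ∀ β, ∀ n < L.N s β, MvInv A (tg s β)
    (Icc (L.a s β n - 2 * L.c s β) (L.a s β n + 2 * L.c s β)) (PK G s)

/-- **the invariances of the map `h1` which are used in ROUND P** -/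
structure InvIn (G : Geo B) (E : Edges M) (D : Dat K M) (L : PLev G) (h1 : ConHomeo Ω Λ) :
    Prop where
  face : ∀ k ∈ D.WF G h1, Inv L D.S₀ (h1.toFun '' M.F k)
  edge : ∀ k ∈ D.WF G h1, ∀ e, E.seg e ⊆ M.F k → Inv L D.S₀ (h1.toFun '' E.seg e)
  vert : ∀ k ∈ D.WF G h1, ∀ x ∈ E.verts, x ∈ M.F k → Inv L D.S₀ {h1.toFun x}
  cell : ∀ i ∈ D.Gc G h1, Inv L D.S₀ (h1.toFun '' M.Q i)

/-- **output of the exchange** (341), `h1` before, `h2` after -/
structure ROut3 (G : Geo B) (E : Edges M) (D : Dat K M) (h1 h2 : ConHomeo Ω Λ)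
    (L : K.S → Fin 3 → Finset ℝ) {ι : Type} (F : ι → Set V) : Prop where
  /-- nothing changes off the boxes -/
  off : ∀ x ∈ Ω, (∀ s ∈ D.S₀, h1.toFun x ∉ interior (D.PE G s)) → h2.toFun x = h1.toFun x
  box : ∀ s ∈ D.S₀, ∀ x ∈ Ω, h2.toFun x ∈ D.PE G s ↔ h1.toFun x ∈ D.PE G s
  prot : ∀ i ∈ D.Pr, EqOn h2.toFun h1.toFun (M.Q i)
  /-- position of the peeled faces, and of the cells to be redrawn -/
  near : ∀ s k, D.PkS G h1 s k → ∀ y ∈ M.F k, h1.toFun y ∈ G.PB (15 / 16) s ∧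
    h2.toFun y ∈ G.PB (15 / 16) s ∧ |h2.toFun y (K.nrm s) - K.slo s (K.nrm s)| < B.τ s / 2
  /-- pattern of the peeled faces -/
  pat : ∀ s k, D.PkS G h1 s k →
    ∃ (A : Type) (_ : Finite A) (S : A → Set V) (col : A → Bool) (lev : A → ℝ),
      FacePat (M.F k) (intrinsicFrontier ℝ (M.F k)) h2.toFun (fun l => (lvs L s l : Set ℝ)) S
        (fun α => bif col α then t2 (K.nrm s) else t1 (K.nrm s)) lev col ∧
      ∀ α β, α ≠ β → (bif col α then t2 (K.nrm s) else t1 (K.nrm s)) =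
        (bif col β then t2 (K.nrm s) else t1 (K.nrm s)) → Disjoint (S α) (S β)
  vert : ∀ s k, D.PkS G h1 s k → ∀ y ∈ E.verts, y ∈ M.F k → ∀ l, h2.toFun y l ∉ lvs L s l
  /-- the edges of the peeled faces -/
  edge : ∀ s k, D.PkS G h1 s k → ∀ e, E.seg e ⊆ M.F k → EdgeOk h2.toFun L s (E.seg e)
  /-- near each processed square the levels of `h2` are the levels of regular functions; `F` is a
  family which contains the cells, faces, edges, vertices of the mesh and the cuts -/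
  reg : ∀ s ∈ D.S₀, ∃ u : Bool → V → ℝ, (∀ β, ConicalOn (u β) Ω ∧ ContinuousOn (u β) Ω) ∧
    (∀ β, H805.SameLev (L s (tg s β)) {x | x ∈ Ω ∧ ∀ s' ∈ D.S₀, s' ≠ s → h1.toFun x ∉ D.PE G s'}
      (fun x => h2.toFun x (tg s β)) (u β)) ∧
    (∀ β, ∀ x ∈ Ω, u β x ∈ L s (tg s β) → H805.Reg (u β) F x) ∧
    ∀ x ∈ Ω, u false x ∈ L s (tg s false) → u true x ∈ L s (tg s true) →
      H805.Reg (fun y => (u false y, u true y)) F x
  /-- the crossing numbers of the segments of `F` -/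
  cnt : ∀ i, (∃ a b, F i = segment ℝ a b) → F i ⊆ Ω → ∀ s ∈ D.S₀,
    (∀ s' ∈ D.S₀, s' ≠ s → ∀ x ∈ F i, h1.toFun x ∉ D.PE G s') →
    EdgeOk h2.toFun L s (F i) ∧
    {x | x ∈ F i ∧ ∃ l, h2.toFun x l ∈ lvs L s l}.Finite ∧
    {x | x ∈ F i ∧ ∃ l, h1.toFun x l ∈ lvs L s l}.Finite ∧
    {x | x ∈ F i ∧ ∃ l, h2.toFun x l ∈ lvs L s l}.ncard ≤
      {x | x ∈ F i ∧ ∃ l, h1.toFun x l ∈ lvs L s l}.ncard

end P073.H880.RP
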