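import Vale.Agent.P073.H196.ThetaQ
import Vale.Agent.P073.H399.PassR3
import Vale.Agent.P073.H142.Stage3F
import Vale.Agent.P073.H155.Shared3
import Vale.Agent.P073.H669.PLevH
import Vale.Agent.P073.H919.HookG
import Vale.Agent.P073.H341.PIn3D
import Vale.Agent.P073.H880.RP2

/-!
# P073, H880: **[K3-RP]**, ROUND P for `K3C`, the composition

`PEx`: levels and exchange (`h2`).  `PIns`: insertion (`h3`), `PEx.exists_ins3`.  `F3`, `PSt3`: the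
staircases over thin flats (`h4`).  `PHk`: the hook in the boxes `HB G 2 (3 / 4) s` (`h5`) and the
second staircases (`f5`).
-/

open Set Metric Topology Filter
open scoped ENNReal

set_option linter.unusedSectionVars false

namespace P073.H880.RP

open _root_.P073 _root_.P073.Net _root_.P073.PA691 _root_.P073.H236 _root_.P073.H579
  _root_.P073.H345 _root_.P073.H880
open Vale.Agent.P073.St (V)
open Vale.Agent.P073.H471 Vale.Agent.P073.H267 Vale.Agent.P073.H267.Geo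
open Vale.Agent.P073.H73 (Mesh)
open Vale.Agent.P073.H193 (Edges Cyc)
open Vale.Agent.P073.H304 (IsEdge)
open Vale.Agent.P073.H155 (vv)
open Vale.Agent.P073.H341 (HtOk ROutZ)
open Vale.Agent.P073.H669 (PLg)
open _root_.P073.H196 (halfX ThP thP halfX_K_sub sshape_of_eq SShape lamP)
open _root_.P073.H142 (PS3 BxR)
open _root_.P073.H155 (AxOn Band3 RelT)

variable {Ω Λ : Set V} {v : V} {K : BoxCx Λ v} {S : Rad K} {W : Wid K S} {B : Boxes W}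
  {G : Geo B} {M : Mesh Ω} {E : Edges M} {D : Dat K M} {h h1 h2 h3 : ConHomeo Ω Λ}
  {ι : Type} {F : ι → Set V} {L : PLev G}

/-! ### levels and exchange -/

/-- **the levels and the exchange of ROUND P** -/
structure PEx (G : Geo B) (E : Edges M) (D : Dat K M) (L : PLev G) {ι : Type} (F : ι → Set V)
    (h1 h2 : ConHomeo Ω Λ) : Prop where
  ht : HtOk G D
  inv : InvIn G E D L h1
  ex : ROut3 G E D h1 h2 L.lv F
  exZ : ROutZ G E D h1 h2 L.lv F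
  fam : ∀ t, ∃ i, H345.fam M E t = F i
  /-- given cells which are not protected miss the plates -/
  miss : ∀ i ∈ D.Gc G h1, i ∉ D.Pr → ∀ x ∈ M.Q i, ∀ s ∈ D.S₀, h1.toFun x ∉ G.PB 1 s

namespace PEx

variable (X : PEx G E D L F h1 h2)

include X

theorem off_PB {x : V} (hx : x ∈ Ω) (hno : ∀ s ∈ D.S₀, h1.toFun x ∉ G.PB 1 s) :
    h2.toFun x = h1.toFun x :=
  X.ex.off x hx fun s hs hi => hno s hs (X.ht.pe_PB hs (interior_subset hi))

/-- nothing changes on the given faces -/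
theorem offF {k : M.κ} (hk : k ∈ D.WF G h1) : EqOn h2.toFun h1.toFun (M.F k) := by
  intro x hx
  rcases hk with ⟨hk, hk'⟩ | ⟨i, hi, hki⟩
  · exact X.off_PB (Vale.Agent.P073.H193.mesh_sub M k hx) fun s hs hxs =>
      hk' ⟨s, hs, hk, x, hx, hxs⟩
  · exact X.ex.prot i hi (hki hx)

/-- nothing changes on the given cells -/
theorem offC {i : M.ι} (hi : i ∈ D.Gc G h1) : EqOn h2.toFun h1.toFun (M.Q i) := by
  intro x hx
  by_cases hP : i ∈ D.Pr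
  · exact X.ex.prot i hP hx
  · exact X.off_PB (M.sub i hx) fun s hs => X.miss i hi hP x hx s hs

end PEx

/-! ### insertion -/

/-- the edge maps of ROUND P -/
abbrev GE3 (G : Geo B) (E : Edges M) (D : Dat K M) (h1 h2 : ConHomeo Ω Λ) (L : PLev G)
    (c : K.S → Bool → ℝ) (c0 : ∀ s β, 0 < c s β) (c1 : ∀ s β, c s β ≤ L.c s β)
    (La : E.ε → ℝ) (m : ℝ) : E.ε → (V → V) → Prop :=
  GEP E h2 (D.PkS G h1) (thinL L c c0 c1).kP L.lv (thinL L c c0 c1).loP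
    (thinL L c c0 c1).hiP (thinL L c c0 c1).omP La fun _ => m

/-- the face maps of ROUND P -/
abbrev GF3 (G : Geo B) (E : Edges M) (D : Dat K M) (h1 h2 : ConHomeo Ω Λ) (L : PLev G)
    (c : K.S → Bool → ℝ) (c0 : ∀ s β, 0 < c s β) (c1 : ∀ s β, c s β ≤ L.c s β)
    (La We : E.ε → ℝ) (O' : M.κ → V) (r0 R : M.κ → ℝ) (Y : Set M.κ) (Ks es βs ρs : ℝ) :
    M.κ → (V → V) → Prop :=
  FW31.GFY E h2 (D.PkS G h1) L.lv (thinL L c c0 c1).loP (thinL L c c0 c1).hiP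
    (thinL L c c0 c1).omP La We O' r0 R Y Ks es βs ρs

/-- **the insertion of ROUND P** -/
structure PIns (G : Geo B) (E : Edges M) (D : Dat K M) (L : PLev G) (hΛ : IsOpen Λ)
    (h1 h2 : ConHomeo Ω Λ) (c : K.S → Bool → ℝ) (c0 : ∀ s β, 0 < c s β)
    (c1 : ∀ s β, c s β ≤ L.c s β) (κ : Bool → V → V) (Θ : Bool → ConHomeo Λ Λ)
    (GE : E.ε → (V → V) → Prop) (GF : M.κ → (V → V) → Prop) (h3 : ConHomeo Ω Λ) : Prop where
  isQ : ∀ β, IsQ (fun s : D.S₀ => (thinL L c c0 c1).bx β s.1) (κ β)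
  isΘ : ∀ β, (thP L c c0 c1 hΛ D.S₀ β).IsH (Θ β)
  ins : ∀ β, InsMap (κ β) Λ Λ
  ins2 : InsMap (κ true ∘ κ false) Λ Λ
  out : Out3 G E D h1 h2 (κ true ∘ κ false) ((Θ false).trans (Θ true)) GE GF h3

/-- **the insertion step of ROUND P**; `cm`: any bound for the thin flats, chosen after `h2` -/
theorem PEx.exists_ins3 (hΩ : IsOpen Ω) (hΛ : IsOpen Λ) (X : PEx G E D L F h1 h2)
    -- ROUND T
    {ω : TBx K → ℝ} {mT : ℝ} {Act₀ : Set M.κ} {OT : M.κ → V} {LaT : E.ε → ℝ}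
    {Lf : M.κ → E.ε → ℝ} {Lam1 : M.κ → ℝ} {sl : D.G₀ → Finset (ℝ × ℝ)}
    (HT : T3OutG G M E h h1 ω mT D.G₀ Act₀ OT LaT Lf Lam1 sl)
    (hDF : D.DF ⊆ Act₀) (hrel : ∀ s ∈ D.S₀, ∀ l b, RelT s l b → b ∈ D.G₀)
    (hband : Band3 L D.S₀ sl) {Le : E.ε → ℝ} (hLe : ∀ e, LaT e ≤ Le e)
    (hPF : ∀ l ∈ D.PF, ∀ e, E.seg e ⊆ M.F l → AxOn h1.toFun (E.seg e) (Le e))
    -- numbers
    {La We : E.ε → ℝ} (hLe0 : ∀ e, 0 ≤ Le e) (hLaE : ∀ e, laE E We e ≤ La e)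
    (hLa16 : ∀ e, 16 * Le e ≤ La e) (hWe0 : ∀ e, 0 ≤ We e)
    (hom : ∀ s β t, L.omP s (tg s β) t ≤ 16 * L.c s β)
    (hWe : ∀ s e, EAct E (D.PkS G h1) s e → ∀ Y : Finset V,
      (∀ x ∈ Y, CrsPt (E.a e) (E.b e) h2.toFun (L.lv s) x) →
        ∑ x ∈ Y, omX h2.toFun (L.lv s) (L.omP s) x ≤ We e)
    -- faces
    (Cy : ∀ k, Cyc E k) {O' : M.κ → V} {r0 R : M.κ → ℝ}
    (hS : ∀ k, P073.H155.Star ((Cy k).n + 1) (vv (Cy k)) (O' k) (r0 k) (R k) (M.F k))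
    (hIE : ∀ p q, IsEdge M (p, q) → ∃ e : E.ε, E.seg e = segment ℝ p q)
    {m Ks es βs ρs : ℝ} (hm0 : 0 < m) (hm1 : m < 1 / 4) (hKs : 0 < Ks) (hρs : ρs ≤ 1 / 2)
    (hSF : FW31.SpecSharpFace m Ks es βs ρs) (Y : Set M.κ)
    {cm : K.S → Bool → ℝ} (hcm : ∀ s β, 0 < cm s β) :
    ∃ (c : K.S → Bool → ℝ) (c0 : ∀ s β, 0 < c s β) (c1 : ∀ s β, c s β ≤ L.c s β)
      (κ : Bool → V → V) (Θ : Bool → ConHomeo Λ Λ) (h3 : ConHomeo Ω Λ),
      (∀ s β, c s β ≤ cm s β) ∧ PIns G E D L hΛ h1 h2 c c0 c1 κ Θ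
        (GE3 G E D h1 h2 L c c0 c1 La m) (GF3 G E D h1 h2 L c c0 c1 La We O' r0 R Y Ks es βs ρs)
        h3 := by
  have ht : ∀ s ∈ D.S₀, ∀ β, D.ht s β ≤ 3 / 2 * B.τ s := fun s hs β => by
    have h1 := X.ht.le s hs β
    have h2 := B.τ_pos s
    linarith
  obtain ⟨c, c0, c1, κ, hc, hκ, hi, hi2, hinv, hN, hP⟩ := X.ex.exists_ins hΛ ht X.fam hcm
  choose Θ hΘ using fun β => (thP L c c0 c1 hΛ D.S₀ β).exists_isH hΛ
  have hΘinv : ∀ A, Inv L D.S₀ A → ∀ y ∈ Λ,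
      (((Θ false).trans (Θ true)).toFun y ∈ A ↔ y ∈ A) := fun A hA y _ =>
    (P073.H196.theta_mem_iff (hΘ true) hA _).trans (P073.H196.theta_mem_iff (hΘ false) hA y)
  have hLa0 : ∀ e, 0 ≤ La e := fun e => by
    have h1 := hLe0 e
    have h2 := hLa16 e
    linarith
  refine Exists.elim (exists_stage3_Y hΩ X.ex (hκ false) (hκ true) hi2
    (Θ := (Θ false).trans (Θ true)) X.inv (fun k hk => X.offF hk) (fun i hi => X.offC hi) hΘinv
    hN (fun k _ _ => hP k) (La := La) (We := We) hLaE hWe0 hWe ?_ Cy hS hIE hm0 hm1 hKs hρs hSF Y)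
    fun h3 H3 => ⟨c, c0, c1, κ, Θ, h3, hc, hκ, hΘ, hi, hi2, H3⟩
  intro s k hk l hl e hek hel
  refine P073.H155.ge_shared3 HT hDF hrel hband (fun l hl => X.offF hl) X.ex.near X.inv.vert
    (Θ := ((Θ false).trans (Θ true)).toFun) ?_ hLe hPF hk hl hek hel (hLa0 e) ?_
  · intro s hs y hy j
    exact P073.H196.theta2_full hΘ ⟨s, hs⟩ hy j
  · intro β t
    have h5 := mul_le_mul_of_nonneg_right (hom s β t) (hLe0 e)
    have h6 := mul_le_mul_of_nonneg_left (hLa16 e) (L.lvs s β).c0.le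
    linarith

/-! ### staircases -/

section stairs

open _root_.P073.H196 (th)

variable {Ts : K.S → Bool → Finset (ℝ × ℝ)} {η : ℝ} {τ : Type*} {Fc : τ → Set V} {C : Set ℝ}
  {ξ : Type*} {sa sb : ξ → V} {εE : ξ → ℝ} {μ δ : K.S → ℝ}
  (Lg : PLg G h1 Ts η Fc C sa sb εE μ δ) {c : K.S → Bool → ℝ} {c0 : ∀ s β, 0 < c s β}
  {c1 : ∀ s β, c s β ≤ Lg.lev.c s β}

theorem isBx_half (β : Bool) (s : K.S) : Lg.IsBx β s (halfX ((thinL Lg.lev c c0 c1).bx β s)) where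
  j := rfl
  N := rfl
  a := rfl
  al := rfl
  be := rfl
  c := c1 s β
  sub := (halfX_K_sub _).trans (Lg.bx_sub s β)

variable (c0 c1) in
/-- **the staircases of ROUND P**: thin flats, half of the fade -/
noncomputable def F3 (S₀ : Set K.S) (e : Bool → S₀ → ℝ) (he : ∀ β s, 0 < e β s)
    (he8 : ∀ β (s : S₀), e β s ≤ δ s.1 / 8) (β : Bool) : BFam 3 S₀ Λ :=
  Lg.bfamX β (fun s : S₀ => halfX ((thinL Lg.lev c c0 c1).bx β s.1)) (fun s => isBx_half Lg β s.1)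
    (e β) (he β) (he8 β)

variable {S₀ : Set K.S} {e : Bool → S₀ → ℝ} {he : ∀ β s, 0 < e β s}
  {he8 : ∀ β (s : S₀), e β s ≤ δ s.1 / 8}

theorem F3_B (β : Bool) (s : S₀) : (F3 Lg c0 c1 S₀ e he he8 β).B s =
    halfX ((thinL Lg.lev c c0 c1).bx β s.1) := rfl

theorem F3_e (β : Bool) (s : S₀) : (F3 Lg c0 c1 S₀ e he he8 β).e s = e β s := rfl

theorem F3_D (β : Bool) (s : S₀) : (F3 Lg c0 c1 S₀ e he he8 β).D s = μ s.1 := rfl

theorem F3_om (β : Bool) (s : S₀) : (F3 Lg c0 c1 S₀ e he he8 β).om s = Lg.om s.1 β := rfl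

theorem bxR_half (β : Bool) (s : K.S) :
    BxR (halfX ((thinL Lg.lev c c0 c1).bx β s)) ((thinL Lg.lev c c0 c1).bx β s) :=
  BxR.half _ _

theorem F3_ps {T : Bool → ConHomeo Λ Λ} (hT : ∀ β, (F3 Lg c0 c1 S₀ e he he8 β).IsS (T β)) :
    PS3 (thinL Lg.lev c c0 c1) S₀ (F3 Lg c0 c1 S₀ e he he8) T :=
  ⟨fun β s => bxR_half Lg β s.1, hT⟩

/-- the slope of the staircases over thin flats, after `Θ` -/
theorem F3_slope (β : Bool) (s : S₀) (t t' : ℝ) :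
    |(F3 Lg c0 c1 S₀ e he he8 β).σ s (th (Lg.lev.bx β s.1).lvs.L (Lg.lev.bx β s.1).c
        (lamP Lg.lev c s.1 β) t) -
      (F3 Lg c0 c1 S₀ e he he8 β).σ s (th (Lg.lev.bx β s.1).lvs.L (Lg.lev.bx β s.1).c
        (lamP Lg.lev c s.1 β) t')| ≤ 10 * |t - t'| := by
  have h0 := Lg.δ0 s.1
  have hN := Lg.pos s.1
  have he' := he β s
  have he8' := he8 β s
  have hc0 := c0 s.1 β
  have hc1 : c s.1 β ≤ δ s.1 / 8 := c1 s.1 β
  have hom := Lg.om_ge s.1 β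
  have hNs := Lg.Ns s.1 β
  have key := _root_.P073.H196.abs_sm_th_sub_le (Lg.lev.bx β s.1).lvs
    ((thinL Lg.lev c c0 c1).bx β s.1).lvs ((F3 Lg c0 c1 S₀ e he he8 β).tgt s)
    (_root_.P073.H196.lamP_pos c0 s.1 β) (_root_.P073.H196.lamP_le c1 s.1 β)
    (_root_.P073.H196.lamP_mul s.1 β).symm (q := 16) (Lg.om_le_c s.1 β) ?_ ?_ ?_ ?_ t t'
  · refine key.trans (le_of_eq ?_)
    norm_num
  · show 2 * e β s ≤ Lg.om s.1 β
    linarith
  · have h1 := Lg.lt_a s.1 β 0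
    have h3 := (Lg.cells s.1 β).ge 0 (hN.trans_le (Lg.N_le s.1 β))
    change K.slo s.1 (tg s.1 β) + G.a s.1 + e β s - (K.slo s.1 (tg s.1 β) + G.a s.1) ≤
      Lg.a s.1 β 0 - c s.1 β - (K.slo s.1 (tg s.1 β) + G.a s.1)
    linarith [h1.1]
  · intro k hk
    have h1 := Lg.lt_a s.1 β k
    have h2 := Lg.lt_a s.1 β (k + 1)
    have hk' : k + 1 < Lg.N s.1 := hk
    have h3 := (Lg.cells s.1 β).succ k (hk'.trans_le (Lg.N_le s.1 β))
    change 2 * e β s ≤ Lg.a s.1 β (k + 1) - Lg.a s.1 β k - 2 * c s.1 β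
    linarith [h1.2, h2.1]
  · have h1 := Lg.lt_a s.1 β (Lg.N s.1 - 1)
    have h2 := (Lg.cells s.1 β).le (Lg.N s.1 - 1)
      ((Nat.sub_lt hN one_pos).trans_le (Lg.N_le s.1 β))
    change K.shi s.1 (tg s.1 β) - G.a s.1 - (K.slo s.1 (tg s.1 β) + G.a s.1 +
      (Lg.N s.1 : ℝ) * Lg.om s.1 β - e β s) ≤ K.shi s.1 (tg s.1 β) - G.a s.1 -
      (Lg.a s.1 β (Lg.N s.1 - 1) + c s.1 β)
    rw [hNs]
    unfold Vale.Agent.P073.H669.wl
    linarith [h1.2]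

/-- **the staircases and `Θ`** -/
theorem F3_thP {hΛ : IsOpen Λ} {T Θ : Bool → ConHomeo Λ Λ}
    (hT : ∀ β, (F3 Lg c0 c1 S₀ e he he8 β).IsS (T β))
    (hΘ : ∀ β, (thP Lg.lev c c0 c1 hΛ S₀ β).IsH (Θ β)) :
    ThP Lg.lev c c0 c1 hΛ S₀ (F3 Lg c0 c1 S₀ e he he8) T Θ 10 where
  shape := fun β => sshape_of_eq fun s => rfl
  isS := hT
  isΘ := hΘ
  A2 := by norm_num
  slope := F3_slope Lg

theorem F3_exists (hΛ : IsOpen Λ) : ∃ T : Bool → ConHomeo Λ Λ,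
    ∀ β, (F3 Lg c0 c1 S₀ e he he8 β).IsS (T β) := by
  choose T hT using fun β => (F3 Lg c0 c1 S₀ e he he8 β).exists_isS hΛ
  exact ⟨T, hT⟩

end stairs

end P073.H880.RP
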