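import Vale.Agent.P073.H880.Box2
import Vale.Agent.P073.H950.Trans
import Vale.Agent.P073.GB200.Cut

/-!
# P073, H880: [K3IN] the sheets of a homeomorphism onto a box
-/

open Set Metric Topology Filter
open scoped ENNReal

namespace P073.H880

open P073 P073.H936 P073.H341 P073.H669 P073.H579 P073.H950

variable {ι : Type*} {Q E : Type} [NormedAddCommGroup E] [NormedSpace ℝ E]
  {side : ι → Bool} {lo hi : Fin 3 → ℝ} {ax : Bool → Fin 3} {c w : ι → ℝ} {U Bd : Set E}

/-- the data of one box: a homeomorphism onto the box whose bands are vertical on the boundaries of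
finitely many cells -/
structure K3In (side : ι → Bool) (ax : Bool → Fin 3) (lo hi : Fin 3 → ℝ) (c w : ι → ℝ)
    (U Bd : Set E) (g : ConHomeo U (Icc lo hi)) (C : Q → Set E) : Prop where
  H : Bands side ax lo hi c w
  bd_sub : Bd ⊆ U
  bd : g.toFun '' Bd = frontier (Icc lo hi)
  int : ∀ x ∈ U, x ∉ Bd → U ∈ 𝓝 x
  fin : Finite Q
  reg : ∀ q, closure (interior (C q)) = C q
  disj : ∀ q q', q ≠ q' → Disjoint (interior (C q)) (interior (C q'))
  sph : ∀ q, ConSphere 2 (frontier (C q))
  cone : ∀ q, LocCone (C q)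
  sub : ∀ q, C q ⊆ U
  off : ∀ q, Disjoint (C q) Bd
  vert : ∀ i q, ∀ y ∈ sheet lo hi (ax (side i)) (c i), ∀ t ∈ Icc (-1:ℝ) 1,
    (slide (ax (side i)) (c i) (w i) (y, t) ∈ g.toFun '' frontier (C q) ↔
      y ∈ g.toFun '' frontier (C q))

namespace K3In

variable {g : ConHomeo U (Icc lo hi)} {C : Q → Set E} (K : K3In side ax lo hi c w U Bd g C)

include K

theorem mem_bd_iff {y : Fin 3 → ℝ} (hy : y ∈ Icc lo hi) :
    g.invFun y ∈ Bd ↔ y ∈ frontier (Icc lo hi) := by
  rw [← K.bd]
  constructor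
  · intro h
    exact ⟨_, h, g.right_inv hy⟩
  · rintro ⟨x, hx, rfl⟩
    rwa [g.left_inv (K.bd_sub hx)]

theorem bd_eq : Bd = g.symm.toFun '' frontier (Icc lo hi) := by
  rw [← K.bd]
  ext x
  constructor
  · intro hx
    exact ⟨_, ⟨x, hx, rfl⟩, g.left_inv (K.bd_sub hx)⟩
  · rintro ⟨_, ⟨z, hz, rfl⟩, rfl⟩
    show g.invFun (g.toFun z) ∈ Bd
    rwa [g.left_inv (K.bd_sub hz)]

/-- transport of intersections with the boundary -/
theorem inter_bd {A : Set (Fin 3 → ℝ)} (hA : A ⊆ Icc lo hi) :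
    g.symm.toFun '' (A ∩ frontier (Icc lo hi)) = g.symm.toFun '' A ∩ Bd := by
  rw [K.bd_eq]
  exact g.symm.injOn.image_inter hA isClosed_Icc.frontier_subset

theorem ball3 : ConBall 3 U Bd := by
  have h1 := K.H.sys.hC.image g.symm Subset.rfl
  rw [← K.bd_eq] at h1
  have h2 : g.symm.toFun '' Icc lo hi = U := g.symm.image_eq
  rwa [h2] at h1

/-- the fibred sheets -/
noncomputable def fib (i : ι) : Fib (g.symm.toFun '' sheet lo hi (ax (side i)) (c i))
    (g.symm.toFun '' band lo hi (ax (side i)) (c i) (w i))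
    (fun x => blev (ax (side i)) (c i) (w i) (g.toFun x)) :=
  fibImage (bfib K.H.lohi (K.H.ok i)) g.symm (fun _ hy => hy.1) (fun y hy => by
    show blev _ _ _ (g.toFun (g.invFun y)) = _
    rw [g.right_inv hy.1])

theorem fib_toFun (i : ι) {y : Fin 3 → ℝ} (hy : y ∈ sheet lo hi (ax (side i)) (c i)) (t : ℝ) :
    (K.fib i).Γ.toFun (g.symm.toFun y, t) = g.symm.toFun (slide (ax (side i)) (c i) (w i) (y, t)) :=
  fibImage_toFun (bfib K.H.lohi (K.H.ok i)) g.symm (fun _ hy => hy.1) _ hy t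

/-- **[K3IN]** -/
noncomputable def boxIn : H142.BoxIn ι Q E where
  side := side
  Bd := Bd
  D := fun i => g.symm.toFun '' sheet lo hi (ax (side i)) (c i)
  N := fun i => g.symm.toFun '' band lo hi (ax (side i)) (c i) (w i)
  s := fun i x => blev (ax (side i)) (c i) (w i) (g.toFun x)
  Γ := fun i => (K.fib i).Γ
  zero := fun i => (K.fib i).zero
  lev := fun i => (K.fib i).lev
  bd := by
    rintro i _ ⟨y, hy, rfl⟩ t ht
    rw [K.fib_toFun i hy t]
    have h1 := slide_mem (K.H.ok i) hy.1 (abs_le.2 ht)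
    show g.invFun _ ∈ Bd ↔ g.invFun _ ∈ Bd
    rw [K.mem_bd_iff h1, K.mem_bd_iff hy.1]
    exact bfib_bd K.H.lohi (K.H.ok i) y hy t ht
  ball := by
    intro i
    have h1 := (K.H.sys.disc i).image g.symm (fun _ hy => hy.1)
    rwa [K.inter_bd fun _ hy => hy.1] at h1
  disj := by
    intro i j hij hs
    rw [disjoint_iff_inter_eq_empty, ← g.symm.injOn.image_inter (fun _ hy => hy.1)
      (fun _ hy => hy.1), disjoint_iff_inter_eq_empty.1 (K.H.sys.disj i j hij hs), image_empty]
  pres := by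
    intro i j hs
    have h := Pres.image (F := bfib K.H.lohi (K.H.ok i)) (Φ := g.symm)
      (u := fun x => blev (ax (side i)) (c i) (w i) (g.toFun x))
      (u' := fun x => blev (ax (side j)) (c j) (w j) (g.toFun x))
      (hN := fun _ hy => hy.1) (hu := fun y hy => by
        show blev _ _ _ (g.toFun (g.invFun y)) = _
        rw [g.right_inv hy.1]) (K.H.sys.pres i j hs)
      (fun _ hy => hy.1) (fun y hy => by
        show blev _ _ _ (g.toFun (g.invFun y)) = _
        rw [g.right_inv hy.1])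
    exact fun z hz t ht t' ht' hm => h z hz t ht t' ht' hm
  C := C
  C_fin := K.fin
  C_reg := K.reg
  C_disj := K.disj
  C_sph := K.sph
  C_cone := K.cone
  C_bd := K.off
  vB := by
    rintro i q _ ⟨y, hy, rfl⟩ t ht
    rw [K.fib_toFun i hy t]
    have h1 := slide_mem (K.H.ok i) hy.1 (abs_le.2 ht)
    have hfr : frontier (C q) ⊆ U := by
      have hcl : IsClosed (C q) := by rw [← K.reg q]; exact isClosed_closure
      exact hcl.frontier_subset.trans (K.sub q)
    have key : ∀ y ∈ Icc lo hi, (g.invFun y ∈ frontier (C q) ↔ y ∈ g.toFun '' frontier (C q)) := by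
      intro y hy
      constructor
      · intro h; exact ⟨_, h, g.right_inv hy⟩
      · rintro ⟨x, hx, rfl⟩
        rwa [g.left_inv (hfr hx)]
    show g.invFun _ ∈ _ ↔ g.invFun _ ∈ _
    rw [key _ h1, key _ hy.1]
    exact K.vert i q y hy t ht
  nb := by
    rintro i _ ⟨y, hy, rfl⟩ hxB
    have hxU : g.symm.toFun y ∈ U := g.symm.mapsTo hy.1
    have hU := K.int _ hxU hxB
    have hw := (K.H.ok i).pos
    have h1 : ContinuousAt (fun x => g.toFun x (ax (side i))) (g.symm.toFun y) := by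
      have h2 : ContinuousAt g.toFun (g.symm.toFun y) := g.cont.continuousAt hU
      exact (continuous_apply (ax (side i))).continuousAt.comp h2
    have h3 : g.toFun (g.symm.toFun y) (ax (side i)) = c i := by
      show g.toFun (g.invFun y) _ = _
      rw [g.right_inv hy.1]; exact hy.2
    have h4 := h1.tendsto
    rw [h3] at h4
    filter_upwards [h4.eventually (Metric.ball_mem_nhds (c i) hw), hU] with x hx hxU'
    refine ⟨g.toFun x, ⟨g.mapsTo hxU', ?_⟩, g.left_inv hxU'⟩
    rw [Real.dist_eq] at hx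
    exact hx.le
  arc := by
    intro i j hs
    have h1 := (K.H.sys.arc i j hs).image g.symm (fun _ hy => hy.1.1)
    rw [K.inter_bd fun _ hy => hy.1.1, g.symm.injOn.image_inter (fun _ hy => hy.1)
      (fun _ hy => hy.1)] at h1
    obtain ⟨p, q, hpq⟩ := GB200.exists_pair h1
    exact ⟨p, q, H339.isArc_iff_conBall.2 (by rw [← hpq]; exact h1), hpq⟩

end K3In

section caps

theorem csum_le {P : H142.Pre ι Q E} {q : Q} {i : ι} {x y : E} {J' : Type*} [Fintype J']
    (emb : J' → P.κ i) (hinj : Function.Injective emb)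
    (hsurj : ∀ c, P.cell i c = q → ∃ j, emb j = c) {F : J' → ℝ}
    (hF : ∀ j, chg (P.Δ i (emb j)) (P.sΔ i (emb j)) x y ≤ F j) :
    csum P q i x y ≤ ∑ j, F j := by
  classical
  unfold csum
  rw [← Finset.sum_filter]
  have h1 : (ks P i).filter (fun c => P.cell i c = q) ⊆ Finset.univ.image emb := by
    intro c hc
    obtain ⟨j, hj⟩ := hsurj c (Finset.mem_filter.1 hc).2
    exact Finset.mem_image.2 ⟨j, Finset.mem_univ j, hj⟩
  refine (Finset.sum_le_sum_of_subset_of_nonneg h1 fun _ _ _ => chg_nonneg _ _ _ _).trans ?_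
  rw [Finset.sum_image fun a _ b _ hab => hinj hab]
  exact Finset.sum_le_sum fun j _ => hF j

variable {P : H142.BoxIn ι Q E}

/-- the caps of the cells: the total change is at most the change of the level functions of all caps
of the cell -/
theorem ctot_le_lev [Fintype ι] (X : ∀ q, P.CellCirc q)
    (Ch : ∀ q, H950.Chart 3 (P.C q) (P.B q)) (q : Q) [Fintype (Σ i, P.J i q)] (x y : E) :
    ctot (P.capsIn X Ch).pre q x y ≤ dsum (fun d => (Ch q).lev (X q).D d) x y := by
  classical
  have := fun i => P.J_fin i q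
  let inst : ∀ i, Fintype (P.J i q) := fun i => Fintype.ofFinite _
  have h1 : ∀ i, csum (P.capsIn X Ch).pre q i x y ≤ ∑ c : P.J i q,
      |(Ch q).lev (X q).D ⟨i, c⟩ y - (Ch q).lev (X q).D ⟨i, c⟩ x| := by
    intro i
    let emb : P.J i q → (P.capsIn X Ch).pre.κ i := fun c => (⟨q, c⟩ : Σ q, P.J i q)
    refine csum_le emb ?_ ?_ ?_
    · intro a b hab
      have hab' : (⟨q, a⟩ : Σ q, P.J i q) = ⟨q, b⟩ := hab
      simpa using hab'
    · rintro ⟨q', c⟩ h
      have h' : q' = q := h
      subst h'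
      exact ⟨c, rfl⟩
    · intro c
      have e1 : |(X q).e ⟨i, c⟩| = 1 := by
        rcases (X q).he ⟨i, c⟩ with h | h <;> rw [h] <;> norm_num
      have e2 : ∀ x, (P.capsIn X Ch).pre.sΔ i (emb c) x =
          (X q).e ⟨i, c⟩ * (Ch q).lev (X q).D ⟨i, c⟩ x := fun _ => rfl
      unfold chg
      split_ifs with h
      · rw [e2, e2, ← mul_sub, abs_mul, e1, one_mul]
      · exact abs_nonneg _
  calc ctot (P.capsIn X Ch).pre q x y ≤ ∑ i, ∑ c : P.J i q, |(Ch q).lev (X q).D ⟨i, c⟩ y -
      (Ch q).lev (X q).D ⟨i, c⟩ x| := Finset.sum_le_sum fun i _ => h1 i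
    _ = dsum (fun d => (Ch q).lev (X q).D d) x y := by
      rw [dsum, ← Fintype.sum_sigma']
      exact Finset.sum_congr (by ext; simp) fun _ _ => rfl

end caps

/-- **[K3BOX]** One box of the third kind. `g` is a homeomorphism onto a box whose bands are vertical
on the boundaries of finitely many cells; `g'` has the same boundary values, and for the clipped levels
of the bands (`r < 1` for `g'`, `1` for `g`): in a closed cell the change is at most the change of the
explicit level functions of the caps, outside the open cells it is at most the change for `g`. -/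
theorem exists_k3box [Fintype ι] {g : ConHomeo U (Icc lo hi)} {C : Q → Set E}
    (K : K3In side ax lo hi c w U Bd g C) (X : ∀ q, K.boxIn.CellCirc q)
    (Ch : ∀ q, H950.Chart 3 (C q) (frontier (C q))) {r : ℝ} (h0 : 0 < r) (h1 : r < 1) :
    ∃ g' : ConHomeo U (Icc lo hi), EqOn g'.toFun g.toFun Bd ∧
      (∀ q, ∀ (_ : Fintype (Σ i, K.boxIn.J i q)), ∀ x ∈ C q, ∀ᶠ y in 𝓝[C q] x,
        dsum (wlev side ax r c w g'.toFun) x y ≤ dsum (fun d => (Ch q).lev (X q).D d) x y) ∧
      (∀ x ∈ U, ∀ᶠ y in 𝓝[U] x, (∀ q, y ∉ interior (C q)) →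
        dsum (wlev side ax r c w g'.toFun) x y ≤ dsum (wlev side ax 1 c w g.toFun) x y) ∧
      ∀ (γ : ℝ → E) (a b : ℝ), ContinuousOn γ (Icc a b) → MapsTo γ (Icc a b) U →
        (∀ t ∈ Icc a b, ∀ q, γ t ∉ interior (C q)) →
        cvar (fun s t => ENNReal.ofReal (dsum (wlev side ax r c w g'.toFun) (γ s) (γ t))) a b ≤
          cvar (fun s t => ENNReal.ofReal (dsum (wlev side ax 1 c w g.toFun) (γ s) (γ t))) a b := by
  have hw : ∀ i, 0 < w i := fun i => (K.H.ok i).pos
  have hb : g.toFun '' Bd = frontier (Icc lo hi) := K.bd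
  have hcon : ConicalSet Bd := by
    rw [K.bd_eq]
    exact g.symm.conicalSet_image K.H.sys.hC.conicalSet_bdry isClosed_Icc.frontier_subset
  set h : ConHomeo Bd (frontier (Icc lo hi)) := (g.restr hcon K.bd_sub).cast rfl hb
  have hN : ∀ i, ∀ x ∈ U, (x ∈ K.boxIn.N i ↔ |g.toFun x (ax (side i)) - c i| ≤ w i) := by
    intro i x hx
    constructor
    · rintro ⟨y, hy, rfl⟩
      have : g.toFun (g.symm.toFun y) = y := g.right_inv hy.1
      rw [this]; exact hy.2
    · intro h2
      exact ⟨g.toFun x, ⟨g.mapsTo hx, h2⟩, g.left_inv hx⟩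
  have hNU : ∀ i, K.boxIn.N i ⊆ U := by
    rintro i _ ⟨y, hy, rfl⟩
    exact g.symm.mapsTo hy.1
  obtain ⟨L, O, g', hg1, -, -, -, hcell, hrest, hcurve⟩ := exists_k3core
    (K.boxIn.capsIn X Ch) K.ball3 hNU K.sub h0 h1 K.H (h := h)
    (fun i x hx => ((hN i x (K.bd_sub hx))).symm) (fun i x _ _ => rfl)
  have hold : ∀ x y, tot K.boxIn.N K.boxIn.s x y ≤ dsum (wlev side ax 1 c w g.toFun) x y :=
    tot_le_wlev hw (fun m x hx => (hN m x (hNU m hx)).1 hx) (fun m x _ => rfl)
  refine ⟨g', fun x hx => hg1 hx, ?_, ?_, ?_⟩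
  · intro q inst x hx
    filter_upwards [hcell q x hx] with y hy
    exact hy.trans (ctot_le_lev X Ch q x y)
  · intro x hx
    filter_upwards [hrest x hx] with y hy hq
    exact (hy hq).trans (hold x y)
  · intro γ a b hγ hU hV
    exact (hcurve γ a b hγ hU hV).trans (cvar_congr fun s _ t _ _ =>
      ENNReal.ofReal_le_ofReal (hold _ _))

end P073.H880
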