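import Vale.Agent.P073.H880.Met3
import Mathlib.Topology.EMetricSpace.BoundedVariation

/-!
# P073, H880: sums of variations, and the variation of the new levels
-/

open Set Metric Topology Filter
open scoped ENNReal

namespace P073.H880

open P073 P073.H936 P073.H341 P073.H669

/-- the triangle inequality for a cost on `[a, b]` -/
def Tri (c : ℝ → ℝ → ℝ≥0∞) (a b : ℝ) : Prop :=
  ∀ s ∈ Icc a b, ∀ m ∈ Icc a b, ∀ t ∈ Icc a b, s ≤ m → m ≤ t → c s t ≤ c s m + c m t

section two

variable {c c' : ℝ → ℝ → ℝ≥0∞} {a b : ℝ}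

theorem Tri.mono (h : Tri c a b) {a' b' : ℝ} (ha : a ≤ a') (hb : b' ≤ b) : Tri c a' b' :=
  fun _ hs _ hm _ ht => h _ ⟨ha.trans hs.1, hs.2.trans hb⟩ _ ⟨ha.trans hm.1, hm.2.trans hb⟩ _
    ⟨ha.trans ht.1, ht.2.trans hb⟩

theorem Tri.add (h : Tri c a b) (h' : Tri c' a b) : Tri (fun s t => c s t + c' s t) a b :=
  fun s hs m hm t ht hsm hmt => by
    calc c s t + c' s t ≤ (c s m + c m t) + (c' s m + c' m t) :=
          add_le_add (h s hs m hm t ht hsm hmt) (h' s hs m hm t ht hsm hmt)
      _ = _ := add_add_add_comm _ _ _ _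

theorem Tri.sum {κ : Type*} {c : κ → ℝ → ℝ → ℝ≥0∞} (T : Finset κ) (h : ∀ i ∈ T, Tri (c i) a b) :
    Tri (fun s t => ∑ i ∈ T, c i s t) a b := by
  intro s hs m hm t ht hsm hmt
  rw [← Finset.sum_add_distrib]
  exact Finset.sum_le_sum fun i hi => h i hi s hs m hm t ht hsm hmt

theorem cvar_self (h0 : ∀ t, c t t = 0) (t : ℝ) : cvar c t t = 0 := by
  refine le_antisymm (cvar_le_iff.2 fun n u hu h => ?_) zero_le
  refine le_of_eq (Finset.sum_eq_zero fun i _ => ?_)
  rw [show u i = t from le_antisymm (h i).2 (h i).1,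
    show u (i + 1) = t from le_antisymm (h (i + 1)).2 (h (i + 1)).1, h0]

/-- additivity for costs with the triangle inequality -/
theorem cvar_le_add (h : Tri c a b) {m : ℝ} (ham : a ≤ m) (hmb : m ≤ b) :
    cvar c a b ≤ cvar c a m + cvar c m b := by
  have hab := ham.trans hmb
  have hm : m ∈ Icc a b := ⟨ham, hmb⟩
  have h1 := cvar_le_of_le (c := c) (a := a) (b := b) hab
    (μ := fun s t => cvar c (min s m) (min t m) + cvar c (max s m) (max t m)) (by
      intro s hs t ht hst
      rcases le_total t m with h1 | h1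
      · rw [min_eq_left (hst.trans h1), min_eq_left h1]
        exact (le_cvar hst).trans le_self_add
      · rcases le_total s m with h2 | h2
        · rw [min_eq_left h2, min_eq_right h1, max_eq_right h2, max_eq_left h1]
          exact (h s hs m hm t ht h2 h1).trans (add_le_add (le_cvar h2) (le_cvar h1))
        · rw [max_eq_left h2, max_eq_left h1]
          exact (le_cvar hst).trans le_add_self) (by
      intro s hs x hx t ht hsx hxt
      have e1 := cvar_add_le (c := c) (min_le_min_right m hsx) (min_le_min_right m hxt)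
      have e2 := cvar_add_le (c := c) (max_le_max_right m hsx) (max_le_max_right m hxt)
      calc _ = (cvar c (min s m) (min x m) + cvar c (min x m) (min t m)) +
            (cvar c (max s m) (max x m) + cvar c (max x m) (max t m)) :=
            add_add_add_comm _ _ _ _
        _ ≤ _ := add_le_add e1 e2)
  simpa [min_eq_left ham, max_eq_right ham, min_eq_right hmb, max_eq_left hmb] using h1

/-- a step: a single jump of the first cost and the variation of the second one -/
theorem step_le (h : Tri c a b) (hab : a ≤ b) :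
    c a b + cvar c' a b ≤ cvar (fun s t => c s t + c' s t) a b := by
  have ha : a ∈ Icc a b := ⟨le_refl _, hab⟩
  have hb : b ∈ Icc a b := ⟨hab, le_refl _⟩
  have : Nonempty (ℕ × {u : ℕ → ℝ // Monotone u ∧ ∀ i, u i ∈ Icc a b}) :=
    ⟨0, fun _ => a, monotone_const, fun _ => ha⟩
  conv_lhs => unfold cvar
  rw [ENNReal.add_iSup]
  refine iSup_le ?_
  rintro ⟨n, u, hu, hu'⟩
  simp only
  have h1 : ∀ n, c (u 0) (u n) ≤ ∑ i ∈ Finset.range n, c (u i) (u (i + 1)) ∨ n = 0 := by
    intro n
    induction n with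
    | zero => exact Or.inr rfl
    | succ n ih =>
      left
      rw [Finset.sum_range_succ]
      rcases ih with h2 | h2
      · exact (h _ (hu' 0) _ (hu' n) _ (hu' (n + 1)) (hu (Nat.zero_le n)) (hu (Nat.le_succ n))).trans
          (add_le_add h2 (le_refl _))
      · subst h2; simp
  have h2 : c a b ≤ c a (u 0) + ((∑ i ∈ Finset.range n, c (u i) (u (i + 1))) + c (u n) b) := by
    refine (h a ha _ (hu' 0) b hb (hu' 0).1 (hu' 0).2).trans (add_le_add (le_refl _) ?_)
    rcases h1 n with h3 | h3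
    · exact (h _ (hu' 0) _ (hu' n) b hb (hu (Nat.zero_le n)) (hu' n).2).trans
        (add_le_add h3 (le_refl _))
    · subst h3; simp
  set d : ℝ → ℝ → ℝ≥0∞ := fun s t => c s t + c' s t with hd
  have h3 : ∑ i ∈ Finset.range n, d (u i) (u (i + 1)) ≤ cvar d (u 0) (u n) := by
    refine sum_le_cvar' (fun i _ => hu (Nat.le_succ i)) (fun i hi => ⟨hu (Nat.zero_le i), hu hi⟩)
  have h4 : d a (u 0) ≤ cvar d a (u 0) := le_cvar (hu' 0).1
  have h5 : d (u n) b ≤ cvar d (u n) b := le_cvar (hu' n).2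
  have h6 : cvar d a (u 0) + (cvar d (u 0) (u n) + cvar d (u n) b) ≤ cvar d a b :=
    (add_le_add (le_refl _) (cvar_add_le (hu (Nat.zero_le n)) (hu' n).2)).trans
      (cvar_add_le (hu' 0).1 (hu' 0).2)
  refine le_trans ?_ h6
  have h7 : ∑ i ∈ Finset.range n, d (u i) (u (i + 1)) =
      ∑ i ∈ Finset.range n, c (u i) (u (i + 1)) + ∑ i ∈ Finset.range n, c' (u i) (u (i + 1)) := by
    rw [hd, ← Finset.sum_add_distrib]
  calc c a b + ∑ i ∈ Finset.range n, c' (u i) (u (i + 1))
      ≤ c a (u 0) + ((∑ i ∈ Finset.range n, c (u i) (u (i + 1))) + c (u n) b) +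
        ∑ i ∈ Finset.range n, c' (u i) (u (i + 1)) := add_le_add h2 (le_refl _)
    _ = c a (u 0) + ((∑ i ∈ Finset.range n, c (u i) (u (i + 1)) +
        ∑ i ∈ Finset.range n, c' (u i) (u (i + 1))) + c (u n) b) := by ring
    _ ≤ d a (u 0) + (∑ i ∈ Finset.range n, d (u i) (u (i + 1)) + d (u n) b) := by
        rw [h7]
        exact add_le_add le_self_add (add_le_add (le_refl _) le_self_add)
    _ ≤ _ := add_le_add h4 (add_le_add h3 h5)

/-- **sum of two variations** -/
theorem cvar_add_cvar (h : Tri c a b) (h' : Tri c' a b) (hab : a ≤ b) :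
    cvar c a b + cvar c' a b ≤ cvar (fun s t => c s t + c' s t) a b := by
  have ha : a ∈ Icc a b := ⟨le_refl _, hab⟩
  have : Nonempty (ℕ × {u : ℕ → ℝ // Monotone u ∧ ∀ i, u i ∈ Icc a b}) :=
    ⟨0, fun _ => a, monotone_const, fun _ => ha⟩
  set d : ℝ → ℝ → ℝ≥0∞ := fun s t => c s t + c' s t with hd
  have key : ∀ (n : ℕ) (u : ℕ → ℝ), Monotone u → (∀ i, u i ∈ Icc a b) →
      ∑ i ∈ Finset.range n, c (u i) (u (i + 1)) + cvar c' a b ≤ cvar d a b := by
    intro n u hu hu'
    have h1 : ∀ k, ∑ i ∈ Finset.range k, c (u i) (u (i + 1)) + cvar c' (u 0) (u k)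
        ≤ cvar d (u 0) (u k) := by
      intro k
      induction k with
      | zero =>
        rw [Finset.range_zero, Finset.sum_empty, zero_add]
        exact cvar_congr fun s _ t _ _ => le_add_self
      | succ k ih =>
        rw [Finset.sum_range_succ]
        have e1 := cvar_le_add (h'.mono (hu' 0).1 (hu' (k + 1)).2) (hu (Nat.zero_le k))
          (hu (Nat.le_succ k))
        have e2 := step_le (c' := c') (h.mono (hu' k).1 (hu' (k + 1)).2) (hu (Nat.le_succ k))
        calc _ ≤ (∑ i ∈ Finset.range k, c (u i) (u (i + 1)) + c (u k) (u (k + 1))) +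
              (cvar c' (u 0) (u k) + cvar c' (u k) (u (k + 1))) := add_le_add (le_refl _) e1
          _ = (∑ i ∈ Finset.range k, c (u i) (u (i + 1)) + cvar c' (u 0) (u k)) +
              (c (u k) (u (k + 1)) + cvar c' (u k) (u (k + 1))) := add_add_add_comm _ _ _ _
          _ ≤ _ := (add_le_add ih e2).trans (cvar_add_le (hu (Nat.zero_le k)) (hu (Nat.le_succ k)))
    have e1 := cvar_le_add h' (hu' 0).1 (hu' 0).2
    have e2 := cvar_le_add (h'.mono (hu' 0).1 (le_refl _)) (hu (Nat.zero_le n)) (hu' n).2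
    have e3 : ∀ s t, cvar c' s t ≤ cvar d s t := fun s t => cvar_congr fun _ _ _ _ _ => le_add_self
    calc _ ≤ ∑ i ∈ Finset.range n, c (u i) (u (i + 1)) +
          (cvar c' a (u 0) + (cvar c' (u 0) (u n) + cvar c' (u n) b)) :=
          add_le_add (le_refl _) (e1.trans (add_le_add (le_refl _) e2))
      _ = cvar c' a (u 0) + ((∑ i ∈ Finset.range n, c (u i) (u (i + 1)) + cvar c' (u 0) (u n)) +
          cvar c' (u n) b) := by ring
      _ ≤ cvar d a (u 0) + (cvar d (u 0) (u n) + cvar d (u n) b) :=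
          add_le_add (e3 _ _) (add_le_add (h1 n) (e3 _ _))
      _ ≤ _ := (add_le_add (le_refl _) (cvar_add_le (hu (Nat.zero_le n)) (hu' n).2)).trans
          (cvar_add_le (hu' 0).1 (hu' 0).2)
  calc cvar c a b + cvar c' a b
      = ⨆ p : ℕ × {u : ℕ → ℝ // Monotone u ∧ ∀ i, u i ∈ Icc a b},
        ((∑ i ∈ Finset.range p.1, c ((p.2 : ℕ → ℝ) i) ((p.2 : ℕ → ℝ) (i + 1))) + cvar c' a b) := by
        conv_lhs => rw [cvar]
        rw [ENNReal.iSup_add]
    _ ≤ _ := iSup_le fun p => key p.1 p.2.1 p.2.2.1 p.2.2.2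

/-- **sum of finitely many variations** -/
theorem sum_cvar_le {κ : Type*} {c : κ → ℝ → ℝ → ℝ≥0∞} (T : Finset κ)
    (h : ∀ i ∈ T, Tri (c i) a b) (hab : a ≤ b) :
    ∑ i ∈ T, cvar (c i) a b ≤ cvar (fun s t => ∑ i ∈ T, c i s t) a b := by
  classical
  induction T using Finset.induction_on with
  | empty => simp
  | insert i T hi ih =>
    have h1 := ih fun j hj => h j (Finset.mem_insert_of_mem hj)
    rw [Finset.sum_insert hi]
    refine (add_le_add (le_refl _) h1).trans ?_
    refine (cvar_add_cvar (h i (Finset.mem_insert_self i T))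
      (Tri.sum T fun j hj => h j (Finset.mem_insert_of_mem hj)) hab).trans ?_
    refine cvar_congr fun s _ t _ _ => le_of_eq ?_
    rw [Finset.sum_insert hi]

/-- subadditivity of the variation in the cost -/
theorem cvar_sum_le {κ : Type*} {c : κ → ℝ → ℝ → ℝ≥0∞} (T : Finset κ) :
    cvar (fun s t => ∑ i ∈ T, c i s t) a b ≤ ∑ i ∈ T, cvar (c i) a b := by
  rw [cvar_le_iff]
  intro n u hu hu'
  rw [Finset.sum_comm]
  exact Finset.sum_le_sum fun i _ => sum_le_cvar n hu hu'

/-- the variation of a function on an interval -/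
theorem eVariationOn_eq_cvar {f : ℝ → ℝ} :
    eVariationOn f (Icc a b) = cvar (fun s t => ENNReal.ofReal |f t - f s|) a b := by
  unfold eVariationOn cvar
  refine iSup_congr fun p => Finset.sum_congr rfl fun i _ => ?_
  rw [edist_dist, Real.dist_eq]

theorem tri_abs (f : ℝ → ℝ) : Tri (fun s t => ENNReal.ofReal |f t - f s|) a b := by
  intro s _ m _ t _ _ _
  rw [← ENNReal.ofReal_add (abs_nonneg _) (abs_nonneg _)]
  refine ENNReal.ofReal_le_ofReal ?_
  have := abs_sub_le (f t) (f m) (f s)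
  linarith

end two

section switch

variable {ι E : Type*} [NormedAddCommGroup E] [NormedSpace ℝ E] {V : VFam ι E} {r : ℝ}
  {L : LamData V.swData}

omit [NormedAddCommGroup E] [NormedSpace ℝ E] in
theorem tot_comm [Fintype ι] (N : ι → Set E) (s : ι → E → ℝ) (x y : E) :
    tot N s x y = tot N s y x := by
  classical
  unfold tot
  refine Finset.sum_congr rfl fun m _ => ?_
  unfold chg
  by_cases h : x ∈ N m ∧ y ∈ N m
  · rw [if_pos h, if_pos h.symm, abs_sub_comm]
  · rw [if_neg h, if_neg fun h' => h h'.symm]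

omit [NormedAddCommGroup E] [NormedSpace ℝ E] in
theorem tot_nonneg [Fintype ι] (N : ι → Set E) (s : ι → E → ℝ) (x y : E) : 0 ≤ tot N s x y :=
  Finset.sum_nonneg fun _ _ => chg_nonneg _ _ _ _

omit [NormedAddCommGroup E] [NormedSpace ℝ E] in
/-- the total change of the levels is bounded by the change of any extensions of the levels -/
theorem tot_le_dsum [Fintype ι] {N : ι → Set E} {s u : ι → E → ℝ} {x y : E}
    (h : ∀ m, x ∈ N m → y ∈ N m → u m x = s m x ∧ u m y = s m y) :
    tot N s x y ≤ dsum u x y := by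
  classical
  refine Finset.sum_le_sum fun m _ => ?_
  unfold chg
  split_ifs with h1
  · rw [(h m h1.1 h1.2).1, (h m h1.1 h1.2).2]
  · exact abs_nonneg _

/-- the local inequality on the whole set -/
theorem Lev.eventually_dsum_le [Fintype ι] {O : SwOut V.swData L r} {C : Set E} {w : ι → E → ℝ}
    (H : Lev O C w) (h0 : 0 < r) (h1 : r < 1) {x : E} (hx : x ∈ C) :
    ∀ᶠ y in 𝓝[C] x, dsum w x y ≤ tot V.N V.s x y := H.eventually_le h0 h1 hx

/-- **the variation of the new levels along a curve** -/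
theorem Lev.cvar_le [Fintype ι] {O : SwOut V.swData L r} {C : Set E} {w : ι → E → ℝ}
    (H : Lev O C w) (h0 : 0 < r) (h1 : r < 1) {γ : ℝ → E} {a b : ℝ}
    (hγ : ContinuousOn γ (Icc a b)) (hC : MapsTo γ (Icc a b) C) :
    cvar (fun s t => ENNReal.ofReal (dsum w (γ s) (γ t))) a b ≤
      cvar (fun s t => ENNReal.ofReal (tot V.N V.s (γ s) (γ t))) a b := by
  rcases le_or_gt a b with hab | hab
  swap
  · refine cvar_le_iff.2 fun n u hu h => ?_
    exact absurd ((h 0).1.trans (h 0).2) (not_le.2 hab)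
  set c : ℝ → ℝ → ℝ≥0∞ := fun s t => ENNReal.ofReal (tot V.N V.s (γ s) (γ t)) with hc
  refine cvar_le_of_le (μ := fun s t => cvar c s t) hab ?_ ?_
  · intro s hs t ht hst
    refine cost_le_of_local (c := fun s t => ENNReal.ofReal (dsum w (γ s) (γ t)))
      (μ := fun s t => cvar c s t) (a := a) (b := b) ?_ ?_ ?_ ?_ hs ht hst
    · intro s _ m _ t _ hsm hmt
      exact cvar_add_le hsm hmt
    · intro t
      simp [dsum_self]
    · intro s _ m _ t _ _ _
      rw [← ENNReal.ofReal_add (dsum_nonneg _ _ _) (dsum_nonneg _ _ _)]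
      exact ENNReal.ofReal_le_ofReal (dsum_triangle _ _ _ _)
    · intro t ht
      have h2 : Tendsto γ (𝓝[Icc a b] t) (𝓝[C] (γ t)) := by
        refine tendsto_nhdsWithin_iff.2 ⟨hγ t ht, ?_⟩
        filter_upwards [self_mem_nhdsWithin] with s hs using hC hs
      filter_upwards [h2.eventually (H.eventually_dsum_le h0 h1 (hC ht))] with s hs
      refine ⟨fun hts => ?_, fun hst => ?_⟩
      · exact (ENNReal.ofReal_le_ofReal hs).trans (le_cvar hts)
      · refine le_trans (ENNReal.ofReal_le_ofReal ?_) (le_cvar hst)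
        rw [dsum_comm, tot_comm]; exact hs
  · intro s _ m _ t _ hsm hmt
    exact cvar_add_le hsm hmt

/-- **Lipschitz bound of the new levels on a convex set** -/
theorem Lev.dsum_le [Fintype ι] {O : SwOut V.swData L r} {C : Set E} {w : ι → E → ℝ}
    (H : Lev O C w) (h0 : 0 < r) (h1 : r < 1) {q : Set E} (hq : Convex ℝ q) (hqC : q ⊆ C) {K : ℝ}
    (hloc : ∀ x ∈ q, ∀ᶠ y in 𝓝[q] x, tot V.N V.s x y ≤ K * dist y x) {x y : E} (hx : x ∈ q)
    (hy : y ∈ q) : dsum w x y ≤ K * dist y x := by
  refine dsum_le_of_local hq (fun i => (H.cont i).mono hqC) ?_ hx hy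
  intro z hz
  filter_upwards [hloc z hz, (H.eventually_dsum_le h0 h1 (hqC hz)).filter_mono
    (nhdsWithin_mono z hqC)] with t ht1 ht2
  exact ht2.trans ht1

/-- **bound of the derivative of the new levels** -/
theorem Lev.norm_fderiv_le [Fintype ι] {O : SwOut V.swData L r} {C : Set E} {w : ι → E → ℝ}
    (H : Lev O C w) (h0 : 0 < r) (h1 : r < 1) {K : ℝ} (hK : 0 ≤ K) {x : E} (hx : x ∈ interior C)
    (hloc : ∀ᶠ y in 𝓝 x, tot V.N V.s x y ≤ K * dist y x) (T : Finset ι) :
    ‖fderiv ℝ (fun y => ∑ i ∈ T, w i y) x‖ ≤ K := by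
  refine norm_fderiv_le_of_local hK ?_ T
  have h2 := H.eventually_dsum_le h0 h1 (interior_subset hx)
  rw [nhdsWithin_eq_nhds.2 (mem_interior_iff_mem_nhds.1 hx)] at h2
  filter_upwards [hloc, h2] with t ht1 ht2
  exact ht2.trans ht1

end switch

end P073.H880
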