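import Vale.Agent.P073.H880.LipH
import Vale.Agent.P073.H190.TvpR

/-!
# P073, H880: the numbers `m e` of `exists_tvP` from the Lipschitz numbers of the cells
-/

open Set Metric Topology Filter
open scoped NNReal ENNReal

namespace P073.H880.LH

open _root_.P073
open Vale.Agent.P073.St (V)
open Vale.Agent.P073.H73 (Mesh)
open Vale.Agent.P073.H193 (Edges)
open _root_.P073.Croft (onS onS_mem)
open Vale.Agent.P073.H190.Tvp (evar_lip)

variable {Ω Λ : Set V} {M : Mesh Ω}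

/-- an edge lies in a cell -/
theorem edge_cell (E : Edges M) (e : E.ε) : ∃ i, E.seg e ⊆ M.Q i := by
  obtain ⟨k, hk⟩ := E.own e
  obtain ⟨i, j, -, h⟩ := M.two k
  exact ⟨i, hk.trans (h.trans inter_subset_left)⟩

/-- the variation of the coordinates on an edge -/
theorem tv_le_lip (E : Edges M) {Lh : M.ι → ℝ} (hL : ∀ i, 0 ≤ Lh i) {f : V → V}
    (hf : ∀ i, ∀ x ∈ M.Q i, ∀ y ∈ M.Q i, ‖f x - f y‖ ≤ Lh i * ‖x - y‖) {e : E.ε} {i : M.ι}
    (hi : E.seg e ⊆ M.Q i) (l : Fin 3) :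
    eVariationOn (fun t => onS f (E.a e) (E.b e) t l) (Icc 0 1) ≤
      ENNReal.ofReal (Lh i * ‖E.b e - E.a e‖) := by
  refine (evar_lip (C := Lh i * ‖E.b e - E.a e‖) (by have := hL i; positivity)
    fun s hs t ht => ?_)
  have h1 := hf i _ (hi (onS_mem hs)) _ (hi (onS_mem ht))
  have h2 := norm_le_pi_norm (onS f (E.a e) (E.b e) s - onS f (E.a e) (E.b e) t) l
  rw [Pi.sub_apply, Real.norm_eq_abs] at h2
  refine h2.trans (h1.trans (le_of_eq ?_))
  have e1 : E.a e + s • (E.b e - E.a e) - (E.a e + t • (E.b e - E.a e)) =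
      (s - t) • (E.b e - E.a e) := by
    rw [sub_smul]; abel
  rw [e1, norm_smul, Real.norm_eq_abs]
  ring

/-- **the numbers `m` of `exists_tvP`**, before the map -/
theorem exists_mE' (E : Edges M) {Lh : M.ι → ℝ} (hL : ∀ i, 0 ≤ Lh i) {w : ℝ} (hw : 0 ≤ w)
    {δ : E.ε → ℝ} (hδ : ∀ e, 0 < δ e) :
    ∃ m : E.ε → ℝ, (∀ e, 0 < m e) ∧ (∀ e, m e ≤ 1) ∧ ∀ f : V → V,
      (∀ i, ∀ x ∈ M.Q i, ∀ y ∈ M.Q i, ‖f x - f y‖ ≤ Lh i * ‖x - y‖) →
      ∀ e, ENNReal.ofReal (w * m e) *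
        ∑ l, eVariationOn (fun t => onS f (E.a e) (E.b e) t l) (Icc 0 1) ≤
        ENNReal.ofReal (δ e / 4) := by
  choose c hc using edge_cell E
  have hA : ∀ e, 0 ≤ Lh (c e) * ‖E.b e - E.a e‖ := fun e =>
    mul_nonneg (hL _) (norm_nonneg _)
  refine ⟨fun e => min 1 (δ e / 4 / ((w + 1) * (3 * (Lh (c e) * ‖E.b e - E.a e‖) + 1))),
    fun e => ?_, fun e => min_le_left _ _, fun f hf e => ?_⟩
  · have h1 := hA e
    have h2 := hδ e
    have h3 : 0 < w + 1 := by linarith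
    exact lt_min one_pos (by positivity)
  · have h1 := hA e
    have h2 := hδ e
    set A := Lh (c e) * ‖E.b e - E.a e‖ with hAdef
    have h3 : ∑ l, eVariationOn (fun t => onS f (E.a e) (E.b e) t l) (Icc 0 1) ≤
        ENNReal.ofReal (3 * A) := by
      refine (Finset.sum_le_sum fun l _ => tv_le_lip E hL hf (hc e) l).trans (le_of_eq ?_)
      rw [Finset.sum_const, Finset.card_univ, Fintype.card_fin, nsmul_eq_mul, ← hAdef,
        ENNReal.ofReal_mul (p := 3) (by norm_num)]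
      norm_num
    have h4 : min 1 (δ e / 4 / ((w + 1) * (3 * A + 1))) ≤ δ e / 4 / ((w + 1) * (3 * A + 1)) :=
      min_le_right _ _
    have h5 : 0 ≤ min 1 (δ e / 4 / ((w + 1) * (3 * A + 1))) :=
      le_min zero_le_one (by positivity)
    calc ENNReal.ofReal (w * min 1 (δ e / 4 / ((w + 1) * (3 * A + 1)))) *
        ∑ l, eVariationOn (fun t => onS f (E.a e) (E.b e) t l) (Icc 0 1)
        ≤ ENNReal.ofReal (w * min 1 (δ e / 4 / ((w + 1) * (3 * A + 1)))) *
          ENNReal.ofReal (3 * A) := mul_le_mul' le_rfl h3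
      _ = ENNReal.ofReal (w * min 1 (δ e / 4 / ((w + 1) * (3 * A + 1))) * (3 * A)) := by
          rw [← ENNReal.ofReal_mul (mul_nonneg hw h5)]
      _ ≤ ENNReal.ofReal (δ e / 4) := by
          refine ENNReal.ofReal_le_ofReal ?_
          set r := min 1 (δ e / 4 / ((w + 1) * (3 * A + 1)))
          rw [le_div_iff₀ (by positivity)] at h4
          nlinarith [mul_nonneg h5 hw, mul_nonneg h5 h1, mul_nonneg (mul_nonneg h5 hw) h1]

end P073.H880.LH
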