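import Vale.Agent.P073.H267.K3Ex1
import Vale.Agent.P073.H669.PLevD
import Vale.Agent.P073.H880.LipM

/-!
# P073, H880: **[K3-TOP]**, the choice of the numbers, part A: finite minima, sizes
-/

open Set Metric Topology Filter
open scoped ENNReal

set_option linter.unusedSectionVars false

namespace Vale.Agent.P073.Top880

open _root_.P073 _root_.P073.Net _root_.P073.PA691 _root_.P073.H236 _root_.P073.H579
open _root_.P073.H345 (PK)
open Vale.Agent.P073.St (V)
open Vale.Agent.P073.H471 Vale.Agent.P073.H267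
open Vale.Agent.P073.H73 (Mesh)
open Vale.Agent.P073.H193 (Edges edges)
open Vale.Agent.P073.H304 (Nb In Zmax)
open Vale.Agent.P073.H926
open Vale.Agent.P073.H238.K3
open Vale.Agent.P073.H669 (exists_le_of_finite)

variable {c₀ n δ : ℝ} {j : ℕ} {Ω Λ : Set V} {v w : V} {ρ : V → ℝ} {M : Mesh Ω} {h : ConHomeo Ω Λ}
  {J₀ J : Set (ℕ × (Fin 3 → ℤ))} {P Z : Set M.ι} {K : BoxCx Λ w}

/-! ### compact neighbourhoods -/

theorem isCompact_PX {S : Rad K} {W : Wid K S} {B : Boxes W} (G : Geo B) (s : K.S) :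
    IsCompact (PX G s) := by
  refine Metric.isCompact_of_isClosed_isBounded ?_ ?_
  · have e : PX G s = (⋂ j : Fin 3, ⋂ _ : j ≠ K.nrm s, {y : V | K.slo s j + 1 / 2 * G.p s ≤ y j} ∩
        {y : V | y j ≤ K.shi s j - 1 / 2 * G.p s}) ∩
        {y : V | |y (K.nrm s) - K.slo s (K.nrm s)| ≤ 7 / 4 * B.τ s} := by
      ext y; simp [PX]
    rw [e]
    refine IsClosed.inter (isClosed_iInter fun j => isClosed_iInter fun _ => IsClosed.inter ?_ ?_) ?_
    · exact isClosed_le continuous_const (continuous_apply j)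
    · exact isClosed_le (continuous_apply j) continuous_const
    · exact isClosed_le ((continuous_apply _).sub continuous_const).abs continuous_const
  · refine (Metric.isBounded_Icc (a := fun j => min (K.slo s j + 1 / 2 * G.p s)
      (K.slo s (K.nrm s) - 7 / 4 * B.τ s)) (b := fun j => max (K.shi s j - 1 / 2 * G.p s)
      (K.slo s (K.nrm s) + 7 / 4 * B.τ s))).subset fun y hy => ?_
    obtain ⟨h1, h2⟩ := hy
    have h3 := abs_le.1 h2
    refine ⟨fun j => ?_, fun j => ?_⟩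
    · by_cases hj : j = K.nrm s
      · subst hj; exact (min_le_right _ _).trans (by linarith)
      · exact (min_le_left _ _).trans (h1 j hj).1
    · by_cases hj : j = K.nrm s
      · subst hj; exact le_trans (by linarith) (le_max_right _ _)
      · exact (h1 j hj).2.trans (le_max_left _ _)

theorem PX_sub {S : Rad K} {W : Wid K S} {B : Boxes W} (G : Geo B) (s : K.S) : PX G s ⊆ Λ := by
  intro y hy
  exact ss_subset s (PX_sub_ss s hy)

/-- one number per square, below given numbers of the sets whose images meet `PX s` -/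
theorem exists_PX {S : Rad K} {W : Wid K S} {B : Boxes W} (G : Geo B) (h : ConHomeo Ω Λ)
    {τ : Type*} {A : τ → Set V} (hA : ∀ a, A a ⊆ Ω)
    (hlf : ∀ X ⊆ Ω, IsCompact X → {a | (A a ∩ X).Nonempty}.Finite) {r : τ → ℝ}
    (hr : ∀ a, 0 < r a) :
    ∃ t : K.S → ℝ, (∀ s, 0 < t s) ∧
      ∀ s a, (h.toFun '' A a ∩ PX G s).Nonempty → t s ≤ r a :=
  exists_le_of_finite (R := fun s a => (h.toFun '' A a ∩ PX G s).Nonempty)
    (fun s => Croft.finite_image_inter h hA hlf (isCompact_PX G s) (PX_sub G s)) hr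

/-! ### positions before the slivers -/

section s1

variable {D : KIn3 c₀ n j δ v w ρ M h J₀ J P Z} {C : Cells ρ w K} {C₀ μT : ℝ}

open Vale.Agent.P073.H267.K3 (S1)

/-- a point which ROUND T moves into a plate -/
theorem PX_of_PK (X : S1 D C C₀ μT) {x : V} (hx : x ∈ Ω) {s : K.S}
    (hs : X.h1.toFun x ∈ PK (D.G C) s) : h.toFun x ∈ PX (D.G C) s := by
  obtain ⟨q, hq⟩ := K.cover _ (h.mapsTo hx)
  have h1 := X.out.near3 x hx q hq
  obtain ⟨q₁, hq₁⟩ := K.cover _ (X.h1.mapsTo hx)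
  have hqs := tile_PX (PK_sub_PX s hs) hq₁
  have ho := o3_pos D.pos
  have hT := C.sT_pos q
  have hT1 := C.sT_pos q₁
  have hκ := D.κ_lt
  have hoκ := o3_eq (n := n)
  have e2 : C.sT q ≤ 4 * C.sT q₁ := by
    refine sT_comp' C D.hρ (x := h.toFun x) (y := X.h1.toFun x) hq hq₁ ?_
    rw [norm_sub_rev] at h1
    have h2 : (D.G C).om q = o3 n * C.sT q := rfl
    rw [h2] at h1
    rw [norm_sub_rev]
    refine h1.trans ?_
    nlinarith
  have e3 : (D.G C).om q ≤ 4 * (D.G C).om q₁ := by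
    show o3 n * C.sT q ≤ 4 * (o3 n * C.sT q₁)
    nlinarith
  have e4 := (D.G C).om_oS q₁ s hqs
  have e5 := (D.G C).oS_τ s
  have hτ := (D.B C).τ_pos s
  refine PX_of_near hs ?_
  rw [norm_sub_rev]
  linarith

/-- **one number per square, chosen before the slivers** -/
theorem exists_before (D : KIn3 c₀ n j δ v w ρ M h J₀ J P Z) (C : Cells ρ w K)
    {τ : Type*} {A : τ → Set V} (hA : ∀ a, A a ⊆ Ω)
    (hlf : ∀ X ⊆ Ω, IsCompact X → {a | (A a ∩ X).Nonempty}.Finite) {r : τ → ℝ}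
    (hr : ∀ a, 0 < r a) :
    ∃ t : K.S → ℝ, (∀ s, 0 < t s) ∧ ∀ {C₀ μT : ℝ} (X : S1 D C C₀ μT),
      ∀ s a, (X.h1.toFun '' A a ∩ PK (D.G C) s).Nonempty → t s ≤ r a := by
  obtain ⟨t, h0, h1⟩ := exists_PX (D.G C) h hA hlf hr
  refine ⟨t, h0, fun X s a ha => h1 s a ?_⟩
  obtain ⟨_, ⟨x, hx, rfl⟩, hxs⟩ := ha
  exact ⟨_, ⟨x, hx, rfl⟩, PX_of_PK X (hA a hx) hxs⟩

end s1

/-! ### the number `δ` -/

/-- the oscillation is small against the windows -/
theorem len_T (D : KIn3 c₀ n j δ v w ρ M h J₀ J P Z) (C : Cells ρ w K) {A μ : ℝ} (hA : 0 ≤ A)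
    (hδ : A * δ ≤ μ * o3 n) (b : TBx K) :
    A * ω3T δ C b ≤ μ * ((D.G C).thi true b b.ax - (D.G C).tlo true b b.ax) := by
  have h1 := H669.win (D.G C) b
  have h2 := D.ω3T_pos C b
  have ho := o3_pos D.pos
  have hδ0 := D.δpos
  have hμ : 0 ≤ μ := by
    by_contra hcon
    push Not at hcon
    have : μ * o3 n < 0 := mul_neg_of_neg_of_pos hcon ho
    have : 0 ≤ A * δ := mul_nonneg hA hδ0.le
    linarith
  have key : A * ω3T δ C b ≤ μ * H238.oT (D.G C) b := by
    rcases b with e | i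
    · have h3 := C.sG_pos e
      show A * (4 * δ * C.sG e) ≤ μ * (4 * o3 n * C.sG e)
      nlinarith [mul_le_mul_of_nonneg_right hδ (by positivity : (0:ℝ) ≤ 4 * C.sG e)]
    · have h3 := C.sW_pos i.i
      show A * (4 * δ * C.sW i.i) ≤ μ * (4 * o3 n * C.sW i.i)
      nlinarith [mul_le_mul_of_nonneg_right hδ (by positivity : (0:ℝ) ≤ 4 * C.sW i.i)]
  refine key.trans (mul_le_mul_of_nonneg_left ?_ hμ)
  have h4 := D.ω3T_oT C b
  linarith

end Vale.Agent.P073.Top880
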