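import Vale.Agent.P073.H267.K3Ex1
import Vale.Agent.P073.H267.K3Ex2
import Vale.Agent.P073.H267.K3Ex3
import Vale.Agent.P073.H267.K3Ex4
import Vale.Agent.P073.H345.We3C
import Vale.Agent.P073.H212.MuT
import Vale.Agent.P073.H142.FaceTail
import Vale.Agent.P073.H155.NumS
import Vale.Agent.P073.H880.TopA

/-!
# P073, H880: **[K3-TOP]**, the chain of the stages, with empty slots for the numbers

`Slots`: positive bounds for the numbers which are free, in the order of the choice (every bound may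
depend on what has been chosen before it).  `exists_chain4`: the stages `S1`, .., `S4`.
-/

open Set Metric Topology Filter
open scoped ENNReal

set_option linter.unusedSectionVars false

namespace Vale.Agent.P073.Top880

open _root_.P073 _root_.P073.Net _root_.P073.PA691 _root_.P073.H236 _root_.P073.H579
open _root_.P073.H142 (FStar)
open _root_.P073.H345 (PK)
open _root_.P073.H429 (ebe eal)
open Vale.Agent.P073.St (V)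
open Vale.Agent.P073.H471 Vale.Agent.P073.H267
open Vale.Agent.P073.H73 (Mesh)
open Vale.Agent.P073.H193 (Edges edges)
open Vale.Agent.P073.H304 (Nb In Zmax)
open Vale.Agent.P073.H926
open Vale.Agent.P073.H238.K3
open Vale.Agent.P073.H687 (Marks)
open Vale.Agent.P073.H267.K3
open Vale.Agent.P073.H345W

/-- **the conclusion of `exists_s1`** with the constant `C₀` -/
def S1Ex (C₀ : ℝ) : Prop :=
  ∀ {c₀ n δ : ℝ} {j : ℕ} {Ω Λ : Set V} {v w : V} {ρ : V → ℝ} {M : Mesh Ω} {h : ConHomeo Ω Λ}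
      {J₀ J : Set (ℕ × (Fin 3 → ℤ))} {P Z : Set M.ι} {K : BoxCx Λ w}
      (D : KIn3 c₀ n j δ v w ρ M h J₀ J P Z) (C : Cells ρ w K)
      (T : ∀ k, FStar (edges M) k) (μ : ℝ), 0 < μ →
      (∀ b ∈ pB C J₀, 300 * ω3T δ C b ≤ μ * ((D.G C).thi true b b.ax - (D.G C).tlo true b b.ax)) →
      ∀ Zw : Set (Set V), ZWall (D.G C) M h (Act D C) (pB C J₀) (ω3T δ C) Zw →
      ∀ ε : (edges M).ε → ℝ, (∀ e, 0 < ε e) →
      (∀ e, ε e ≤ ‖h.toFun ((edges M).b e) - h.toFun ((edges M).a e)‖) →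
      ∀ εd : pB C J₀ → ℝ, (∀ b, 0 < εd b) →
      ∃ (bn La : (edges M).ε → ℝ) (Lf : M.κ → (edges M).ε → ℝ) (Lam1 : M.κ → ℝ)
        (nT : pB C J₀ → ℕ), TNum3 M (edges M) h.toFun T C₀ ε (Wc D C) bn La Lf ∧
      (∀ k, 0 ≤ Lam1 k) ∧ ∃ Lh : M.ι → ℝ, (∀ i, 0 ≤ Lh i) ∧
      ∀ σ fat : pB C J₀ → ℝ, (∀ b, 0 < σ b) → (∀ b, 0 ≤ fat b) →
      ∃ X : S1 D C C₀ μ, X.T = T ∧ X.εe = ε ∧ X.εd = εd ∧ X.bn = bn ∧ X.La = La ∧ X.Lf = Lf ∧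
        X.Lam1 = Lam1 ∧ X.nT = nT ∧ X.σ = σ ∧ X.fat = fat ∧ LipH M Lh X.h1.toFun ∧
        WallOut D C (edges M) Zw X.h1

/-- the numbers of ROUND T, which are known before the slivers -/
structure RTn {Ω : Set V} (M : Mesh Ω) {Λ : Set V} {w : V} {ρ : V → ℝ} {K : BoxCx Λ w}
    (C : Cells ρ w K) (J₀ : Set (ℕ × (Fin 3 → ℤ))) where
  bn : (edges M).ε → ℝ
  La : (edges M).ε → ℝ
  Lf : M.κ → (edges M).ε → ℝ
  Lam1 : M.κ → ℝ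
  nT : pB C J₀ → ℕ
  Lh : M.ι → ℝ
  bn0 : ∀ e, 0 < bn e
  La0 : ∀ e, 0 ≤ La e
  Lam10 : ∀ k, 0 ≤ Lam1 k
  Lh0 : ∀ i, 0 ≤ Lh i

variable {c₀ n δ : ℝ} {j : ℕ} {Ω Λ : Set V} {v w : V} {ρ : V → ℝ} {M : Mesh Ω} {h : ConHomeo Ω Λ}
  {J₀ J : Set (ℕ × (Fin 3 → ℤ))} {P Z : Set M.ι} {K : BoxCx Λ w}

/-- **the slots**: positive bounds, in the order of the choice -/
structure Slots (D : KIn3 c₀ n j δ v w ρ M h J₀ J P Z) (C : Cells ρ w K) (C₀ μT : ℝ)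
    (Ys : Set M.κ) (sc : Sharp) where
  /-- (1) the errors of ROUND T -/
  εe : (edges M).ε → ℝ
  εe0 : ∀ e, 0 < εe e
  εd : pB C J₀ → ℝ
  εd0 : ∀ b, 0 < εd b
  /-- (2) displacement of ROUND P, slivers of ROUND T -/
  m : RTn M C J₀ → K.S → ℝ
  m0 : ∀ N s, 0 < m N s
  sT : RTn M C J₀ → pB C J₀ → ℝ
  sT0 : ∀ N b, 0 < sT N b
  /-- (3) errors of the crossings, spacing of the levels -/
  εE : ∀ _ : S1 D C C₀ μT, (edges M).ε → ℝ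
  εE0 : ∀ X e, 0 < εE X e
  dm : ∀ _ : S1 D C C₀ μT, K.S → ℝ
  dm0 : ∀ X s, 0 < dm X s
  /-- (4) the flats, the tolerance of the faces -/
  cm : ∀ {X : S1 D C C₀ μT} (_ : S2 X), K.S → Bool → ℝ
  cm0 : ∀ {X} (Y₂ : S2 X) s β, 0 < cm Y₂ s β
  ν : ∀ {X : S1 D C C₀ μT} (_ : S2 X), M.κ → ℝ
  ν0 : ∀ {X} (Y₂ : S2 X) k, 0 < ν Y₂ k
  /-- (5) the walls of the staircases -/
  e₁ : ∀ {X : S1 D C C₀ μT} (_ : S2 X), ConHomeo Ω Λ → (K.S → Bool → ℝ) → Bool →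
    (D.dat C).S₀ → ℝ
  e₁0 : ∀ {X} (Y₂ : S2 X) h3 c, (∀ s β, 0 < c s β) → ∀ β s, 0 < e₁ Y₂ h3 c β s
  /-- (6) the tolerance of the second staircases of ROUND P -/
  tol4 : ∀ {X : S1 D C C₀ μT} {Y₂ : S2 X} (_ : S3 Y₂ Ys sc), ConHomeo Ω Λ →
    ((D.dat C).S₀ → ℝ) → (D.dat C).S₀ → ℝ
  tol40 : ∀ {X} {Y₂ : S2 X} (Y₃ : S3 Y₂ Ys sc) f k s, 0 < tol4 Y₃ f k s
  /-- (7) the steps and the half gaps of the thin bands, the tolerance of the last staircase -/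
  δT : ∀ {X : S1 D C C₀ μT} {Y₂ : S2 X} {Y₃ : S3 Y₂ Ys sc} (_ : S4 Y₃), pG C J₀ → ℝ
  δT0 : ∀ {X} {Y₂ : S2 X} {Y₃ : S3 Y₂ Ys sc} (Y₄ : S4 Y₃) b, 0 < δT Y₄ b
  εT : ∀ {X : S1 D C C₀ μT} {Y₂ : S2 X} {Y₃ : S3 Y₂ Ys sc} (_ : S4 Y₃), (pG C J₀ → ℕ) →
    pG C J₀ → ℝ
  εT0 : ∀ {X} {Y₂ : S2 X} {Y₃ : S3 Y₂ Ys sc} (Y₄ : S4 Y₃) Mn, (∀ b, 0 < Mn b) →
    ∀ b, 0 < εT Y₄ Mn b
  tol5 : ∀ {X : S1 D C C₀ μT} {Y₂ : S2 X} {Y₃ : S3 Y₂ Ys sc} (_ : S4 Y₃), ConHomeo Ω Λ →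
    (pG C J₀ → ℝ) → pG C J₀ → ℝ
  tol50 : ∀ {X} {Y₂ : S2 X} {Y₃ : S3 Y₂ Ys sc} (Y₄ : S4 Y₃) f k b, 0 < tol5 Y₄ f k b

/-- **the first three stages respect the slots** -/
structure Ok3 {D : KIn3 c₀ n j δ v w ρ M h J₀ J P Z} {C : Cells ρ w K} {C₀ μT : ℝ}
    {Ys : Set M.κ} {sc : Sharp} (S : Slots D C C₀ μT Ys sc) (N : RTn M C J₀)
    {X : S1 D C C₀ μT} {Y₂ : S2 X} (Y₃ : S3 Y₂ Ys sc) : Prop where
  εe : ∀ e, X.εe e ≤ S.εe e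
  εd : ∀ b, X.εd b ≤ S.εd b
  bn : X.bn = N.bn
  La : X.La = N.La
  Lf : X.Lf = N.Lf
  Lam1 : X.Lam1 = N.Lam1
  nT : X.nT = N.nT
  lip : LipH M N.Lh X.h1.toFun
  σ : ∀ b, X.σ b ≤ S.sT N b
  fat : ∀ b, X.fat b = 2048 * ω3T δ C b.1
  J : ∀ s, Y₂.J s = 2048 * ω3S δ C s
  R : ∀ s, Y₂.R s = 131072 * ω3S δ C s
  r : Y₂.r = 1 / 63
  Jn : Y₂.Jn = jnM (D.G C) (fun s => 512 * ω3S δ C s) Y₂.Q
  muP : ∀ s, Y₂.muP s ≤ S.m N s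
  muJ : ∀ s, Y₂.muP s ≤ 2048 * ω3S δ C s
  η : Y₂.η ≤ n / 1024
  εE : ∀ e, Y₂.εE e ≤ S.εE X e
  εE' : ∀ e, Y₂.εE e ≤ X.εe e
  dP : ∀ s, Y₂.dP s ≤ S.dm X s
  q : Y₃.q = 8 * (500 * C₀ + 700) + 32 * C₀
  We : Y₃.We = fun e => (500 * C₀ + 700) * X.bn e
  c : ∀ s β, Y₃.c s β ≤ S.cm Y₂ s β
  ν : ∀ k, Y₃.ν k ≤ S.ν Y₂ k
  e : ∀ β s, Y₃.e β s ≤ S.e₁ Y₂ Y₃.h3 Y₃.c β s

/-- **[K3-TOP]** the stages `S1`, `S2`, `S3` -/
theorem exists_chain3 {C₀ : ℝ} (hC₀ : 1 ≤ C₀) (HS : S1Ex C₀)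
    (D : KIn3 c₀ n j δ v w ρ M h J₀ J P Z) (C : Cells ρ w K) {μT : ℝ} (hμ : 0 < μT)
    (hlen : ∀ b ∈ pB C J₀,
      300 * ω3T δ C b ≤ μT * ((D.G C).thi true b b.ax - (D.G C).tlo true b b.ax))
    {Zw : Set (Set V)} (HZ : ZWall (D.G C) M h (Act D C) (pB C J₀) (ω3T δ C) Zw)
    {Ys : Set M.κ} {sc : Sharp} (hm0 : 0 < sc.m) (hm1 : sc.m < 1 / 4) (hK : 0 < sc.K)
    (hρ : sc.ρ ≤ 1 / 2) (hSF : FW31.SpecSharpFace sc.m sc.K sc.e sc.β sc.ρ)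
    (S : Slots D C C₀ μT Ys sc) :
    ∃ (N : RTn M C J₀) (X : S1 D C C₀ μT) (Y₂ : S2 X) (Y₃ : S3 Y₂ Ys sc), Ok3 S N Y₃ ∧
      WallOut D C (edges M) Zw X.h1 := by
  classical
  have hC : 0 ≤ C₀ := by linarith
  have hinj : ∀ e, 0 < ‖h.toFun ((edges M).b e) - h.toFun ((edges M).a e)‖ := fun e => by
    refine norm_pos_iff.2 (sub_ne_zero.2 fun h1 => (edges M).ne e ?_)
    exact (h.injOn ((edges M).seg_sub_Ω e (right_mem_segment ℝ _ _))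
      ((edges M).seg_sub_Ω e (left_mem_segment ℝ _ _)) h1).symm
  let T : ∀ k, FStar (edges M) k := fun k => (_root_.P073.H142.exists_fstar (edges M) k).some
  obtain ⟨bn, La, Lf, Lam1, nT, hN, hLam, Lh, hLh, H⟩ := HS D C T μT hμ hlen Zw HZ
    (fun e => min (S.εe e) ‖h.toFun ((edges M).b e) - h.toFun ((edges M).a e)‖)
    (fun e => lt_min (S.εe0 e) (hinj e)) (fun e => min_le_right _ _) S.εd S.εd0
  set N : RTn M C J₀ := ⟨bn, La, Lf, Lam1, nT, Lh, hN.b_pos, hN.La_nonneg, hLam, hLh⟩ with hNd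
  -- the displacement of ROUND P
  obtain ⟨μ', σ, hμ0, hμle, hσ0, H2⟩ := exists_s2 D C
    (μ := fun s => min (S.m N s) (2048 * ω3S δ C s))
    (fun s => lt_min (S.m0 N s) (by have := D.ω3S_pos C s; positivity))
  -- the slivers
  obtain ⟨X, hT, hεe, hεd, hbn, hLa, hLf, hLam', hnT, hσ, hfat, hlip, hwall⟩ :=
    H (fun b => min (S.sT N b) (σ b.1)) (fun b => 2048 * ω3T δ C b.1)
      (fun b => lt_min (S.sT0 N b) (hσ0 b.1)) (fun b => by have := D.ω3T_pos C b.1; positivity)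
  -- the levels
  obtain ⟨Q, hQ⟩ := D.exists_marksN C (N' := 2048) (N := 131072) (by norm_num) (by norm_num)
    (by norm_num)
  have hn := D.pos
  have hn4 := D.lt
  obtain ⟨Y₂, hdP, hJ, hR, hQ', hr, hη, hCn, hεE, hJn, hmuP⟩ := H2 X
    (fun b => by rw [hσ]; exact min_le_right _ _) hQ (r := 1 / 63) (by norm_num) (by norm_num)
    (fun s => min_le_right _ _) (fun s => by have := D.ω3S_pos C s; linarith)
    (fun s => by have := D.ω3S_pos C s; linarith)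
    (fun s l b hb => by
      have h1 := (D.ω3T_le_S C hb).1
      have h2 := D.ω3T_pos C b.1
      rw [hfat]
      constructor <;> linarith)
    (εE := fun e => min (S.εE X e) (X.εe e)) (fun e => lt_min (S.εE0 X e) (X.εe0 e))
    (Cn := ∅) countable_empty (η := n / 1024) (by linarith) (by linarith)
    (jnM (D.G C) (fun s => 512 * ω3S δ C s) Q) (dmax := S.dm X) (S.dm0 X)
  have hsub : SubW X Y₂ fun s => 512 * ω3S δ C s :=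
    subW_of (fun s => by rw [hJ]) (fun b => by rw [hfat]) fun s β => by
      rw [hJn, hQ']
  obtain ⟨Y₃, hq, hc, hν, he, hWe⟩ := exists_s3 hC₀ Y₂ Ys hm0 hm1 hK hρ hSF
    (C₂ := 500 * C₀ + 700) (by positivity)
    (fun s e he Y hY => we3 hsub X.out.tvg hC (fun e => by rw [hεE]; exact min_le_right _ _)
      s e he Y hY) (S.cm0 Y₂) (S.ν0 Y₂) (S.e₁ Y₂) (S.e₁0 Y₂)
  exact ⟨N, X, Y₂, Y₃,
    { εe := fun e => by rw [hεe]; exact min_le_left _ _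
      εd := fun b => by rw [hεd]
      bn := hbn
      La := hLa
      Lf := hLf
      Lam1 := hLam'
      nT := hnT
      lip := hlip
      σ := fun b => by rw [hσ]; exact min_le_left _ _
      fat := fun b => by rw [hfat]
      J := fun s => by rw [hJ]
      R := fun s => by rw [hR]
      r := hr
      Jn := by rw [hJn, hQ']
      muP := fun s => by rw [hmuP]; exact (hμle s).trans (min_le_left _ _)
      muJ := fun s => by rw [hmuP]; exact (hμle s).trans (min_le_right _ _)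
      η := by rw [hη]
      εE := fun e => by rw [hεE]; exact min_le_left _ _
      εE' := fun e => by rw [hεE]; exact min_le_right _ _
      dP := hdP
      q := hq
      We := hWe
      c := hc
      ν := fun k => by rw [hν]
      e := he }, hwall⟩

/-- the numbers of the hook of the plates -/
structure Ok4 {D : KIn3 c₀ n j δ v w ρ M h J₀ J P Z} {C : Cells ρ w K} {C₀ μT : ℝ}
    {Ys : Set M.κ} {sc : Sharp} (S : Slots D C C₀ μT Ys sc) (N : RTn M C J₀)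
    {X : S1 D C C₀ μT} {Y₂ : S2 X} {Y₃ : S3 Y₂ Ys sc} (Y₄ : S4 Y₃) : Prop extends Ok3 S N Y₃ where
  r4 : ∀ s, Y₄.r s = 1 - n / 2048
  q4 : ∀ s, Y₄.q s = 1 - n / 2048
  ε4 : ∀ s, Y₄.ε s ≤ S.tol4 Y₃ Y₄.h5 Y₄.K₂ s

/-- **[K3-TOP]** the stages `S1`, .., `S4` -/
theorem exists_chain4 {C₀ : ℝ} (hC₀ : 1 ≤ C₀) (HS : S1Ex C₀)
    (D : KIn3 c₀ n j δ v w ρ M h J₀ J P Z) (C : Cells ρ w K) {μT : ℝ} (hμ : 0 < μT)
    (hlen : ∀ b ∈ pB C J₀,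
      300 * ω3T δ C b ≤ μT * ((D.G C).thi true b b.ax - (D.G C).tlo true b b.ax))
    {Zw : Set (Set V)} (HZ : ZWall (D.G C) M h (Act D C) (pB C J₀) (ω3T δ C) Zw)
    {Ys : Set M.κ} {sc : Sharp} (hm0 : 0 < sc.m) (hm1 : sc.m < 1 / 4) (hK : 0 < sc.K)
    (hρ : sc.ρ ≤ 1 / 2) (hSF : FW31.SpecSharpFace sc.m sc.K sc.e sc.β sc.ρ)
    (S : Slots D C C₀ μT Ys sc) :
    ∃ (N : RTn M C J₀) (X : S1 D C C₀ μT) (Y₂ : S2 X) (Y₃ : S3 Y₂ Ys sc) (Y₄ : S4 Y₃),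
      Ok4 S N Y₄ ∧ WallOut D C (edges M) Zw X.h1 := by
  obtain ⟨N, X, Y₂, Y₃, H, hwall⟩ := exists_chain3 hC₀ HS D C hμ hlen HZ hm0 hm1 hK hρ hSF S
  have hn := D.pos
  have hn4 := D.lt
  obtain ⟨Y₄, h1, h2, h3⟩ := exists_s4 Y₃ (r := fun _ => 1 - n / 2048) (q := fun _ => 1 - n / 2048)
    (fun _ => by linarith) (fun _ => by linarith) (fun _ => by linarith) (fun _ => by linarith)
    (S.tol4 Y₃) (S.tol40 Y₃)
  exact ⟨N, X, Y₂, Y₃, Y₄, ⟨H, fun s => by rw [h1], fun s => by rw [h2], fun s => by rw [h3]⟩,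
    hwall⟩

/-! ### The minimum of two families of slots -/

section inf

variable {D : KIn3 c₀ n j δ v w ρ M h J₀ J P Z} {C : Cells ρ w K} {C₀ μT : ℝ}
  {Ys : Set M.κ} {sc : Sharp}

/-- **the minimum of two families of slots** -/
noncomputable def Slots.inf (S S' : Slots D C C₀ μT Ys sc) : Slots D C C₀ μT Ys sc where
  εe e := min (S.εe e) (S'.εe e)
  εe0 e := lt_min (S.εe0 e) (S'.εe0 e)
  εd b := min (S.εd b) (S'.εd b)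
  εd0 b := lt_min (S.εd0 b) (S'.εd0 b)
  m N s := min (S.m N s) (S'.m N s)
  m0 N s := lt_min (S.m0 N s) (S'.m0 N s)
  sT N b := min (S.sT N b) (S'.sT N b)
  sT0 N b := lt_min (S.sT0 N b) (S'.sT0 N b)
  εE X e := min (S.εE X e) (S'.εE X e)
  εE0 X e := lt_min (S.εE0 X e) (S'.εE0 X e)
  dm X s := min (S.dm X s) (S'.dm X s)
  dm0 X s := lt_min (S.dm0 X s) (S'.dm0 X s)
  cm Y₂ s β := min (S.cm Y₂ s β) (S'.cm Y₂ s β)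
  cm0 Y₂ s β := lt_min (S.cm0 Y₂ s β) (S'.cm0 Y₂ s β)
  ν Y₂ k := min (S.ν Y₂ k) (S'.ν Y₂ k)
  ν0 Y₂ k := lt_min (S.ν0 Y₂ k) (S'.ν0 Y₂ k)
  e₁ Y₂ h3 c β s := min (S.e₁ Y₂ h3 c β s) (S'.e₁ Y₂ h3 c β s)
  e₁0 Y₂ h3 c hc β s := lt_min (S.e₁0 Y₂ h3 c hc β s) (S'.e₁0 Y₂ h3 c hc β s)
  tol4 Y₃ f k s := min (S.tol4 Y₃ f k s) (S'.tol4 Y₃ f k s)
  tol40 Y₃ f k s := lt_min (S.tol40 Y₃ f k s) (S'.tol40 Y₃ f k s)
  δT Y₄ b := min (S.δT Y₄ b) (S'.δT Y₄ b)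
  δT0 Y₄ b := lt_min (S.δT0 Y₄ b) (S'.δT0 Y₄ b)
  εT Y₄ Mn b := min (S.εT Y₄ Mn b) (S'.εT Y₄ Mn b)
  εT0 Y₄ Mn hM b := lt_min (S.εT0 Y₄ Mn hM b) (S'.εT0 Y₄ Mn hM b)
  tol5 Y₄ f k b := min (S.tol5 Y₄ f k b) (S'.tol5 Y₄ f k b)
  tol50 Y₄ f k b := lt_min (S.tol50 Y₄ f k b) (S'.tol50 Y₄ f k b)

/-- the empty slots -/
noncomputable def Slots.one : Slots D C C₀ μT Ys sc where
  εe _ := 1
  εe0 _ := one_pos
  εd _ := 1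
  εd0 _ := one_pos
  m _ _ := 1
  m0 _ _ := one_pos
  sT _ _ := 1
  sT0 _ _ := one_pos
  εE _ _ := 1
  εE0 _ _ := one_pos
  dm _ _ := 1
  dm0 _ _ := one_pos
  cm _ _ _ := 1
  cm0 _ _ _ := one_pos
  ν _ _ := 1
  ν0 _ _ := one_pos
  e₁ _ _ _ _ _ := 1
  e₁0 _ _ _ _ _ _ := one_pos
  tol4 _ _ _ _ := 1
  tol40 _ _ _ _ := one_pos
  δT _ _ := 1
  δT0 _ _ := one_pos
  εT _ _ _ := 1
  εT0 _ _ _ _ := one_pos
  tol5 _ _ _ _ := 1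
  tol50 _ _ _ _ := one_pos

/-- smaller slots -/
structure Slots.Le (S S' : Slots D C C₀ μT Ys sc) : Prop where
  εe : ∀ e, S.εe e ≤ S'.εe e
  εd : ∀ b, S.εd b ≤ S'.εd b
  m : ∀ N s, S.m N s ≤ S'.m N s
  sT : ∀ N b, S.sT N b ≤ S'.sT N b
  εE : ∀ X e, S.εE X e ≤ S'.εE X e
  dm : ∀ X s, S.dm X s ≤ S'.dm X s
  cm : ∀ {X} (Y₂ : S2 X) s β, S.cm Y₂ s β ≤ S'.cm Y₂ s β
  ν : ∀ {X} (Y₂ : S2 X) k, S.ν Y₂ k ≤ S'.ν Y₂ k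
  e₁ : ∀ {X} (Y₂ : S2 X) h3 c β s, S.e₁ Y₂ h3 c β s ≤ S'.e₁ Y₂ h3 c β s
  tol4 : ∀ {X} {Y₂ : S2 X} (Y₃ : S3 Y₂ Ys sc) f k s, S.tol4 Y₃ f k s ≤ S'.tol4 Y₃ f k s
  δT : ∀ {X} {Y₂ : S2 X} {Y₃ : S3 Y₂ Ys sc} (Y₄ : S4 Y₃) b, S.δT Y₄ b ≤ S'.δT Y₄ b
  εT : ∀ {X} {Y₂ : S2 X} {Y₃ : S3 Y₂ Ys sc} (Y₄ : S4 Y₃) Mn b, S.εT Y₄ Mn b ≤ S'.εT Y₄ Mn b
  tol5 : ∀ {X} {Y₂ : S2 X} {Y₃ : S3 Y₂ Ys sc} (Y₄ : S4 Y₃) f k b,
    S.tol5 Y₄ f k b ≤ S'.tol5 Y₄ f k b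

theorem Slots.inf_left (S S' : Slots D C C₀ μT Ys sc) : (S.inf S').Le S where
  εe _ := min_le_left _ _
  εd _ := min_le_left _ _
  m _ _ := min_le_left _ _
  sT _ _ := min_le_left _ _
  εE _ _ := min_le_left _ _
  dm _ _ := min_le_left _ _
  cm _ _ _ := min_le_left _ _
  ν _ _ := min_le_left _ _
  e₁ _ _ _ _ _ := min_le_left _ _
  tol4 _ _ _ _ := min_le_left _ _
  δT _ _ := min_le_left _ _
  εT _ _ _ := min_le_left _ _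
  tol5 _ _ _ _ := min_le_left _ _

theorem Slots.inf_right (S S' : Slots D C C₀ μT Ys sc) : (S.inf S').Le S' where
  εe _ := min_le_right _ _
  εd _ := min_le_right _ _
  m _ _ := min_le_right _ _
  sT _ _ := min_le_right _ _
  εE _ _ := min_le_right _ _
  dm _ _ := min_le_right _ _
  cm _ _ _ := min_le_right _ _
  ν _ _ := min_le_right _ _
  e₁ _ _ _ _ _ := min_le_right _ _
  tol4 _ _ _ _ := min_le_right _ _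
  δT _ _ := min_le_right _ _
  εT _ _ _ := min_le_right _ _
  tol5 _ _ _ _ := min_le_right _ _

variable {N : RTn M C J₀} {X : S1 D C C₀ μT} {Y₂ : S2 X} {Y₃ : S3 Y₂ Ys sc}

theorem Ok3.mono {S S' : Slots D C C₀ μT Ys sc} (H : S.Le S') (h3 : Ok3 S N Y₃) : Ok3 S' N Y₃ where
  εe e := (h3.εe e).trans (H.εe e)
  εd b := (h3.εd b).trans (H.εd b)
  bn := h3.bn
  La := h3.La
  Lf := h3.Lf
  Lam1 := h3.Lam1
  nT := h3.nT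
  lip := h3.lip
  σ b := (h3.σ b).trans (H.sT N b)
  fat := h3.fat
  J := h3.J
  R := h3.R
  r := h3.r
  Jn := h3.Jn
  muP s := (h3.muP s).trans (H.m N s)
  muJ := h3.muJ
  η := h3.η
  εE e := (h3.εE e).trans (H.εE X e)
  εE' := h3.εE'
  dP s := (h3.dP s).trans (H.dm X s)
  q := h3.q
  We := h3.We
  c s β := (h3.c s β).trans (H.cm Y₂ s β)
  ν k := (h3.ν k).trans (H.ν Y₂ k)
  e β s := (h3.e β s).trans (H.e₁ Y₂ _ _ β s)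

theorem Ok4.mono {S S' : Slots D C C₀ μT Ys sc} (H : S.Le S') {Y₄ : S4 Y₃} (h4 : Ok4 S N Y₄) :
    Ok4 S' N Y₄ where
  toOk3 := h4.toOk3.mono H
  r4 := h4.r4
  q4 := h4.q4
  ε4 s := (h4.ε4 s).trans (H.tol4 Y₃ _ _ s)

/-- the numbers of the hook of the tubes -/
structure Ok5 (S : Slots D C C₀ μT Ys sc) (N : RTn M C J₀) {Y₄ : S4 Y₃} (Y₅ : S5 Y₄) : Prop
    extends Ok4 S N Y₄ where
  μ5 : ∀ b : pG C J₀, Y₅.μ b = Vale.Agent.P073.H212.K3.muT D C b.1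
  M5 : ∀ b : pG C J₀, (ebe (D.W C) b.1 - eal (D.W C) b.1) / (Y₅.Th b).M ≤ S.δT Y₄ b
  e5 : ∀ b : pG C J₀, (Y₅.Th b).e ≤ S.εT Y₄ (fun b => (Y₅.Th b).M) b
  ε5 : ∀ b, Y₅.ε b ≤ S.tol5 Y₄ Y₅.h6 Y₅.K₂ b
  tb : ∃ η : pG C J₀ → ℝ, (∀ b, 0 < η b) ∧
    (∀ (b : pG C J₀) s, K.edge b.1 ⊆ K.sq s → Y₂.muP s ≤ η b) ∧
    ∀ b : pG C J₀, _root_.P073.H155.TBand Y₃.Lt Y₄.Fσ Y₄.ς b.1
      (X.sl ⟨.inl b.1, inl_mem_pB.2 b.2⟩) (_root_.P073.H155.winE Y₂.R Y₂.Q b.1) (6 * η b)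
      (Y₅.Th b)

theorem Ok5.mono {S S' : Slots D C C₀ μT Ys sc} (H : S.Le S') {Y₄ : S4 Y₃} {Y₅ : S5 Y₄}
    (h5 : Ok5 S N Y₅) : Ok5 S' N Y₅ where
  toOk4 := h5.toOk4.mono H
  μ5 := h5.μ5
  M5 b := (h5.M5 b).trans (H.δT Y₄ b)
  e5 b := (h5.e5 b).trans (H.εT Y₄ _ b)
  ε5 b := (h5.ε5 b).trans (H.tol5 Y₄ _ _ b)
  tb := h5.tb

theorem Ok5.left {S S' : Slots D C C₀ μT Ys sc} {Y₄ : S4 Y₃} {Y₅ : S5 Y₄}
    (h5 : Ok5 (S.inf S') N Y₅) : Ok5 S N Y₅ := h5.mono (S.inf_left S')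

theorem Ok5.right {S S' : Slots D C C₀ μT Ys sc} {Y₄ : S4 Y₃} {Y₅ : S5 Y₄}
    (h5 : Ok5 (S.inf S') N Y₅) : Ok5 S' N Y₅ := h5.mono (S.inf_right S')

end inf

end Vale.Agent.P073.Top880
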