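import Vale.Agent.P073.H345.Stage2

/-!
# P073, H880, **STAGE 2** for an arbitrary insertion map

`exists_stage2_abs`: the theorem `H345.exists_stage2` with an arbitrary insertion map `κ` instead of
the map of a family of boxes with one direction. It is applied to `κ = κ₁ ∘ κ₂`, two families.
-/

open Set Metric Topology Filter

namespace P073.H880

open P073 P073.TR P073.H936 P073.H236 P073.H579 P073.H212 P073.H345
open Vale.Agent.P073.H73 (Mesh)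
open Vale.Agent.P073.H193 (Edges)

/-- composition of insertion maps -/
theorem insMap_comp {m : ℕ} {κ₁ κ₂ : (Fin m → ℝ) → Fin m → ℝ} {Λ₂ Λ₁ Λ : Set (Fin m → ℝ)}
    (h1 : InsMap κ₁ Λ₁ Λ) (h2 : InsMap κ₂ Λ₂ Λ₁) : InsMap (κ₁ ∘ κ₂) Λ₂ Λ where
  isOpen := h2.isOpen
  cont := h1.cont.comp h2.cont h2.maps
  maps := h1.maps.comp h2.maps
  surj := h1.surj.comp h2.surj
  proper := fun C hC hCΛ => by
    have h3 := h1.proper C hC hCΛ
    have h4 := h2.proper _ h3 inter_subset_left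
    convert h4 using 1
    ext y
    constructor
    · rintro ⟨hy, hyC⟩
      exact ⟨hy, h2.maps hy, hyC⟩
    · rintro ⟨hy, -, hyC⟩
      exact ⟨hy, hyC⟩

variable {Ω Λ : Set (Fin 3 → ℝ)} {κ : (Fin 3 → ℝ) → Fin 3 → ℝ}

/-- a homeomorphism of a face onto the preimage of its image, which respects edges and vertices -/
def PassFace (M : Mesh Ω) (E : Edges M) (h : ConHomeo Ω Λ) (κ : (Fin 3 → ℝ) → Fin 3 → ℝ)
    (k : M.κ) : Prop :=
  ∃ Φ : ConHomeo (M.F k) (Pre κ Λ h (M.F k)),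
    (∀ e, E.seg e ⊆ M.F k → Φ.toFun '' E.seg e = Pre κ Λ h (E.seg e)) ∧
    ∀ x ∈ E.verts, x ∈ M.F k → κ (Φ.toFun x) = h.toFun x

/-- **STAGE 2, abstract form**: `Act` are the active faces, `Mi` faces over which `κ` is the
identity -/
theorem exists_stage2_abs (hΩ : IsOpen Ω) (M : Mesh Ω) (E : Edges M) (h : ConHomeo Ω Λ)
    (hI : InsMap κ Λ Λ) (hN : ∀ x ∈ E.verts, (Pre κ Λ h {x}).Subsingleton)
    (Act Mi : Set M.κ) (hA1 : ∀ k ∈ Act, k ∉ Mi)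
    (hA2 : ∀ k ∈ Act, ∀ e, E.seg e ⊆ M.F k → ∀ l ∈ Mi, ¬ E.seg e ⊆ M.F l)
    (hmi : ∀ k ∈ Mi, ∀ x ∈ M.F k, ∀ y ∈ Λ, κ y = h.toFun x → y = h.toFun x)
    (hpass : ∀ k ∉ Mi, PassFace M E h κ k)
    (GE : E.ε → ((Fin 3 → ℝ) → Fin 3 → ℝ) → Prop) (GF : M.κ → ((Fin 3 → ℝ) → Fin 3 → ℝ) → Prop)
    (hedge : ∀ k ∈ Act, ∀ e, E.seg e ⊆ M.F k → ∃ Φ : ConHomeo (E.seg e) (Pre κ Λ h (E.seg e)),
      GE e Φ.toFun ∧ ∀ x ∈ E.seg e, x ∈ E.verts → κ (Φ.toFun x) = h.toFun x)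
    (hface : ∀ k ∈ Act, ∀ Φe : ∀ e, E.seg e ⊆ M.F k → ConHomeo (E.seg e) (Pre κ Λ h (E.seg e)),
      (∀ e he, GE e (Φe e he).toFun) →
      (∀ e he e' he', EqOn (Φe e he).toFun (Φe e' he').toFun (E.seg e ∩ E.seg e')) →
      (∀ e he, ∀ x ∈ E.seg e, x ∈ E.verts → κ ((Φe e he).toFun x) = h.toFun x) →
      ∃ Φ : ConHomeo (M.F k) (Pre κ Λ h (M.F k)), GF k Φ.toFun ∧
        ∀ e he, EqOn Φ.toFun (Φe e he).toFun (E.seg e)) :
    ∃ g : ConHomeo Ω Λ, Out2 M E h κ Act GE GF g ∧ ∀ k ∈ Mi, EqOn g.toFun h.toFun (M.F k) := by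
  classical
  have hFΩ : ∀ k, M.F k ⊆ Ω := Vale.Agent.P073.H193.mesh_sub M
  have hsc : ∀ e, IsCompact (E.seg e) := E.isCompact_seg
  have hsΩ : ∀ e, E.seg e ⊆ Ω := E.seg_sub_Ω
  -- the faces with trivial fibres
  have hmisspt : ∀ k ∈ Mi, ∀ x ∈ M.F k, κ (h.toFun x) = h.toFun x := by
    intro k hk x hx
    obtain ⟨y, hy, hyx⟩ := hI.surj (h.mapsTo (hFΩ k hx))
    have h1 := hmi k hk x hx y hy hyx
    rw [h1] at hyx
    exact hyx
  have hmiss : ∀ k ∈ Mi, ∀ X ⊆ M.F k, h.toFun '' X = Pre κ Λ h X := by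
    intro k hk X hX
    ext y
    constructor
    · rintro ⟨x, hx, rfl⟩
      exact ⟨h.mapsTo (hFΩ k (hX hx)), x, hx, (hmisspt k hk x (hX hx)).symm⟩
    · rintro ⟨hy, x, hx, hxy⟩
      exact ⟨x, hx, (hmi k hk x (hX hx) y hy hxy.symm).symm⟩
  choose! Ψ hΨ3 hΨN using hpass
  obtain ⟨g, g0, g1, g2, g3, g4, g5, g6⟩ := exists_round (s := E.seg) (N := E.verts)
    (Vale.Agent.P073.H244.cellCx M hΩ) E.edgeCx h hI hN
    (fun e f => (∃ k ∈ Act, E.seg e ⊆ M.F k) → GE e f) (fun k f => k ∈ Act → GF k f)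
    Mi
    (fun k hk => (h.restr (Vale.Agent.P073.H244.conBall_face M k).conicalSet (hFΩ k)).cast rfl
      (hmiss k hk _ Subset.rfl))
    (fun k hk l hl x hx => rfl)
    (fun k hk e he => hmiss k hk _ he)
    (fun k hk x hx hxk => hmisspt k hk x hxk)
    (by
      rintro k hk e he - ⟨l, hl, hel⟩
      exact absurd he (hA2 l hl e hel k hk))
    (by
      rintro e heW ⟨k, hk⟩
      by_cases hA : ∃ k ∈ Act, E.seg e ⊆ M.F k
      · obtain ⟨k', hk', hek'⟩ := hA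
        obtain ⟨Φ, a1, a2⟩ := hedge k' hk' e hek'
        exact ⟨Φ, fun _ => a1, a2⟩
      · have hkMi : k ∉ Mi := fun hkm => heW k hkm hk
        refine ⟨((Ψ k hkMi).restr (E.edgeCx.con e) hk).cast rfl (hΨ3 k hkMi e hk),
          fun h => absurd h hA, fun x hx hxN => ?_⟩
        exact hΨN k hkMi x hxN (hk hx))
    (by
      intro k hkMi Φe a1 a2 a3
      by_cases hk : k ∈ Act
      · obtain ⟨Φ, b1, b2⟩ := hface k hk Φe (fun e he => a1 e he ⟨k, hk, he⟩) a2 a3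
        exact ⟨Φ, fun _ => b1, b2⟩
      · have hball : ConBall 2 (M.F k) (⋃ e ∈ {e | E.seg e ⊆ M.F k}, E.seg e) := by
          rw [← E.fr_eq k]; exact Vale.Agent.P073.H244.conBall_face M k
        obtain ⟨Φ, b1⟩ := exists_wild_face E.edgeCx h hI hsc hsΩ (E.fin_face k) hN hball
          (Ψ k hkMi) (hΨ3 k hkMi) Φe a2 a3
        exact ⟨Φ, fun h => absurd h hk, b1⟩)
  refine ⟨g, ⟨fun k hk => ?_, fun k hk e he => ?_, fun e => ?_, fun x hx => ?_, g5, g6⟩,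
    fun k hk => g0 k hk⟩
  · obtain ⟨Φ, b1, b2⟩ := g1 k (hA1 k hk)
    exact ⟨Φ, b1 hk, b2⟩
  · obtain ⟨f, b1, b2⟩ := g2 k k (hA1 k hk) e he he
    exact ⟨f, b1 ⟨k, hk, he⟩, b2⟩
  · obtain ⟨k, hk⟩ := E.own e
    exact g3 e k hk
  · obtain ⟨k, hk⟩ := exists_face_of_vert E hx
    exact g4 x hx k hk

end P073.H880
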