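import Vale.Agent.P073.H880.TopN
import Vale.Agent.P073.H267.K3Last
import Vale.Agent.P073.H31.SK8
import Vale.Agent.P073.H761.AuxQ2
import Vale.Agent.P073.H936.K3R
import Vale.Agent.P073.H142.FaceI
import Vale.Agent.P073.H194.FaceTop2

/-!
# P073, H880: **[K3-TOP]**, rows: statements about the last stage which hold for suitable slots

`RowP Q`: there are slots so that `Q Y₅` holds for all stages which respect them.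
The fields of `Last3` as properties of the last stage.
-/

open Set Metric Topology Filter MeasureTheory
open scoped ENNReal

set_option linter.unusedSectionVars false

namespace Vale.Agent.P073.Top880

open _root_.P073 _root_.P073.Net _root_.P073.PA691 _root_.P073.H236 _root_.P073.H579
open _root_.P073.H142 (FStar)
open _root_.P073.H345 (PK)
open _root_.P073.H429 (ebe eal)
open Vale.Agent.P073.St (V)
open Vale.Agent.P073.H471 Vale.Agent.P073.H267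
open Vale.Agent.P073.H73 (Mesh onSeg)
open Vale.Agent.P073.H193 (Edges edges LAtC)
open Vale.Agent.P073.H304 (Nb In Zmax OutB)
open Vale.Agent.P073.H926
open Vale.Agent.P073.H238.K3
open Vale.Agent.P073.H267.K3
open Vale.Agent.P073.H233 (Xp ElipOK3 Adm LAt Last3 SoftQ FullJ Ev EdgeEst OscEst FHyp FaceOK3
  CellOK3 Small3 FQ Tol kC)

variable {c₀ n δ : ℝ} {j : ℕ} {Ω Λ : Set V} {v w : V} {ρ : V → ℝ} {M : Mesh Ω} {h : ConHomeo Ω Λ}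
  {J₀ J : Set (ℕ × (Fin 3 → ℤ))} {P Z : Set M.ι} {K : BoxCx Λ w}

/-- **a row**: `Q` holds for all stages which respect suitable slots -/
def RowP (D : KIn3 c₀ n j δ v w ρ M h J₀ J P Z) (C : Cells ρ w K) (C₀ μT : ℝ) (Ys : Set M.κ)
    (sc : Sharp)
    (Q : ∀ {X : S1 D C C₀ μT} {Y₂ : S2 X} {Y₃ : S3 Y₂ Ys sc} {Y₄ : S4 Y₃}, S5 Y₄ → Prop) : Prop :=
  ∃ S : Slots D C C₀ μT Ys sc, ∀ {N : RTn M C J₀} {X : S1 D C C₀ μT} {Y₂ : S2 X}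
    {Y₃ : S3 Y₂ Ys sc} {Y₄ : S4 Y₃} (Y₅ : S5 Y₄), Ok5 S N Y₅ → Q Y₅

section rows

variable {D : KIn3 c₀ n j δ v w ρ M h J₀ J P Z} {C : Cells ρ w K} {C₀ μT : ℝ} {Ys : Set M.κ}
  {sc : Sharp}
  {Q Q' : ∀ {X : S1 D C C₀ μT} {Y₂ : S2 X} {Y₃ : S3 Y₂ Ys sc} {Y₄ : S4 Y₃}, S5 Y₄ → Prop}

theorem RowP.and (H : RowP D C C₀ μT Ys sc Q) (H' : RowP D C C₀ μT Ys sc Q') :
    RowP D C C₀ μT Ys sc fun Y₅ => Q Y₅ ∧ Q' Y₅ := by
  obtain ⟨S, hS⟩ := H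
  obtain ⟨S', hS'⟩ := H'
  exact ⟨S.inf S', fun Y₅ h5 => ⟨hS Y₅ h5.left, hS' Y₅ h5.right⟩⟩

theorem RowP.mono (H : RowP D C C₀ μT Ys sc Q)
    (h : ∀ {X : S1 D C C₀ μT} {Y₂ : S2 X} {Y₃ : S3 Y₂ Ys sc} {Y₄ : S4 Y₃} (Y₅ : S5 Y₄),
      Q Y₅ → Q' Y₅) : RowP D C C₀ μT Ys sc Q' := by
  obtain ⟨S, hS⟩ := H
  exact ⟨S, fun Y₅ h5 => h Y₅ (hS Y₅ h5)⟩

end rows

/-! ### The tolerance of the faces -/

open Classical in
/-- **the tolerance of the faces**, below `τ₀`, from the numbers `b` of the edges -/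
noncomputable def tauF (τ₀ : M.κ → ℝ) (b : (edges M).ε → ℝ) (k : M.κ) : ℝ :=
  if hb : ∀ e, 0 < b e then min (τ₀ k) ((exists_tauk M hb).choose k) else τ₀ k

theorem tauF_pos {τ₀ : M.κ → ℝ} (h0 : ∀ k, 0 < τ₀ k) (b : (edges M).ε → ℝ) (k : M.κ) :
    0 < tauF τ₀ b k := by
  unfold tauF
  split_ifs with hb
  · exact lt_min (h0 k) ((exists_tauk M hb).choose_spec.1 k)
  · exact h0 k

theorem tauF_le {τ₀ : M.κ → ℝ} (b : (edges M).ε → ℝ) (k : M.κ) : tauF τ₀ b k ≤ τ₀ k := by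
  unfold tauF
  split_ifs with hb
  · exact min_le_left _ _
  · exact le_rfl

theorem tauF_edge {τ₀ : M.κ → ℝ} {b : (edges M).ε → ℝ} (hb : ∀ e, 0 < b e) {k : M.κ}
    {e : (edges M).ε} (he : (edges M).seg e ⊆ M.F k) :
    tauF τ₀ b k * ‖(edges M).b e - (edges M).a e‖ ≤ b e := by
  have h1 : tauF τ₀ b k ≤ (exists_tauk M hb).choose k := by
    unfold tauF
    rw [dif_pos hb]
    exact min_le_right _ _
  exact (mul_le_mul_of_nonneg_right h1 (norm_nonneg _)).trans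
    ((exists_tauk M hb).choose_spec.2 k e he)

/-! ### The fields of `Last3` -/

section fields

variable {D : KIn3 c₀ n j δ v w ρ M h J₀ J P Z} {C : Cells ρ w K} {C₀ μT : ℝ} {Ys : Set M.κ}
  {sc : Sharp} {X : S1 D C C₀ μT} {Y₂ : S2 X} {Y₃ : S3 Y₂ Ys sc} {Y₄ : S4 Y₃}

/-- `Last3.lip` -/
def LipF (C₁ C₁' : ℝ) (Y₅ : S5 Y₄) : Prop :=
  FullJ w ρ J₀ J → ∀ i, i ∉ P → i ∉ Z → ∀ c, Adm M Ys C₁ C₁' (M.Q i) c → ∀ L > 0,
      (∀ i', (M.Q i ∩ M.Q i').Nonempty →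
        ∀ x ∈ M.Q i', ∀ y ∈ M.Q i', ‖h.toFun x - h.toFun y‖ ≤ L * ‖x - y‖) →
      ∀ x ∈ M.Q i, LAt (D.B C) (Xp C J₀) (c * L) (M.Q i) Y₅.f.toFun x

/-- the estimate of the edges, for a map `f` -/
def EdgeF (D : KIn3 c₀ n j δ v w ρ M h J₀ J P Z) (C : Cells ρ w K) (D₀ : ℝ)
    (om : (edges M).ε → ℝ) (f : V → V) : Prop :=
  ∀ k e, (edges M).seg e ⊆ M.F k → (∃ i ∈ P, (edges M).seg e ⊆ M.Q i) ∨
      Ev (D.B C) (Xp C J₀) (20 / (1 / μN n)) M f (.inl k) (EdgeEst h.toFun f D₀ (om e) e)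

/-- `Last3.face` -/
def FaceF (D₀ C₁ C₁' : ℝ) (ε : M.κ → ℝ) (Y₅ : S5 Y₄) : Prop :=
  ∀ k, (∃ i ∈ Z, M.F k ⊆ M.Q i) → (∃ i ∈ P, M.F k ⊆ M.Q i) ∨
      ∀ c, Adm M Ys C₁ C₁' (M.F k) c →
        FaceOK3 (D.B C) (Xp C J₀) h.toFun Y₅.f.toFun c D₀ (ε k) k

/-- `Last3.cell` -/
def CellF (p A D₀ C₁ C₁' : ℝ) (ε : M.κ → ℝ) (εL : (edges M).ε → ℝ) (lam : M.ι → ℝ)
    (Y₅ : S5 Y₄) : Prop :=
  ∀ i ∈ Z, ∀ c, Adm M Ys C₁ C₁' (M.Q i) c →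
      CellOK3 (D.B C) (Xp C J₀) p h.toFun Y₅.f.toFun c A D₀ ε εL (lam i) i

/-- `Last3.osc` -/
def OscF (C₁ C₁' : ℝ) (Y₅ : S5 Y₄) : Prop :=
  ∀ i, i ∉ P → i ∉ Z → ∀ c, Adm M Ys C₁ C₁' (M.Q i) c →
      ∀ k, M.F k ⊆ M.Q i → (∃ i' ∈ P, M.F k ⊆ M.Q i') ∨ (∃ i' ∈ Z, M.F k ⊆ M.Q i') ∨
        ∃ L, (∀ b > 0, FHyp M h.toFun i k b → L ≤ c * b) ∧
          Ev (D.B C) (Xp C J₀) (20 / (1 / μN n)) M Y₅.f.toFun (.inl k)
            (OscEst Y₅.f.toFun k L)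

/-- the estimate of the drawn faces which are not peeled -/
def GivF (τ : M.κ → ℝ) (Y₅ : S5 Y₄) : Prop :=
  ∀ k ∈ (D.dat C).DF, k ∉ (D.dat C).Peel (D.G C) X.h1 → ∀ x ∈ M.F k,
      LAtC (D.B C) (Xp C J₀) (fun y => 100 * _root_.P073.H142.wcst D C X.h1.toFun k x y +
        τ k * ‖y - x‖) (M.F k) Y₅.f.toFun x

/-- the sharp output for all strong collapses -/
def SharpF (p Dq μ r : ℝ) (ε : M.κ → ℝ) (Y₅ : S5 Y₄) : Prop :=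
  ∃ t₀ : M.κ ⊕ M.ι → ℝ, (∀ a, 0 < t₀ a) ∧ ∀ (R : Fac K) (N t : M.κ ⊕ M.ι → ℝ)
      (Φ : ConHomeo Λ Λ), (∀ a, 0 < t a) → (∀ a, t a ≤ t₀ a) →
      Small3 (D.W C) (Xp C J₀) R Y₅.f.toFun (FQ M) N t → SoftQ D C R Φ →
      H212.SharpOut3 p Dq c₀ δ μ r w ρ M h.toFun J₀ Ys ε (Y₅.f.trans Φ)

end fields

end Vale.Agent.P073.Top880
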