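import Vale.Agent.P073.H880.TopM
import Vale.Agent.P073.H726.TopC
import Vale.Agent.P073.H936.ZWallK

/-!
# P073, H880: **[K3-TOP]**, the composition: `K3R` from the rows
-/

open Set Metric Topology Filter MeasureTheory
open scoped ENNReal

set_option linter.unusedSectionVars false

namespace Vale.Agent.P073.Top880

open _root_.P073 _root_.P073.Net _root_.P073.PA691 _root_.P073.H236 _root_.P073.H579
open _root_.P073.H142 (FStar wcst wcst_le)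
open _root_.P073.H345 (PK)
open _root_.P073.H429 (ebe eal)
open Vale.Agent.P073.St (V)
open Vale.Agent.P073.H471 Vale.Agent.P073.H267
open Vale.Agent.P073.H73 (Mesh onSeg)
open Vale.Agent.P073.H193 (Edges edges LAtC)
open Vale.Agent.P073.H304 (Nb In Zmax OutB)
open Vale.Agent.P073.H926
open Vale.Agent.P073.H238.K3
open Vale.Agent.P073.H267.K3
open Vale.Agent.P073.H31.K3 (FNum1 exists_fnum1)
open Vale.Agent.P073.H233 (Xp ElipOK3 Adm LAt Last3 SoftQ FullJ Ev EdgeEst OscEst FHyp FaceOK3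
  CellOK3 Small3 FQ Tol kC exists_tol)

/-- the constant of the edges -/
noncomputable def qC (C₀ : ℝ) : ℝ := 8 * (500 * C₀ + 700) + 32 * C₀

section last

variable {c₀ n δ : ℝ} {j : ℕ} {Ω Λ : Set V} {v w : V} {ρ : V → ℝ} {M : Mesh Ω} {h : ConHomeo Ω Λ}
  {J₀ J : Set (ℕ × (Fin 3 → ℤ))} {P Z : Set M.ι} {K : BoxCx Λ w}
  {D : KIn3 c₀ n j δ v w ρ M h J₀ J P Z} {C : Cells ρ w K} {C₀ μT : ℝ} {Ys : Set M.κ}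
  {sc : Sharp} {X : S1 D C C₀ μT} {Y₂ : S2 X} {Y₃ : S3 Y₂ Ys sc} {Y₄ : S4 Y₃}

/-- the cost of the drawn faces along an edge -/
theorem wcst_edge (X : S1 D C C₀ μT) {k : M.κ} (hk : k ∈ Act D C) {e : (edges M).ε}
    (he : (edges M).seg e ⊆ M.F k) {x y : V} (hx : x ∈ (edges M).seg e)
    (hy : y ∈ (edges M).seg e) : wcst D C X.h1.toFun k x y ≤ 3 * X.La e * ‖x - y‖ := by
  rw [mul_assoc]
  refine wcst_le (mul_nonneg (X.num.La_nonneg e) (norm_nonneg _)) fun b hb hin => ?_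
  exact X.tube_edge hk he ⟨b, hb, rfl, hin⟩ x hx y hy

/-- **`Last3` from the rows** -/
theorem last3_of (Y₅ : S5 Y₄) {τ ε : M.κ → ℝ} {t4 : (D.dat C).S₀ → ℝ} {t5 : pG C J₀ → ℝ}
    (N : RowNum Y₅ τ ε t4 t5) {Ps : M.ι → ConHomeo Λ Λ → Prop}
    {p A C₁ C₁' D₀ D₁ : ℝ} {om εL : (edges M).ε → ℝ} {lam : M.ι → ℝ}
    (hg : GivF τ Y₅) (hq : Y₃.q = qC C₀)
    (hD₀ : 1 ≤ D₀) (hC₁ : 3 * qC C₀ + 1 ≤ C₁) (hC₁g : 300 * C₀ + 1 ≤ C₁) (hC₁' : C₁ ≤ C₁')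
    (hD₁ : 1642 * C₀ ≤ D₁) (hD₁' : 8192 ≤ D₁)
    (lip : LipF C₁ C₁' Y₅) (edge : EdgeF D C D₀ om Y₅.f.toFun)
    (osc : (∀ i Φ, Ps i Φ) ∨ OscF C₁ C₁' Y₅) (face : FaceF D₀ C₁ C₁' ε Y₅)
    (cell : CellF p A D₀ C₁ C₁' ε εL lam Y₅) :
    Last3 (D.B C) (Xp C J₀) (20 / (1 / μN n)) Ps (fun Φ => ∃ R, SoftQ D C R Φ) p (1 / 2 ^ j) c₀
      ρ h.toFun J₀ J P Z Ys ε om εL lam A C₁ C₁' D₀ D₁ Y₅.f.toFun := by
  refine Y₅.last3 N (ag := 100) (Cg := 3) (cst := wcst D C X.h1.toFun) (by norm_num)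
    (fun k hk e he x hx y hy => wcst_edge X hk he hx hy) (by norm_num) hg hD₀
    (by rw [hq]; exact hC₁) (by linarith) hC₁' hD₁ hD₁' lip edge ?_ face cell
  intro i hi hZ c hc
  rcases osc with h1 | h1
  · exact Or.inr fun Φ _ => h1 i Φ
  · exact Or.inl (h1 i hi hZ c hc)

end last

/-! ### The statements which are composed -/

/-- the conditions on the constants -/
structure Cn (p μ r : ℝ) (sc : Sharp) (ν n δ : ℝ) : Prop where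
  fn : FNum1 p μ r sc ν
  nν : n ≤ ν
  δn : 4096 * δ ≤ n * δ3 n
  δo : 307200 * δ ≤ n * o3 n

/-- **the chain up to the last stage** -/
def Chain5 (C₀ : ℝ) : Prop :=
  ∀ {c₀ n δ : ℝ} {j : ℕ} {Ω Λ : Set V} {v w : V} {ρ : V → ℝ} {M : Mesh Ω} {h : ConHomeo Ω Λ}
    {J₀ J : Set (ℕ × (Fin 3 → ℤ))} {P Z : Set M.ι} {K : BoxCx Λ w}
    (D : KIn3 c₀ n j δ v w ρ M h J₀ J P Z) (C : Cells ρ w K) {p μ r ν : ℝ} {Ys : Set M.κ}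
    {sc : Sharp}, Cn p μ r sc ν n δ →
    ∀ {Zw : Set (Set V)}, ZWall (D.G C) M h (Act D C) (pB C J₀) (ω3T δ C) Zw →
    ∀ S : Slots D C C₀ (n / 128) Ys sc,
    ∃ (N : RTn M C J₀) (X : S1 D C C₀ (n / 128)) (Y₂ : S2 X) (Y₃ : S3 Y₂ Ys sc) (Y₄ : S4 Y₃)
      (Y₅ : S5 Y₄), Ok5 S N Y₅ ∧ WallOut D C (edges M) Zw X.h1

/-- **the rows of the first part**, with their constants -/
def RowsS (p C₀ : ℝ) : Prop :=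
  ∃ A : ℝ, 0 ≤ A ∧ ∃ D₀ : ℝ, 1 ≤ D₀ ∧ ∃ c₁ : ℝ, ∀ C₁ : ℝ, c₁ ≤ C₁ →
  ∀ {μ r ν : ℝ} {sc : Sharp}, FNum1 p μ r sc ν → ∃ c₁' : ℝ, ∀ C₁' : ℝ, c₁' ≤ C₁' → C₁ ≤ C₁' →
  ∀ {c₀ n δ : ℝ} {j : ℕ} {Ω Λ : Set V} {v w : V} {ρ : V → ℝ} {M : Mesh Ω} {h : ConHomeo Ω Λ}
    {J₀ J : Set (ℕ × (Fin 3 → ℤ))} {P Z : Set M.ι} {K : BoxCx Λ w}
    (D : KIn3 c₀ n j δ v w ρ M h J₀ J P Z) (C : Cells ρ w K) (Ys : Set M.κ),
    Cn p μ r sc ν n δ → ∀ {ε : M.κ → ℝ} {om εL : (edges M).ε → ℝ} {lam osc : M.ι → ℝ},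
    (∀ k, 0 < ε k) → Tol M h.toFun ε om εL lam osc →
    RowP D C C₀ (n / 128) Ys sc fun {_ _ Y₃ _} Y₅ => (∃ τ t4 t5, RowNum Y₅ τ ε t4 t5 ∧ GivF τ Y₅) ∧
      Y₃.q = qC C₀ ∧ LipF C₁ C₁' Y₅ ∧ EdgeF D C D₀ om Y₅.f.toFun ∧ FaceF D₀ C₁ C₁' ε Y₅ ∧
      CellF p A D₀ C₁ C₁' ε εL lam Y₅ ∧
      ∀ D₁ Dq, max 8192 (1642 * C₀) ≤ D₁ → 160 * D₁ ≤ Dq → 8 * (1 + D₀) + 16 * D₁ ≤ Dq →
        SharpF p Dq μ r ε Y₅

/-- **the row of the second part**: the oscillation -/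
def RowsO (C₀ : ℝ) : Prop :=
  ∃ c₂ : ℝ, ∀ C₁ : ℝ, c₂ ≤ C₁ → ∀ C₁' : ℝ, C₁ ≤ C₁' →
  ∀ {c₀ n δ : ℝ} {j : ℕ} {Ω Λ : Set V} {v w : V} {ρ : V → ℝ} {M : Mesh Ω} {h : ConHomeo Ω Λ}
    {J₀ J : Set (ℕ × (Fin 3 → ℤ))} {P Z : Set M.ι} {K : BoxCx Λ w}
    (D : KIn3 c₀ n j δ v w ρ M h J₀ J P Z) (C : Cells ρ w K) (Ys : Set M.κ) {p μ r ν : ℝ}
    {sc : Sharp}, Cn p μ r sc ν n δ → ∀ {ε : M.κ → ℝ} {om εL : (edges M).ε → ℝ} {lam osc : M.ι → ℝ},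
    (∀ k, 0 < ε k) → Tol M h.toFun ε om εL lam osc →
    J = J₀ → (∀ t ∈ J₀, ∀ t' ∈ J₀, t'.1 = t.1) → Ys = ∅ → H936.KR.NW D C →
    RowP D C C₀ (n / 128) Ys sc fun {X _ _ _} Y₅ => WallOut D C (edges M) (H936.KR.Zw D C) X.h1 →
      OscF C₁ C₁' Y₅

/-- **`K3R` from the chain and the rows** -/
theorem k3r_of {p : ℝ} (hp : 2 < p) {C₀ : ℝ} (hC₀ : 1 ≤ C₀) (HC : Chain5 C₀)
    (HR : RowsS p C₀) (HO : RowsO C₀) : H936.KR.K3R p := by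
  obtain ⟨A, hA, D₀, hD₀, c₁, HR⟩ := HR
  obtain ⟨c₂, HO⟩ := HO
  set D₁ : ℝ := max 8192 (1642 * C₀) with hD₁
  have hD₁8 : 8192 ≤ D₁ := le_max_left _ _
  have hD₁C : 1642 * C₀ ≤ D₁ := le_max_right _ _
  set C₁ : ℝ := max (max c₁ c₂) (max (3 * qC C₀ + 1) (300 * C₀ + 1)) with hC₁
  have h1 : c₁ ≤ C₁ := (le_max_left _ _).trans (le_max_left _ _)
  have h2 : c₂ ≤ C₁ := (le_max_right _ _).trans (le_max_left _ _)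
  have h3 : 3 * qC C₀ + 1 ≤ C₁ := (le_max_left _ _).trans (le_max_right _ _)
  have h4 : 300 * C₀ + 1 ≤ C₁ := (le_max_right _ _).trans (le_max_right _ _)
  have hC₁0 : 0 < C₁ := by linarith
  set Dc : ℝ := max (kC p A D₀ D₁ C₁) (max (160 * D₁) (8 * (1 + D₀) + 16 * D₁)) with hDc
  have hDc1 : kC p A D₀ D₁ C₁ ≤ Dc := le_max_left _ _
  have hDc2 : 160 * D₁ ≤ Dc := (le_max_left _ _).trans (le_max_right _ _)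
  have hDc3 : 8 * (1 + D₀) + 16 * D₁ ≤ Dc := (le_max_right _ _).trans (le_max_right _ _)
  refine ⟨Dc, by linarith, fun μ hμ => ?_⟩
  obtain ⟨sc, r, ν, N1⟩ := exists_fnum1 (p := p) (by linarith) hμ
  obtain ⟨c₁', HR⟩ := HR C₁ h1 N1
  set C₁' : ℝ := max c₁' C₁ with hC₁'
  have h5 : c₁' ≤ C₁' := le_max_left _ _
  have h6 : C₁ ≤ C₁' := le_max_right _ _
  set D' : ℝ := max Dc (kC p A D₀ D₁ C₁') with hD'
  refine ⟨D', le_max_left _ _, r, N1.r0, fun c₀ hc hc1 => ?_⟩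
  obtain ⟨n, hn, hnc, -, hnν, -⟩ := exists_n hc hc1 N1.ν0 N1.ρ0 one_pos
  obtain ⟨j, hj1, hj2, -, -⟩ := exists_j (β := 1) hn hc one_pos
  obtain ⟨δ, hδ, hδ1, hδ2, -, hδ3, -, -⟩ := exists_δ (n := n) (β := 1) one_pos hj2
  refine ⟨n, hn, hnc, j, hj1, δ, hδ, hδ1, c₀, hc, le_rfl, ?_⟩
  intro Ω Λ v w ρ M h J₀ J P Z D K C Y ε₀ hε₀
  have HN : Cn p μ r sc ν n δ := ⟨N1, hnν, hδ2, hδ3⟩
  obtain ⟨ε, om, εL, lam, osc, hε, hεε, T⟩ := exists_tol M h.injOn hε₀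
  have hZ : Z ⊆ Zmax M w h.toFun J₀ P (2 / 2 ^ j) :=
    D.inp.sub_Zmax (div_le_div_of_nonneg_right (by norm_num) (by positivity))
  have hDc0 : 0 ≤ Dc := by linarith
  have hrow := HR C₁' h5 h6 D C Y HN hε T
  constructor
  · obtain ⟨S, hS⟩ := hrow
    obtain ⟨N, X, Y₂, Y₃, Y₄, Y₅, h5, -⟩ := HC D C HN (ZWall.empty _ _ _ _ _ _) S
    obtain ⟨⟨τ, t4, t5, k1, k2⟩, k3, k4, k5, k6, k7, k8⟩ := hS Y₅ h5
    exact exists_k3_sharp_of_last3 D C hp hZ hε hεε T hA hC₁0 (by linarith) hD₀ (by linarith)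
      (last3_of Y₅ k1 k2 k3 hD₀ h3 h4 h6 hD₁C hD₁8 k4 k5 (Or.inl fun _ _ => trivial) k6 k7)
      hDc0 (le_max_left _ _) hDc1 (le_max_right _ _) (k8 D₁ Dc le_rfl hDc2 hDc3)
  · intro hJ hm hY hNW
    obtain ⟨S, hS⟩ := hrow.and (HO C₁ h2 C₁' h6 D C Y HN hε T hJ hm hY hNW)
    obtain ⟨N, X, Y₂, Y₃, Y₄, Y₅, h5, hw⟩ := HC D C HN (H936.KR.zwall_of_NW D C hNW) S
    obtain ⟨⟨⟨τ, t4, t5, k1, k2⟩, k3, k4, k5, k6, k7, k8⟩, k9⟩ := hS Y₅ h5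
    obtain ⟨g, g1, g2, g3, g4⟩ := exists_k3_osc_of_last3 (m := c₀) D C hp hZ hε hεε T hA hC₁0
      (by linarith) hD₀ (by linarith)
      (last3_of Y₅ k1 k2 k3 hD₀ h3 h4 h6 hD₁C hD₁8 k4 k5 (Or.inr (k9 hw)) k6 k7)
      hDc0 (le_max_left _ _) hDc1 (le_max_right _ _)
    exact ⟨g, g1, g4⟩

end Vale.Agent.P073.Top880
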