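import Vale.Agent.P073.H880.Met2

/-!
# P073, H880: the variation of a cost along an interval
-/

open Set Metric Topology Filter
open scoped ENNReal

namespace P073.H880

open P073 P073.H936 P073.H341 P073.H669

/-- the variation of a cost `c` on `[a, b]`: the supremum of the sums of `c (t j) (t (j + 1))` -/
noncomputable def cvar (c : ℝ → ℝ → ℝ≥0∞) (a b : ℝ) : ℝ≥0∞ :=
  ⨆ p : ℕ × {u : ℕ → ℝ // Monotone u ∧ ∀ i, u i ∈ Icc a b},
    ∑ i ∈ Finset.range p.1, c ((p.2 : ℕ → ℝ) i) ((p.2 : ℕ → ℝ) (i + 1))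

variable {c c' : ℝ → ℝ → ℝ≥0∞} {a b : ℝ}

theorem sum_le_cvar (n : ℕ) {u : ℕ → ℝ} (hu : Monotone u) (h : ∀ i, u i ∈ Icc a b) :
    ∑ i ∈ Finset.range n, c (u i) (u (i + 1)) ≤ cvar c a b :=
  le_iSup (fun p : ℕ × {u : ℕ → ℝ // Monotone u ∧ ∀ i, u i ∈ Icc a b} =>
    ∑ i ∈ Finset.range p.1, c ((p.2 : ℕ → ℝ) i) ((p.2 : ℕ → ℝ) (i + 1))) ⟨n, u, hu, h⟩

/-- it is enough to have a sequence which is monotone up to `n` -/
theorem sum_le_cvar' {n : ℕ} {u : ℕ → ℝ} (hu : ∀ i < n, u i ≤ u (i + 1))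
    (h : ∀ i ≤ n, u i ∈ Icc a b) :
    ∑ i ∈ Finset.range n, c (u i) (u (i + 1)) ≤ cvar c a b := by
  have h1 : ∀ i j, i ≤ j → j ≤ n → u i ≤ u j := by
    intro i j hij
    induction j, hij using Nat.le_induction with
    | base => exact fun _ => le_refl _
    | succ j hij ih => exact fun hj => (ih (by omega)).trans (hu j (by omega))
  have h2 := sum_le_cvar (c := c) (a := a) (b := b) n (u := fun i => u (min i n))
    (fun i j hij => h1 _ _ (by omega) (min_le_right _ _)) (fun i => h _ (min_le_right _ _))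
  refine le_trans (le_of_eq (Finset.sum_congr rfl fun i hi => ?_)) h2
  rw [Finset.mem_range] at hi
  rw [min_eq_left hi.le, min_eq_left (by omega : i + 1 ≤ n)]

theorem cvar_le_iff {M : ℝ≥0∞} : cvar c a b ≤ M ↔ ∀ (n : ℕ) (u : ℕ → ℝ), Monotone u →
    (∀ i, u i ∈ Icc a b) → ∑ i ∈ Finset.range n, c (u i) (u (i + 1)) ≤ M := by
  unfold cvar
  rw [iSup_le_iff]
  exact ⟨fun h n u hu hu' => h ⟨n, u, hu, hu'⟩, fun h p => h p.1 p.2.1 p.2.2.1 p.2.2.2⟩

theorem le_cvar (hab : a ≤ b) : c a b ≤ cvar c a b := by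
  have := sum_le_cvar' (c := c) (a := a) (b := b) (n := 1) (u := fun i => if i = 0 then a else b)
    (by intro i hi; obtain rfl : i = 0 := by omega
        simpa using hab)
    (by intro i hi; by_cases h : i = 0 <;> simp [h, hab])
  simpa using this

theorem cvar_mono {a' b' : ℝ} (ha : a ≤ a') (hb : b' ≤ b) : cvar c a' b' ≤ cvar c a b :=
  cvar_le_iff.2 fun n _ hu h => sum_le_cvar n hu fun i => ⟨ha.trans (h i).1, (h i).2.trans hb⟩

theorem cvar_congr (h : ∀ s ∈ Icc a b, ∀ t ∈ Icc a b, s ≤ t → c s t ≤ c' s t) :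
    cvar c a b ≤ cvar c' a b :=
  cvar_le_iff.2 fun n u hu hu' => (Finset.sum_le_sum fun i _ => h _ (hu' i) _ (hu' (i + 1))
    (hu (Nat.le_succ i))).trans (sum_le_cvar n hu hu')

/-- superadditivity -/
theorem cvar_add_le {m : ℝ} (ham : a ≤ m) (hmb : m ≤ b) :
    cvar c a m + cvar c m b ≤ cvar c a b := by
  unfold cvar
  have : Nonempty {u : ℕ → ℝ // Monotone u ∧ ∀ i, u i ∈ Icc a m} :=
    ⟨⟨fun _ => a, monotone_const, fun _ => ⟨le_refl _, ham⟩⟩⟩
  have : Nonempty {u : ℕ → ℝ // Monotone u ∧ ∀ i, u i ∈ Icc m b} :=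
    ⟨⟨fun _ => b, monotone_const, fun _ => ⟨hmb, le_refl _⟩⟩⟩
  refine ENNReal.iSup_add_iSup_le ?_
  rintro ⟨n, u, hu, hua⟩ ⟨k, v, hv, hvb⟩
  simp only
  set w : ℕ → ℝ := fun i => if i ≤ n then u i else v (i - (n + 1)) with hw
  have h1 : ∑ i ∈ Finset.range (n + 1 + k), c (w i) (w (i + 1)) ≤ cvar c a b := by
    refine sum_le_cvar' ?_ ?_
    · intro i _
      rcases lt_trichotomy i n with h | h | h
      · have : i + 1 ≤ n := h
        simp only [hw, if_pos h.le, if_pos this]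
        exact hu (Nat.le_succ i)
      · subst h
        simp only [hw, le_refl, if_true, show ¬ (i + 1 ≤ i) by omega, if_false]
        exact (hua i).2.trans (hvb _).1
      · simp only [hw, show ¬ i ≤ n by omega, show ¬ i + 1 ≤ n by omega, if_false]
        exact hv (by omega)
    · intro i _
      by_cases h : i ≤ n
      · simp only [hw, if_pos h]; exact ⟨(hua i).1, (hua i).2.trans hmb⟩
      · simp only [hw, if_neg h]; exact ⟨ham.trans (hvb _).1, (hvb _).2⟩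
  refine le_trans ?_ h1
  rw [Finset.sum_range_add]
  refine add_le_add ?_ ?_
  · rw [Finset.sum_range_succ]
    refine le_trans (le_of_eq (Finset.sum_congr rfl fun i hi => ?_)) le_self_add
    rw [Finset.mem_range] at hi
    simp only [hw, if_pos hi.le, if_pos (show i + 1 ≤ n from hi)]
  · refine le_of_eq (Finset.sum_congr rfl fun i _ => ?_)
    simp only [hw, show ¬ n + 1 + i ≤ n by omega, show ¬ n + 1 + i + 1 ≤ n by omega, if_false]
    rw [show n + 1 + i - (n + 1) = i by omega, show n + 1 + i + 1 - (n + 1) = i + 1 by omega]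

/-- a superadditive bound -/
theorem cvar_le_of_le {μ : ℝ → ℝ → ℝ≥0∞} (hab : a ≤ b)
    (h : ∀ s ∈ Icc a b, ∀ t ∈ Icc a b, s ≤ t → c s t ≤ μ s t)
    (hμ : ∀ s ∈ Icc a b, ∀ m ∈ Icc a b, ∀ t ∈ Icc a b, s ≤ m → m ≤ t → μ s m + μ m t ≤ μ s t) :
    cvar c a b ≤ μ a b := by
  rw [cvar_le_iff]
  intro n u hu hu'
  have h1 : ∀ n, ∑ i ∈ Finset.range n, c (u i) (u (i + 1)) ≤ μ (u 0) (u n) := by
    intro n
    induction n with
    | zero => simp
    | succ n ih =>
      rw [Finset.sum_range_succ]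
      exact (add_le_add ih (h _ (hu' n) _ (hu' (n + 1)) (hu (Nat.le_succ n)))).trans
        (hμ _ (hu' 0) _ (hu' n) _ (hu' (n + 1)) (hu (Nat.zero_le n)) (hu (Nat.le_succ n)))
  have ha : a ∈ Icc a b := ⟨le_refl _, hab⟩
  have hb : b ∈ Icc a b := ⟨hab, le_refl _⟩
  calc ∑ i ∈ Finset.range n, c (u i) (u (i + 1)) ≤ μ (u 0) (u n) := h1 n
    _ ≤ μ a (u n) := le_trans le_add_self
        (hμ a ha _ (hu' 0) _ (hu' n) (hu' 0).1 (hu (Nat.zero_le n)))
    _ ≤ μ a b := le_trans le_self_add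
        (hμ a ha _ (hu' n) b hb (hu' n).1 (hu' n).2)

/-- **local comparison**: a cost with the triangle inequality which is locally bounded by a
superadditive function is bounded by it -/
theorem cost_le_of_local {μ : ℝ → ℝ → ℝ≥0∞}
    (hμ : ∀ s ∈ Icc a b, ∀ m ∈ Icc a b, ∀ t ∈ Icc a b, s ≤ m → m ≤ t → μ s m + μ m t ≤ μ s t)
    (h0 : ∀ t, c t t = 0)
    (htri : ∀ s ∈ Icc a b, ∀ m ∈ Icc a b, ∀ t ∈ Icc a b, s ≤ m → m ≤ t → c s t ≤ c s m + c m t)
    (hloc : ∀ t ∈ Icc a b, ∀ᶠ s in 𝓝[Icc a b] t, (t ≤ s → c t s ≤ μ t s) ∧ (s ≤ t → c s t ≤ μ s t))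
    {s t : ℝ} (hs : s ∈ Icc a b) (ht : t ∈ Icc a b) (hst : s ≤ t) : c s t ≤ μ s t := by
  set S : Set ℝ := {r | r ∈ Icc s t ∧ ∀ m ∈ Icc s r, c s m ≤ μ s m} with hS
  have hsub : ∀ r ∈ Icc s t, r ∈ Icc a b := fun r hr => ⟨hs.1.trans hr.1, hr.2.trans ht.2⟩
  have hsS : s ∈ S := by
    refine ⟨⟨le_refl _, hst⟩, fun m hm => ?_⟩
    rw [show m = s from le_antisymm hm.2 hm.1, h0]
    exact zero_le
  have hbdd : BddAbove S := ⟨t, fun r hr => hr.1.2⟩
  set r : ℝ := sSup S with hr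
  have hsr : s ≤ r := le_csSup hbdd hsS
  have hrt : r ≤ t := csSup_le ⟨s, hsS⟩ fun x hx => hx.1.2
  have hrab : r ∈ Icc a b := hsub r ⟨hsr, hrt⟩
  have hlow : ∀ m ∈ Icc s t, m < r → m ∈ S := by
    intro m hm hmr
    obtain ⟨x, hx, hmx⟩ := exists_lt_of_lt_csSup ⟨s, hsS⟩ hmr
    exact ⟨hm, fun y hy => hx.2 y ⟨hy.1, hy.2.trans hmx.le⟩⟩
  obtain ⟨δ, hδ, hball⟩ := Metric.eventually_nhds_iff.1
    (eventually_nhdsWithin_iff.1 (hloc r hrab))
  have hrS : c s r ≤ μ s r := by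
    rcases hsr.eq_or_lt with h | h
    · rw [← h, h0]; exact zero_le
    · obtain ⟨m, hm1, hm2⟩ := exists_between (show max s (r - δ) < r from
        max_lt h (by linarith))
      have hms : s ≤ m := (le_max_left _ _).trans hm1.le
      have hmr : r - δ < m := lt_of_le_of_lt (le_max_right _ _) hm1
      have hmst : m ∈ Icc s t := ⟨hms, hm2.le.trans hrt⟩
      have h1 := (hlow m hmst hm2).2 m ⟨hms, le_refl _⟩
      have h2 := (hball (y := m) (by rw [Real.dist_eq, abs_lt]; constructor <;> linarith)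
        (hsub m hmst)).2 hm2.le
      exact (htri s hs m (hsub m hmst) r hrab hms hm2.le).trans ((add_le_add h1 h2).trans
        (hμ s hs m (hsub m hmst) r hrab hms hm2.le))
  rcases hrt.eq_or_lt with h | h
  · rwa [h] at hrS
  · exfalso
    obtain ⟨m, hm1, hm2⟩ := exists_between (show r < min t (r + δ) from lt_min h (by linarith))
    have hmt : m ≤ t := hm2.le.trans (min_le_left _ _)
    have hmδ : m < r + δ := hm2.trans_le (min_le_right _ _)
    have hmS : m ∈ S := by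
      refine ⟨⟨hsr.trans hm1.le, hmt⟩, fun x hx => ?_⟩
      rcases lt_or_ge x r with hxr | hxr
      · exact (hlow x ⟨hx.1, hx.2.trans hmt⟩ hxr).2 x ⟨hx.1, le_refl _⟩
      · have hxab : x ∈ Icc a b := hsub x ⟨hx.1, hx.2.trans hmt⟩
        have h2 := (hball (y := x) (by rw [Real.dist_eq, abs_lt]; constructor <;> linarith [hx.2])
          hxab).1 hxr
        exact (htri s hs r hrab x hxab hsr hxr).trans ((add_le_add hrS h2).trans
          (hμ s hs r hrab x hxab hsr hxr))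
    exact absurd (le_csSup hbdd hmS) (not_le.2 hm1)

end P073.H880
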