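import Vale.Agent.P073.H936.SwData

/-!
# P073, H880: fibred sheets with commuting fibres

A *fibred sheet* is a set `N` with a level function `s` and a product structure
`D × [-1,1] ≅ N` whose second coordinate is `s`.  If the fibres of two sheets preserve each other
together with the levels, then `N ∩ N'` is the product of `D ∩ D'` and a square, with exact levels.
-/

open Set Metric Topology Filter

namespace P073.H880

open P073 P073.H936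

variable {E : Type*} [NormedAddCommGroup E] [NormedSpace ℝ E]

/-- the level interval -/
abbrev LI : Set ℝ := Icc (-1:ℝ) 1

theorem zero_mem_LI : (0:ℝ) ∈ LI := ⟨by norm_num, zero_le_one⟩

theorem isPreconnected_LI : IsPreconnected LI := isPreconnected_Icc

/-- a fibred sheet -/
structure Fib (D N : Set E) (s : E → ℝ) where
  Γ : ConHomeo (D ×ˢ Icc (-1:ℝ) 1) N
  lev : ∀ z ∈ D, ∀ t ∈ Icc (-1:ℝ) 1, s (Γ.toFun (z, t)) = t
  zero : ∀ z ∈ D, Γ.toFun (z, 0) = z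

namespace Fib

variable {D N D' N' : Set E} {s s' : E → ℝ}

/-- the projection along the fibres -/
def pr (F : Fib D N s) (x : E) : E := (F.Γ.invFun x).1

theorem mem_N (F : Fib D N s) {z : E} (hz : z ∈ D) {t : ℝ} (ht : t ∈ LI) : F.Γ.toFun (z, t) ∈ N :=
  F.Γ.mapsTo ⟨hz, ht⟩

theorem sub (F : Fib D N s) : D ⊆ N := fun z hz => F.zero z hz ▸ F.mem_N hz zero_mem_LI

theorem pr_mem (F : Fib D N s) {x : E} (hx : x ∈ N) : F.pr x ∈ D := (F.Γ.mapsTo_inv hx).1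

theorem inv_eq (F : Fib D N s) {x : E} (hx : x ∈ N) : F.Γ.invFun x = (F.pr x, s x) := by
  have h1 := F.Γ.mapsTo_inv hx
  have h2 := F.lev _ h1.1 _ h1.2
  have h3 : F.Γ.toFun ((F.Γ.invFun x).1, (F.Γ.invFun x).2) = x := F.Γ.right_inv hx
  rw [h3] at h2
  exact Prod.ext rfl h2.symm

theorem lev_mem (F : Fib D N s) {x : E} (hx : x ∈ N) : s x ∈ LI := by
  have h1 := (F.Γ.mapsTo_inv hx).2
  rw [F.inv_eq hx] at h1
  exact h1

theorem pr_eq (F : Fib D N s) {x : E} (hx : x ∈ N) : F.Γ.toFun (F.pr x, s x) = x := by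
  rw [← F.inv_eq hx]; exact F.Γ.right_inv hx

theorem pr_apply (F : Fib D N s) {z : E} (hz : z ∈ D) {t : ℝ} (ht : t ∈ LI) :
    F.pr (F.Γ.toFun (z, t)) = z := by
  show (F.Γ.invFun (F.Γ.toFun (z, t))).1 = z
  rw [F.Γ.left_inv ⟨hz, ht⟩]

theorem mem_D_iff (F : Fib D N s) {x : E} : x ∈ D ↔ x ∈ N ∧ s x = 0 := by
  constructor
  · intro hx
    refine ⟨F.sub hx, ?_⟩
    have := F.lev x hx 0 zero_mem_LI
    rwa [F.zero x hx] at this
  · rintro ⟨hx, h0⟩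
    have h1 := F.pr_eq hx
    rw [h0, F.zero _ (F.pr_mem hx)] at h1
    rw [← h1]; exact F.pr_mem hx

theorem pr_of_mem (F : Fib D N s) {x : E} (hx : x ∈ D) : F.pr x = x := by
  have h := F.pr_apply hx zero_mem_LI
  rwa [F.zero x hx] at h

theorem conicalSet_D (F : Fib D N s) : ConicalSet D := by
  intro x hx
  obtain ⟨r, hr, H⟩ := F.Γ.conicalSet_left (x, 0) ⟨hx, zero_mem_LI⟩
  refine ⟨r, hr, fun v hv hxv t ht => ?_⟩
  have h1 : ‖((v, 0) : E × ℝ)‖ ≤ r := by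
    rw [Prod.norm_def, norm_zero, max_eq_left (norm_nonneg v)]; exact hv
  have h2 : ((x, 0) : E × ℝ) + (v, 0) ∈ D ×ˢ Icc (-1:ℝ) 1 := by
    rw [Prod.mk_add_mk, add_zero]; exact ⟨hxv, zero_mem_LI⟩
  have h3 := H (v, 0) h1 h2 t ht
  simpa using h3.1

theorem isCompact_N (F : Fib D N s) (hD : IsCompact D) : IsCompact N :=
  F.Γ.isCompact_right (hD.prod isCompact_Icc)

theorem continuousOn_pr (F : Fib D N s) : ContinuousOn F.pr N :=
  continuous_fst.comp_continuousOn F.Γ.cont_inv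

theorem conicalOn_pr (F : Fib D N s) : ConicalOn F.pr N :=
  F.Γ.conical_inv.linear_comp (LinearMap.fst ℝ E ℝ)

theorem continuousOn_s (F : Fib D N s) : ContinuousOn s N := by
  have h : ContinuousOn (fun x => (F.Γ.invFun x).2) N :=
    continuous_snd.comp_continuousOn F.Γ.cont_inv
  exact h.congr fun x hx => by
    show s x = (F.Γ.invFun x).2
    rw [F.inv_eq hx]

theorem conicalOn_s (F : Fib D N s) : ConicalOn s N := by
  have h : ConicalOn (fun x => (F.Γ.invFun x).2) N :=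
    F.Γ.conical_inv.linear_comp (LinearMap.snd ℝ E ℝ)
  exact h.congr fun x hx => by
    show s x = (F.Γ.invFun x).2
    rw [F.inv_eq hx]

/-- the fibre through a point is connected -/
theorem isPreconnected_fibre (F : Fib D N s) {z : E} (hz : z ∈ D) :
    IsPreconnected ((fun t : ℝ => F.Γ.toFun (z, t)) '' LI) := by
  refine isPreconnected_LI.image _ (F.Γ.cont.comp (by fun_prop) fun t ht => ⟨hz, ht⟩)

end Fib

/-- moving along the fibres of the first sheet preserves the second one and its level -/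
def Pres {D N : Set E} {s : E → ℝ} (F : Fib D N s) (N' : Set E) (s' : E → ℝ) : Prop :=
  ∀ z ∈ D, ∀ t ∈ Icc (-1:ℝ) 1, ∀ t' ∈ Icc (-1:ℝ) 1, F.Γ.toFun (z, t) ∈ N' →
    F.Γ.toFun (z, t') ∈ N' ∧ s' (F.Γ.toFun (z, t')) = s' (F.Γ.toFun (z, t))

section

variable {D N D' N' : Set E} {s s' : E → ℝ}

theorem Pres.pr_mem {F : Fib D N s} (h : Pres F N' s') {x : E} (hx : x ∈ N) (hx' : x ∈ N') :
    F.pr x ∈ N' ∧ s' (F.pr x) = s' x := by
  have h1 := F.pr_eq hx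
  have h2 := h (F.pr x) (F.pr_mem hx) (s x) (F.lev_mem hx) 0 zero_mem_LI (by rw [h1]; exact hx')
  rw [F.zero _ (F.pr_mem hx), h1] at h2
  exact h2

/-- the block map -/
def blk (F : Fib D N s) (F' : Fib D' N' s') (q : E × ℝ × ℝ) : E :=
  F.Γ.toFun (F'.Γ.toFun (q.1, q.2.2), q.2.1)

theorem blk_mid (F : Fib D N s) (F' : Fib D' N' s') (h' : Pres F' N s) {z : E} (hz : z ∈ D)
    (hz' : z ∈ D') {b : ℝ} (hb : b ∈ LI) : F'.Γ.toFun (z, b) ∈ D ∧ F'.Γ.toFun (z, b) ∈ N' := by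
  have h1 := h' z hz' 0 zero_mem_LI b hb (by rw [F'.zero z hz']; exact F.sub hz)
  rw [F'.zero z hz', (F.mem_D_iff.1 hz).2] at h1
  exact ⟨F.mem_D_iff.2 h1, F'.mem_N hz' hb⟩

theorem blk_spec (F : Fib D N s) (F' : Fib D' N' s') (h : Pres F N' s') (h' : Pres F' N s)
    {z : E} (hz : z ∈ D) (hz' : z ∈ D') {p : ℝ × ℝ} (hp : p ∈ Sq) :
    blk F F' (z, p) ∈ N ∧ blk F F' (z, p) ∈ N' ∧ s (blk F F' (z, p)) = p.1 ∧
      s' (blk F F' (z, p)) = p.2 := by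
  obtain ⟨h1, h2⟩ := blk_mid F F' h' hz hz' hp.2
  have h3 := h _ h1 0 zero_mem_LI p.1 hp.1 (by rw [F.zero _ h1]; exact h2)
  rw [F.zero _ h1] at h3
  refine ⟨F.mem_N h1 hp.1, h3.1, F.lev _ h1 _ hp.1, ?_⟩
  exact h3.2.trans (F'.lev z hz' _ hp.2)

/-- **The block of two fibred sheets with commuting fibres.** -/
theorem exists_block (F : Fib D N s) (F' : Fib D' N' s') (h : Pres F N' s') (h' : Pres F' N s) :
    ∃ Ψ : ConHomeo ((D ∩ D') ×ˢ Sq) (N ∩ N'),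
      (∀ z ∈ D ∩ D', ∀ p ∈ Sq, s (Ψ.toFun (z, p)) = p.1) ∧
      (∀ z ∈ D ∩ D', ∀ p ∈ Sq, s' (Ψ.toFun (z, p)) = p.2) ∧
      (∀ z ∈ D ∩ D', ∀ p ∈ Sq, Ψ.toFun (z, p) = F.Γ.toFun (F'.Γ.toFun (z, p.2), p.1)) ∧
      ∀ z ∈ D ∩ D', Ψ.toFun (z, 0) = z := by
  have hS : ConicalSet (Sq : Set (ℝ × ℝ)) := (conicalSet_Icc _ _).prod (conicalSet_Icc _ _)
  have hX : ConicalSet ((D ∩ D') ×ˢ Sq : Set (E × ℝ × ℝ)) :=
    (F.conicalSet_D.inter F'.conicalSet_D).prod hS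
  have m1 : MapsTo (fun q : E × ℝ × ℝ => ((q.1, q.2.2) : E × ℝ)) ((D ∩ D') ×ˢ Sq)
      (D' ×ˢ Icc (-1:ℝ) 1) := fun q hq => ⟨hq.1.2, hq.2.2⟩
  have l1 : ConicalOn (fun q : E × ℝ × ℝ => ((q.1, q.2.2) : E × ℝ)) ((D ∩ D') ×ˢ Sq) :=
    (conicalOn_id hX).linear_comp
      ((LinearMap.fst ℝ E (ℝ × ℝ)).prod ((LinearMap.snd ℝ ℝ ℝ).comp (LinearMap.snd ℝ E (ℝ × ℝ))))
  have c1 : ContinuousOn (fun q : E × ℝ × ℝ => F'.Γ.toFun (q.1, q.2.2)) ((D ∩ D') ×ˢ Sq) :=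
    F'.Γ.cont.comp (by fun_prop) m1
  have k1 : ConicalOn (fun q : E × ℝ × ℝ => F'.Γ.toFun (q.1, q.2.2)) ((D ∩ D') ×ˢ Sq) :=
    ConicalOn.comp (g := F'.Γ.toFun) F'.Γ.conical l1 m1 (by fun_prop)
  have k2 : ConicalOn (fun q : E × ℝ × ℝ => ((F'.Γ.toFun (q.1, q.2.2), q.2.1) : E × ℝ))
      ((D ∩ D') ×ˢ Sq) := k1.prodMk ((conicalOn_id hX).linear_comp
        ((LinearMap.fst ℝ ℝ ℝ).comp (LinearMap.snd ℝ E (ℝ × ℝ))))
  have c2 : ContinuousOn (fun q : E × ℝ × ℝ => ((F'.Γ.toFun (q.1, q.2.2), q.2.1) : E × ℝ))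
      ((D ∩ D') ×ˢ Sq) := c1.prodMk (by fun_prop)
  have m2 : MapsTo (fun q : E × ℝ × ℝ => ((F'.Γ.toFun (q.1, q.2.2), q.2.1) : E × ℝ))
      ((D ∩ D') ×ˢ Sq) (D ×ˢ Icc (-1:ℝ) 1) := fun q hq =>
    ⟨(blk_mid F F' h' hq.1.1 hq.1.2 hq.2.2).1, hq.2.1⟩
  refine ⟨{ toFun := blk F F'
            invFun := fun x => (F'.pr (F.pr x), (s x, s' x))
            mapsTo := ?_, mapsTo_inv := ?_, left_inv := ?_, right_inv := ?_, cont := ?_
            cont_inv := ?_, conical := ?_ }, ?_, ?_, ?_, ?_⟩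
  · rintro ⟨z, p⟩ ⟨hz, hp⟩
    obtain ⟨a, b, -, -⟩ := blk_spec F F' h h' hz.1 hz.2 hp
    exact ⟨a, b⟩
  · rintro x ⟨hx, hx'⟩
    obtain ⟨h1, h2⟩ := h.pr_mem hx hx'
    obtain ⟨h3, h4⟩ := h'.pr_mem h1 (F.sub (F.pr_mem hx))
    refine ⟨⟨F.mem_D_iff.2 ⟨h3, ?_⟩, F'.pr_mem h1⟩, ⟨F.lev_mem hx, F'.lev_mem hx'⟩⟩
    rw [h4]
    exact (F.mem_D_iff.1 (F.pr_mem hx)).2
  · rintro ⟨z, p⟩ ⟨hz, hp⟩
    obtain ⟨-, -, h1, h2⟩ := blk_spec F F' h h' hz.1 hz.2 hp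
    simp only at h1 h2 ⊢
    rw [h1, h2]
    refine Prod.ext ?_ rfl
    show F'.pr (F.pr (F.Γ.toFun (F'.Γ.toFun (z, p.2), p.1))) = z
    rw [F.pr_apply (blk_mid F F' h' hz.1 hz.2 hp.2).1 hp.1, F'.pr_apply hz.2 hp.2]
  · rintro x ⟨hx, hx'⟩
    obtain ⟨h1, h2⟩ := h.pr_mem hx hx'
    show F.Γ.toFun (F'.Γ.toFun (F'.pr (F.pr x), s' x), s x) = x
    rw [← h2, F'.pr_eq h1, F.pr_eq hx]
  · exact F.Γ.cont.comp c2 m2
  · refine ContinuousOn.prodMk ?_ ((F.continuousOn_s.mono inter_subset_left).prodMk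
      (F'.continuousOn_s.mono inter_subset_right))
    exact F'.continuousOn_pr.comp (F.continuousOn_pr.mono inter_subset_left)
      fun x hx => (h.pr_mem hx.1 hx.2).1
  · exact ConicalOn.comp (g := F.Γ.toFun) F.Γ.conical k2 m2 c2
  · exact fun z hz p hp => (blk_spec F F' h h' hz.1 hz.2 hp).2.2.1
  · exact fun z hz p hp => (blk_spec F F' h h' hz.1 hz.2 hp).2.2.2
  · exact fun z hz p hp => rfl
  · intro z hz
    show F.Γ.toFun (F'.Γ.toFun (z, 0), 0) = z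
    rw [F'.zero z hz.2, F.zero z hz.1]

end

end P073.H880
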