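import Vale.Agent.P073.H880.TopG
import Vale.Agent.P073.H926.RefIn
import Vale.Agent.P073.H399.RTh

/-!
# P073, H880: **[K3-TOP]**: `K3C` from the rows
-/

open Set Metric Topology Filter MeasureTheory
open scoped ENNReal

namespace Vale.Agent.P073.Top880

/-- **`K3C` from the rows** -/
theorem k3c_of_rows {p : ℝ} (hp : 2 < p) (HR : ∀ C₀ : ℝ, 1 ≤ C₀ → RowsS p C₀)
    (HO : ∀ C₀ : ℝ, 1 ≤ C₀ → RowsO C₀) : Vale.Agent.P073.H304.K3C p := by
  obtain ⟨C₀, hC₀, HS⟩ := exists_C₀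
  exact _root_.P073.H399.k3c_of_k3r (by linarith) (fun D C => Vale.Agent.P073.H926.refInT D C)
    (k3r_of hp hC₀ (chain5 hC₀ HS) (HR C₀ hC₀) (HO C₀ hC₀))

end Vale.Agent.P073.Top880
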