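import Vale.Agent.P073.H880.Met4
import Vale.Agent.P073.H579.Box

/-!
# P073, H880: the model: coordinate bands in a box
-/

open Set Metric Topology Filter

namespace P073.H880

open P073 P073.H936 P073.H341 P073.H669 P073.H579

variable {lo hi : Fin 3 → ℝ}

/-- the band around a coordinate sheet -/
def band (lo hi : Fin 3 → ℝ) (k : Fin 3) (c w : ℝ) : Set (Fin 3 → ℝ) :=
  {y | y ∈ Icc lo hi ∧ |y k - c| ≤ w}

/-- the level in a band -/
noncomputable def blev (k : Fin 3) (c w : ℝ) (y : Fin 3 → ℝ) : ℝ := (y k - c) / w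

/-- sliding a sheet to a level of the band -/
noncomputable def slide (k : Fin 3) (c w : ℝ) : ((Fin 3 → ℝ) × ℝ) →ᵃ[ℝ] (Fin 3 → ℝ) where
  toFun p l := if l = k then c + p.2 * w else p.1 l
  linear :=
    { toFun := fun p l => if l = k then p.2 * w else p.1 l
      map_add' := fun p q => by
        funext l; simp only [Pi.add_apply, Prod.fst_add, Prod.snd_add]; split_ifs <;> ring
      map_smul' := fun a p => by
        funext l
        simp only [Pi.smul_apply, Prod.smul_fst, Prod.smul_snd, smul_eq_mul, RingHom.id_apply]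
        split_ifs <;> ring }
  map_vadd' := fun p v => by
    funext l
    simp only [vadd_eq_add, Pi.add_apply, LinearMap.coe_mk, AddHom.coe_mk, Prod.fst_add,
      Prod.snd_add]
    split_ifs <;> ring

theorem slide_apply (k : Fin 3) (c w : ℝ) (p : (Fin 3 → ℝ) × ℝ) (l : Fin 3) :
    slide k c w p l = if l = k then c + p.2 * w else p.1 l := rfl

theorem slide_self (k : Fin 3) (c w : ℝ) (p : (Fin 3 → ℝ) × ℝ) :
    slide k c w p k = c + p.2 * w := by rw [slide_apply, if_pos rfl]

theorem slide_ne {k l : Fin 3} (h : l ≠ k) (c w : ℝ) (p : (Fin 3 → ℝ) × ℝ) :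
    slide k c w p l = p.1 l := by rw [slide_apply, if_neg h]

theorem continuous_slide (k : Fin 3) (c w : ℝ) : Continuous (slide k c w) := by
  refine continuous_pi fun l => ?_
  simp only [slide_apply]
  split_ifs <;> fun_prop

/-- conditions on a band -/
structure BandOk (lo hi : Fin 3 → ℝ) (k : Fin 3) (c w : ℝ) : Prop where
  pos : 0 < w
  lo : lo k < c - w
  hi : c + w < hi k

theorem BandOk.mem {k : Fin 3} {c w : ℝ} (h : BandOk lo hi k c w) {t : ℝ} (ht : |t| ≤ 1) :
    lo k < c + t * w ∧ c + t * w < hi k := by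
  obtain ⟨h1, h2⟩ := abs_le.1 ht
  have hw := h.pos
  constructor
  · nlinarith [h.lo]
  · nlinarith [h.hi]

theorem BandOk.cen {k : Fin 3} {c w : ℝ} (h : BandOk lo hi k c w) : lo k < c ∧ c < hi k := by
  have := h.mem (t := 0) (by norm_num)
  simpa using this

theorem face_band {k : Fin 3} {c w : ℝ} (h : BandOk lo hi k c w) {t : ℝ} (ht : |t| ≤ 1) :
    face (band lo hi k c w) (blev k c w) t = sheet lo hi k (c + t * w) := by
  have hw := h.pos
  ext y
  constructor
  · rintro ⟨⟨hy, -⟩, h2⟩
    have h2' : (y k - c) / w = t := h2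
    refine ⟨hy, ?_⟩
    rw [div_eq_iff hw.ne'] at h2'
    linarith
  · rintro ⟨hy, h2⟩
    have e : y k - c = t * w := by rw [h2]; ring
    refine ⟨⟨hy, ?_⟩, ?_⟩
    · rw [e, abs_mul, abs_of_pos hw]
      exact mul_le_of_le_one_left hw.le ht
    · show (y k - c) / w = t
      rw [e, mul_div_cancel_right₀ _ hw.ne']

theorem sheet_eq_mid {k : Fin 3} {c w : ℝ} (h : BandOk lo hi k c w) :
    sheet lo hi k c = face (band lo hi k c w) (blev k c w) 0 := by
  rw [face_band h (by norm_num), zero_mul, add_zero]

theorem slide_mem {k : Fin 3} {c w : ℝ} (h : BandOk lo hi k c w) {y : Fin 3 → ℝ}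
    (hy : y ∈ Icc lo hi) {t : ℝ} (ht : |t| ≤ 1) : slide k c w (y, t) ∈ Icc lo hi := by
  have hb := h.mem ht
  refine ⟨fun l => ?_, fun l => ?_⟩
  · by_cases hl : l = k
    · subst hl; rw [slide_self]; exact hb.1.le
    · rw [slide_ne hl]; exact hy.1 l
  · by_cases hl : l = k
    · subst hl; rw [slide_self]; exact hb.2.le
    · rw [slide_ne hl]; exact hy.2 l

theorem slide_mem_band {k : Fin 3} {c w : ℝ} (h : BandOk lo hi k c w) {y : Fin 3 → ℝ}
    (hy : y ∈ Icc lo hi) {t : ℝ} (ht : |t| ≤ 1) : slide k c w (y, t) ∈ band lo hi k c w := by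
  refine ⟨slide_mem h hy ht, ?_⟩
  rw [slide_self, add_sub_cancel_left, abs_mul, abs_of_pos h.pos]
  exact mul_le_of_le_one_left h.pos.le ht

theorem blev_slide {k : Fin 3} {c w : ℝ} (h : BandOk lo hi k c w) (y : Fin 3 → ℝ) (t : ℝ) :
    blev k c w (slide k c w (y, t)) = t := by
  rw [blev, slide_self, add_sub_cancel_left, mul_div_cancel_right₀ _ h.pos.ne']

theorem slide_slide {k : Fin 3} {c w : ℝ} (y : Fin 3 → ℝ) (t u : ℝ) :
    slide k c w (slide k c w (y, t), u) = slide k c w (y, u) := by
  funext l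
  by_cases hl : l = k
  · subst hl; rw [slide_self, slide_self]
  · rw [slide_ne hl, slide_ne hl]
    show slide k c w (y, t) l = y l
    rw [slide_ne hl]

theorem slide_blev {k : Fin 3} {c w : ℝ} (h : BandOk lo hi k c w) (y : Fin 3 → ℝ) :
    slide k c w (y, blev k c w y) = y := by
  funext l
  by_cases hl : l = k
  · subst hl
    rw [slide_self]
    show c + (y l - c) / w * w = y l
    rw [div_mul_cancel₀ _ h.pos.ne']
    ring
  · rw [slide_ne hl]

theorem slide_zero {k : Fin 3} {c w : ℝ} {y : Fin 3 → ℝ} (hy : y k = c) :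
    slide k c w (y, 0) = y := by
  funext l
  by_cases hl : l = k
  · subst hl; rw [slide_self, zero_mul, add_zero]; exact hy.symm
  · rw [slide_ne hl]

/-- the fibred sheet -/
noncomputable def bfib (hlh : ∀ l, lo l < hi l) {k : Fin 3} {c w : ℝ} (h : BandOk lo hi k c w) :
    Fib (sheet lo hi k c) (band lo hi k c w) (blev k c w) where
  Γ :=
    { toFun := slide k c w
      invFun := fun y => (slide k c w (y, 0), blev k c w y)
      mapsTo := fun p hp => slide_mem_band h hp.1.1 (abs_le.2 hp.2)
      mapsTo_inv := by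
        rintro y ⟨hy, hyw⟩
        refine ⟨⟨slide_mem h hy (by norm_num), ?_⟩, ?_⟩
        · show slide k c w (y, 0) k = c
          rw [slide_self, zero_mul, add_zero]
        · show (y k - c) / w ∈ Icc (-1:ℝ) 1
          rw [mem_Icc, ← abs_le, abs_div, abs_of_pos h.pos]
          exact div_le_one_of_le₀ hyw h.pos.le
      left_inv := by
        rintro ⟨y, t⟩ ⟨hy, ht⟩
        show (slide k c w (slide k c w (y, t), 0), blev k c w (slide k c w (y, t))) = (y, t)
        rw [slide_slide, blev_slide h, slide_zero hy.2]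
      right_inv := by
        rintro y ⟨hy, hyw⟩
        show slide k c w (slide k c w (y, 0), blev k c w y) = y
        rw [slide_slide, slide_blev h]
      cont := (continuous_slide k c w).continuousOn
      cont_inv := by
        refine Continuous.continuousOn ?_
        refine Continuous.prodMk ((continuous_slide k c w).comp (by fun_prop)) ?_
        unfold blev
        fun_prop
      conical := by
        refine conicalOn_of_affine (slide k c w) ?_
        exact (conBall_sheet hlh h.cen).conicalSet.prod (conicalSet_Icc _ _) }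
  lev := fun z _ t _ => blev_slide h z t
  zero := fun z hz => slide_zero hz.2

theorem bfib_toFun (hlh : ∀ l, lo l < hi l) {k : Fin 3} {c w : ℝ} (h : BandOk lo hi k c w)
    (p : (Fin 3 → ℝ) × ℝ) : (bfib hlh h).Γ.toFun p = slide k c w p := rfl

theorem bfib_bd (hlh : ∀ l, lo l < hi l) {k : Fin 3} {c w : ℝ} (h : BandOk lo hi k c w) :
    (bfib hlh h).Bd (frontier (Icc lo hi)) := by
  intro z hz t ht
  rw [bfib_toFun, mem_frontier_box, mem_frontier_box]
  have hb := h.mem (abs_le.2 ht)
  have hc := h.cen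
  constructor
  · rintro ⟨-, l, hl⟩
    refine ⟨hz.1, l, ?_⟩
    by_cases hlk : l = k
    · subst hlk
      rw [slide_self] at hl
      rcases hl with hl | hl
      · exact absurd hl hb.1.ne'
      · exact absurd hl hb.2.ne
    · rwa [slide_ne hlk] at hl
  · rintro ⟨-, l, hl⟩
    refine ⟨slide_mem h hz.1 (abs_le.2 ht), l, ?_⟩
    by_cases hlk : l = k
    · subst hlk
      rw [hz.2] at hl
      rcases hl with hl | hl
      · exact absurd hl hc.1.ne'
      · exact absurd hl hc.2.ne
    · rwa [slide_ne hlk]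

theorem bfib_pres (hlh : ∀ l, lo l < hi l) {k k' : Fin 3} (hk : k' ≠ k) {c w c' w' : ℝ}
    (h : BandOk lo hi k c w) : Pres (bfib hlh h) (band lo hi k' c' w') (blev k' c' w') := by
  intro z hz t ht t' ht' hm
  rw [bfib_toFun] at hm ⊢
  rw [bfib_toFun]
  obtain ⟨-, h2⟩ := hm
  rw [slide_ne hk] at h2
  refine ⟨⟨slide_mem h hz.1 (abs_le.2 ht'), ?_⟩, ?_⟩
  · rw [slide_ne hk]; exact h2
  · show (slide k c w (z, t') k' - c') / w' = (slide k c w (z, t) k' - c') / w'
    rw [slide_ne hk, slide_ne hk]

/-- disjoint bands of every side -/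
structure Bands {ι : Type*} (side : ι → Bool) (ax : Bool → Fin 3) (lo hi : Fin 3 → ℝ)
    (c w : ι → ℝ) : Prop where
  lohi : ∀ l, lo l < hi l
  axne : ax true ≠ ax false
  ok : ∀ i, BandOk lo hi (ax (side i)) (c i) (w i)
  disj : ∀ i j, i ≠ j → side i = side j → w i + w j < |c i - c j|

variable {ι : Type*} {side : ι → Bool} {ax : Bool → Fin 3} {c w : ι → ℝ}

theorem Bands.ax_ne (H : Bands side ax lo hi c w) {i j : ι} (h : side i ≠ side j) :
    ax (side j) ≠ ax (side i) := by
  have h2 := H.axne
  cases h3 : side i <;> cases h4 : side j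
  · exact absurd (h3.trans h4.symm) h
  · exact h2
  · exact h2.symm
  · exact absurd (h3.trans h4.symm) h

/-- **[TGT]** the model system of bands in a box -/
noncomputable def Bands.sys (H : Bands side ax lo hi c w) :
    FSys side (Icc lo hi) (frontier (Icc lo hi)) (fun i => sheet lo hi (ax (side i)) (c i))
      (fun i => band lo hi (ax (side i)) (c i) (w i))
      (fun i => blev (ax (side i)) (c i) (w i)) where
  hC := conBall_Icc_pi three_ne_zero H.lohi
  F := fun i => bfib H.lohi (H.ok i)
  sub := fun i y hy => hy.1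
  disc := fun i => conBall_sheet H.lohi (H.ok i).cen
  bd := fun i => bfib_bd H.lohi (H.ok i)
  disj := by
    intro i j hij hs
    rw [Set.disjoint_left]
    rintro y ⟨-, h1⟩ ⟨-, h2⟩
    rw [← hs] at h2
    have h3 := H.disj i j hij hs
    have h4 : |c i - c j| ≤ |y (ax (side i)) - c i| + |y (ax (side i)) - c j| := by
      have := abs_sub_le (c i) (y (ax (side i))) (c j)
      rwa [abs_sub_comm (c i) (y (ax (side i)))] at this
    linarith
  pres := fun i j hs => bfib_pres H.lohi (H.ax_ne hs) (H.ok i)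
  arc := fun i j hs => conBall_line H.lohi (H.ax_ne hs).symm (H.ok i).cen (H.ok j).cen

theorem Bands.cross (H : Bands side ax lo hi c w) (i j : ι) (hsi : side i = false)
    (hsj : side j = true) (a b : ℝ) (ha : |a| ≤ 1) (hb : |b| ≤ 1) :
    Crosses (Icc lo hi)
      (face (band lo hi (ax (side i)) (c i) (w i)) (blev (ax (side i)) (c i) (w i)) a)
      (face (band lo hi (ax (side j)) (c j) (w j)) (blev (ax (side j)) (c j) (w j)) b) := by
  rw [face_band (H.ok i) ha, face_band (H.ok j) hb]
  have hs : side i ≠ side j := by rw [hsi, hsj]; simp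
  exact crosses_box (H.ax_ne hs).symm ((H.ok i).mem ha) _

end P073.H880
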