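import Vale.Agent.P073.H880.Met5
import Vale.Agent.P073.H142.Caps

/-!
# P073, H880: one K3 box: sheets with caps, full switch, new homeomorphism, metric clauses
-/

open Set Metric Topology Filter
open scoped ENNReal

namespace P073.H880

open P073 P073.H936 P073.H341 P073.H669

section core

variable {ι : Type*} {Q E : Type} [NormedAddCommGroup E] [NormedSpace ℝ E]
  {P : H142.BoxIn ι Q E} {r : ℝ} {lo hi : Fin 3 → ℝ} {ax : Bool → Fin 3} {c w : ι → ℝ}

/-- the new sheets stay in the ball -/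
theorem pre_sub (K : P.CapsIn) {U : Set E} (hNU : ∀ i, P.N i ⊆ U) (hCU : ∀ q, P.C q ⊆ U) (i : ι) :
    K.pre.N' i ⊆ U := by
  rintro x (hx | hx)
  · exact hNU i (K.pre.PP_N i hx)
  · obtain ⟨d, hx⟩ := mem_iUnion.1 hx
    rcases K.pre.cap_sub i d hx with h | ⟨⟨z, t⟩, ⟨hz, ht⟩, rfl⟩
    · exact hCU _ (interior_subset h)
    · exact hNU i ((P.Γ i).mapsTo ⟨K.pre.γD i d hz, ht⟩)

theorem pre_one (K : P.CapsIn) {U : Set E} (hU : ConBall 3 U P.Bd) (hNU : ∀ i, P.N i ⊆ U)
    (hCU : ∀ q, P.C q ⊆ U) : One K.pre.vfam U where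
  hC := hU
  sub := pre_sub K hNU hCU
  arc := by
    intro i j hi hj
    obtain ⟨a, h1, h2⟩ := K.pre.vfam_arc hi hj
      (P.arc_ncard (by rw [show P.side i = false from hi, show P.side j = true from hj]; simp))
    refine ⟨a, h1, fun b hb => ?_⟩
    by_contra hne
    obtain ⟨x, hx⟩ := hb
    exact disjoint_left.1 (h2 b hne).2 hx.1 hx.2

/-- **[K3BOX-CORE]** One box: the sheets are capped in all cells, switched, and realised by a new
homeomorphism with the same boundary values; the new levels change at every point at most as much as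
the levels of the caps (in the cells), or as the old levels (outside the open cells). -/
theorem exists_k3core [Fintype ι] (K : P.CapsIn) {U : Set E} (hU : ConBall 3 U P.Bd)
    (hNU : ∀ i, P.N i ⊆ U) (hCU : ∀ q, P.C q ⊆ U) (h0 : 0 < r) (h1 : r < 1)
    (H : Bands P.side ax lo hi c w) {h : ConHomeo P.Bd (frontier (Icc lo hi))}
    (hmem : ∀ i, ∀ x ∈ P.Bd, (|h.toFun x (ax (P.side i)) - c i| ≤ w i ↔ x ∈ P.N i))
    (hlev : ∀ i, ∀ x ∈ P.Bd, x ∈ P.N i → (h.toFun x (ax (P.side i)) - c i) / w i = P.s i x) :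
    ∃ (L : LamData K.pre.vfam.swData) (O : SwOut K.pre.vfam.swData L r)
      (g : ConHomeo U (Icc lo hi)), EqOn g.toFun h.toFun P.Bd ∧
      (∀ i, g.toFun '' O.B i = {y | y ∈ Icc lo hi ∧ |y (ax (P.side i)) - c i| ≤ r * w i}) ∧
      (∀ i, ∀ x ∈ O.B i, (g.toFun x (ax (P.side i)) - c i) / w i = O.b i x) ∧
      Lev O U (wlev P.side ax r c w g.toFun) ∧
      -- in a closed cell
      (∀ q, ∀ x ∈ P.C q, ∀ᶠ y in 𝓝[P.C q] x,
        dsum (wlev P.side ax r c w g.toFun) x y ≤ ctot K.pre q x y) ∧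
      -- outside the open cells
      (∀ x ∈ U, ∀ᶠ y in 𝓝[U] x, (∀ q, y ∉ interior (P.C q)) →
        dsum (wlev P.side ax r c w g.toFun) x y ≤ tot P.N P.s x y) ∧
      -- along curves outside the open cells
      ∀ (γ : ℝ → E) (a b : ℝ), ContinuousOn γ (Icc a b) → MapsTo γ (Icc a b) U →
        (∀ t ∈ Icc a b, ∀ q, γ t ∉ interior (P.C q)) →
        cvar (fun s t => ENNReal.ofReal (dsum (wlev P.side ax r c w g.toFun) (γ s) (γ t))) a b ≤
          cvar (fun s t => ENNReal.ofReal (tot P.N P.s (γ s) (γ t))) a b := by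
  obtain ⟨L⟩ := exists_lamData K.pre.vfam.swData
  obtain ⟨O⟩ := fullSwitch K.pre.vfam.swData L h0 h1
  have hmem' : ∀ i, ∀ x ∈ P.Bd, (|h.toFun x (ax (P.side i)) - c i| ≤ w i ↔ x ∈ K.pre.N' i) := by
    intro i x hx
    rw [hmem i x hx]
    constructor
    · intro hxN
      have h2 : x = (P.Γ i).toFun (((P.Γ i).invFun x).1, ((P.Γ i).invFun x).2) :=
        ((P.Γ i).right_inv hxN).symm
      have h3 := (P.Γ i).mapsTo_inv hxN
      have h4 : ((P.Γ i).invFun x).1 ∈ P.Bd := by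
        refine (P.bd i _ h3.1 _ h3.2).1 ?_
        rw [← h2]; exact hx
      refine Or.inl ⟨(((P.Γ i).invFun x).1, ((P.Γ i).invFun x).2), ⟨?_, h3.2⟩, h2.symm⟩
      exact K.pre.bd_co i h3.1 h4
    · rintro (hxN | hxN)
      · exact K.pre.PP_N i hxN
      · obtain ⟨d, hd⟩ := mem_iUnion.1 hxN
        exact absurd hx (disjoint_left.1 (K.pre.cap_not_bd i d) hd)
  have hlev' : ∀ i, ∀ x ∈ P.Bd, x ∈ K.pre.N' i →
      (h.toFun x (ax (P.side i)) - c i) / w i = K.pre.s' i x := by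
    intro i x hx hxN
    have h2 : x ∈ K.pre.PP i := by
      rcases hxN with hxN | hxN
      · exact hxN
      · obtain ⟨d, hd⟩ := mem_iUnion.1 hxN
        exact absurd hx (disjoint_left.1 (K.pre.cap_not_bd i d) hd)
    rw [K.pre.s'_PP i h2]
    exact hlev i x hx (K.pre.PP_N i h2)
  obtain ⟨g, hg1, hg2, hg3, hg4⟩ := exists_box (V := K.pre.vfam) O h0 h1 (pre_one K hU hNU hCU) H
    hmem' hlev'
  refine ⟨L, O, g, hg1, hg2, hg3, hg4, ?_, ?_, ?_⟩
  · intro q x hx
    have h2 := hg4.cell_le_closed h0 h1 (q := q)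
      (by show P.V q ∪ P.B q ⊆ U; rw [P.VB_eq q]; exact hCU q) (x := x)
      (by show x ∈ P.V q ∪ P.B q; rw [P.VB_eq q]; exact hx)
    have e : K.pre.V q ∪ K.pre.B q = P.C q := P.VB_eq q
    rw [e] at h2
    exact h2
  · intro x hx
    exact hg4.rest_le h0 h1 hx
  · intro γ a b hγ hU' hV
    exact hg4.rest_cvar h0 h1 hγ hU' hV

end core

end P073.H880
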