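import Vale.Agent.P073.H880.FSys

/-!
# P073, H880: equivalence of systems of fibred sheets, the crossing blocks
-/

open Set Metric Topology Filter

namespace P073.H880

open P073 P073.H936 P073.H341

variable {E G : Type*} [NormedAddCommGroup E] [NormedSpace ℝ E]
  [NormedAddCommGroup G] [NormedSpace ℝ G]
  {ι : Type*} {side : ι → Bool} {C B : Set E} {D N : ι → Set E} {s : ι → E → ℝ}
  {C' B' : Set G} {D' N' : ι → Set G} {s' : ι → G → ℝ}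

theorem isPreconnected_Sq : IsPreconnected (Sq : Set (ℝ × ℝ)) :=
  isPreconnected_Icc.prod isPreconnected_Icc

theorem zero_mem_Sq : (0 : ℝ × ℝ) ∈ (Sq : Set (ℝ × ℝ)) := ⟨zero_mem_LI, zero_mem_LI⟩

/-- the boundary data of an equivalence of systems -/
structure BEq (N : ι → Set E) (s : ι → E → ℝ) (N' : ι → Set G) (s' : ι → G → ℝ)
    (h : ConHomeo B B') : Prop where
  mem : ∀ i, ∀ x ∈ B, (h.toFun x ∈ N' i ↔ x ∈ N i)
  lev : ∀ i, ∀ x ∈ B, x ∈ N i → s' i (h.toFun x) = s i x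

theorem FSys.subB (S : FSys side C B D N s) : B ⊆ C := S.hC.1

/-- middle sheets correspond on the boundary -/
theorem BEq.mem_D (S : FSys side C B D N s) (S' : FSys side C' B' D' N' s') {h : ConHomeo B B'}
    (hh : BEq N s N' s' h) (i : ι) {x : E} (hx : x ∈ B) : h.toFun x ∈ D' i ↔ x ∈ D i := by
  rw [(S.F i).mem_D_iff, (S'.F i).mem_D_iff, hh.mem i x hx]
  refine and_congr_right fun hN => ?_
  rw [hh.lev i x hx hN]

/-- **the homeomorphism of a crossing block** -/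
theorem exists_blkEq (S : FSys side C B D N s) (S' : FSys side C' B' D' N' s')
    {h : ConHomeo B B'} (hh : BEq N s N' s' h) (i j : ι) (hij : side i ≠ side j) :
    ∃ β : ConHomeo (N i ∩ N j) (N' i ∩ N' j),
      (∀ x ∈ N i ∩ N j, s' i (β.toFun x) = s i x ∧ s' j (β.toFun x) = s j x) ∧
      (∀ x ∈ N i ∩ N j, x ∈ B → β.toFun x = h.toFun x) ∧
      ∀ x ∈ N i ∩ N j, (β.toFun x ∈ B' ↔ x ∈ B) := by
  obtain ⟨Ψ, h1, h2, h3, h4⟩ := S.exists_blk i j hij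
  obtain ⟨Ψ', h1', h2', h3', h4'⟩ := S'.exists_blk i j hij
  have hcB : ConicalSet (D i ∩ D j ∩ B) := (S.arc i j hij).conicalSet_bdry
  have him : h.toFun '' (D i ∩ D j ∩ B) = D' i ∩ D' j ∩ B' := by
    apply Subset.antisymm
    · rintro _ ⟨x, hx, rfl⟩
      exact ⟨⟨(hh.mem_D S S' i hx.2).2 hx.1.1, (hh.mem_D S S' j hx.2).2 hx.1.2⟩, h.mapsTo hx.2⟩
    · rintro y hy
      have hx := h.mapsTo_inv hy.2
      have hxy := h.right_inv hy.2
      refine ⟨h.invFun y, ⟨⟨?_, ?_⟩, hx⟩, hxy⟩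
      · rw [← hh.mem_D S S' i hx, hxy]; exact hy.1.1
      · rw [← hh.mem_D S S' j hx, hxy]; exact hy.1.2
  let hB : ConHomeo (D i ∩ D j ∩ B) (D' i ∩ D' j ∩ B') :=
    (h.restr hcB inter_subset_right).cast rfl him
  obtain ⟨α, hα, hαB⟩ := (S.arc i j hij).exists_extend (S'.arc i j hij) hB
  have hαh : ∀ z ∈ D i ∩ D j ∩ B, α.toFun z = h.toFun z := fun z hz => hα hz
  have hαB' : ∀ z ∈ D i ∩ D j, (α.toFun z ∈ B' ↔ z ∈ B) := by
    intro z hz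
    constructor
    · intro hzB
      have : α.toFun z ∈ α.toFun '' (D i ∩ D j ∩ B) := by
        rw [hαB]; exact ⟨α.mapsTo hz, hzB⟩
      obtain ⟨w, hw, hwz⟩ := this
      rw [← α.injOn hw.1 hz hwz]; exact hw.2
    · intro hzB
      have : α.toFun z ∈ D' i ∩ D' j ∩ B' := hαB ▸ mem_image_of_mem _ ⟨hz, hzB⟩
      exact this.2
  have hS : ConicalSet (Sq : Set (ℝ × ℝ)) := (conicalSet_Icc _ _).prod (conicalSet_Icc _ _)
  let β : ConHomeo (N i ∩ N j) (N' i ∩ N' j) :=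
    Ψ.symm.trans ((α.prodM (ConHomeo.refl hS)).trans Ψ')
  have hβ : ∀ z ∈ D i ∩ D j, ∀ p ∈ Sq, β.toFun (Ψ.toFun (z, p)) = Ψ'.toFun (α.toFun z, p) := by
    intro z hz p hp
    show Ψ'.toFun ((α.prodM (ConHomeo.refl hS)).toFun (Ψ.invFun (Ψ.toFun (z, p)))) = _
    rw [Ψ.left_inv (show (z, p) ∈ (D i ∩ D j) ×ˢ Sq from ⟨hz, hp⟩)]
    rfl
  have rep : ∀ x ∈ N i ∩ N j, ∃ z ∈ D i ∩ D j, ∃ p ∈ (Sq : Set (ℝ × ℝ)), x = Ψ.toFun (z, p) := by
    intro x hx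
    have h5 := Ψ.mapsTo_inv hx
    exact ⟨_, h5.1, _, h5.2, (Ψ.right_inv hx).symm⟩
  refine ⟨β, ?_, ?_, ?_⟩
  · intro x hx
    obtain ⟨z, hz, p, hp, rfl⟩ := rep x hx
    rw [hβ z hz p hp, h1 z hz p hp, h2 z hz p hp, h1' _ (α.mapsTo hz) p hp, h2' _ (α.mapsTo hz) p hp]
    exact ⟨rfl, rfl⟩
  · intro x hx hxB
    obtain ⟨z, hz, p, hp, rfl⟩ := rep x hx
    have hzB : z ∈ B := (h3 z hz p hp).1 hxB
    rw [hβ z hz p hp, hαh z ⟨hz, hzB⟩]
    -- the boundary point of `h (Ψ (z, q))` does not depend on `q`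
    have mB : ∀ q ∈ (Sq : Set (ℝ × ℝ)), Ψ.toFun (z, q) ∈ B := fun q hq => (h3 z hz q hq).2 hzB
    have mN : ∀ q ∈ (Sq : Set (ℝ × ℝ)), h.toFun (Ψ.toFun (z, q)) ∈ N' i ∩ N' j := by
      intro q hq
      have h5 := Ψ.mapsTo (show (z, q) ∈ (D i ∩ D j) ×ˢ Sq from ⟨hz, hq⟩)
      exact ⟨(hh.mem i _ (mB q hq)).2 h5.1, (hh.mem j _ (mB q hq)).2 h5.2⟩
    have hc : ContinuousOn (fun q => (Ψ'.invFun (h.toFun (Ψ.toFun (z, q)))).1) Sq := by
      refine continuous_fst.comp_continuousOn (Ψ'.cont_inv.comp (h.cont.comp (Ψ.cont.comp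
        (by fun_prop) fun q hq => ⟨hz, hq⟩) mB) mN)
    have hm : ∀ q ∈ (Sq : Set (ℝ × ℝ)), (Ψ'.invFun (h.toFun (Ψ.toFun (z, q)))).1 ∈
        D' i ∩ D' j ∩ B' := by
      intro q hq
      have h5 := Ψ'.mapsTo_inv (mN q hq)
      refine ⟨h5.1, ?_⟩
      rw [← h3' _ h5.1 _ h5.2]
      have h6 := Ψ'.right_inv (mN q hq)
      simp only [Prod.mk.eta]
      rw [h6]
      exact h.mapsTo (mB q hq)
    have hfin : (D' i ∩ D' j ∩ B').Finite := by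
      obtain ⟨a, b, hab⟩ := GB200.exists_pair (S'.arc i j hij)
      rw [hab]; exact (finite_singleton b).insert a
    have hconst : (Ψ'.invFun (h.toFun (Ψ.toFun (z, p)))).1 =
        (Ψ'.invFun (h.toFun (Ψ.toFun (z, 0)))).1 := by
      refine hfin.countable.isTotallyDisconnected _ ?_ (isPreconnected_Sq.image _ hc)
        (mem_image_of_mem _ hp) (mem_image_of_mem _ zero_mem_Sq)
      rintro _ ⟨q, hq, rfl⟩
      exact hm q hq
    rw [h4 z hz, ← h4' (h.toFun z) (hαh z ⟨hz, hzB⟩ ▸ α.mapsTo hz),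
      Ψ'.left_inv (show (h.toFun z, 0) ∈ (D' i ∩ D' j) ×ˢ Sq from
        ⟨hαh z ⟨hz, hzB⟩ ▸ α.mapsTo hz, zero_mem_Sq⟩)] at hconst
    have h5 := Ψ'.mapsTo_inv (mN p hp)
    have h6 := Ψ'.right_inv (mN p hp)
    have h7 := h1' _ h5.1 _ h5.2
    have h8 := h2' _ h5.1 _ h5.2
    simp only [Prod.mk.eta] at h7 h8
    rw [h6] at h7 h8
    have h9 := Ψ.mapsTo (show (z, p) ∈ (D i ∩ D j) ×ˢ Sq from ⟨hz, hp⟩)
    rw [hh.lev i _ hxB h9.1, h1 z hz p hp] at h7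
    rw [hh.lev j _ hxB h9.2, h2 z hz p hp] at h8
    rw [← h6]
    congr 1
    exact Prod.ext hconst.symm (Prod.ext h7 h8)
  · intro x hx
    obtain ⟨z, hz, p, hp, rfl⟩ := rep x hx
    rw [hβ z hz p hp, h3' _ (α.mapsTo hz) p hp, h3 z hz p hp, hαB' z hz]

end P073.H880
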