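import Vale.Agent.P073.H880.Eq1

/-!
# P073, H880: equivalence of systems of fibred sheets, gluing of the blocks
-/

open Set Metric Topology Filter

namespace P073.H880

open P073 P073.H936 P073.H341

variable {E G : Type*} [NormedAddCommGroup E] [NormedSpace ℝ E]
  [NormedAddCommGroup G] [NormedSpace ℝ G]
  {ι : Type*} {side : ι → Bool} {C B : Set E} {D N : ι → Set E} {s : ι → E → ℝ}
  {C' B' : Set G} {D' N' : ι → Set G} {s' : ι → G → ℝ}

/-- ordered pairs of sheets of different families -/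
abbrev Prs (side : ι → Bool) : Type _ := {p : ι × ι // side p.1 = false ∧ side p.2 = true}

theorem Prs.ne (p : Prs side) : side p.1.1 ≠ side p.1.2 := by
  rw [p.2.1, p.2.2]; decide

/-- the blocks and the boundary -/
def W0f (side : ι → Bool) (B : Set E) (N : ι → Set E) : Option (Prs side) → Set E
  | none => B
  | some p => N p.1.1 ∩ N p.1.2

/-- the boundary and the crossing blocks -/
def W0 (side : ι → Bool) (B : Set E) (N : ι → Set E) : Set E := ⋃ o, W0f side B N o

theorem mem_W0 {x : E} : x ∈ W0 side B N ↔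
    x ∈ B ∨ ∃ i j, side i = false ∧ side j = true ∧ x ∈ N i ∧ x ∈ N j := by
  simp only [W0, mem_iUnion, Option.exists, W0f, Subtype.exists, Prod.exists, mem_inter_iff]
  constructor
  · rintro (h | ⟨i, j, h1, h2⟩)
    · exact Or.inl h
    · exact Or.inr ⟨i, j, h1.1, h1.2, h2⟩
  · rintro (h | ⟨i, j, h1, h2, h3⟩)
    · exact Or.inl h
    · exact Or.inr ⟨i, j, ⟨h1, h2⟩, h3⟩

theorem FSys.isCompact_N (S : FSys side C B D N s) (i : ι) : IsCompact (N i) :=
  (S.F i).isCompact_N (S.disc i).isCompact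

theorem FSys.closed_W0f (S : FSys side C B D N s) (o : Option (Prs side)) :
    IsClosed (W0f side B N o) := by
  cases o with
  | none => exact S.hC.isCompact_bdry.isClosed
  | some p => exact (S.isCompact_N _).isClosed.inter (S.isCompact_N _).isClosed

/-- same side, common point: equal -/
theorem FSys.eq_of_mem (S : FSys side C B D N s) {i j : ι} (h : side i = side j) {x : E}
    (hi : x ∈ N i) (hj : x ∈ N j) : i = j := by
  by_contra hne
  exact disjoint_left.1 (S.disj i j hne h) hi hj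

theorem exists_W0 [Finite ι] (S : FSys side C B D N s) (S' : FSys side C' B' D' N' s')
    {h : ConHomeo B B'} (hh : BEq N s N' s' h) :
    ∃ Ψ : ConHomeo (W0 side B N) (W0 side B' N'), EqOn Ψ.toFun h.toFun B ∧
      (∀ x ∈ W0 side B N, (Ψ.toFun x ∈ B' ↔ x ∈ B)) ∧
      (∀ i, ∀ x ∈ W0 side B N, (Ψ.toFun x ∈ N' i ↔ x ∈ N i)) ∧
      ∀ i, ∀ x ∈ W0 side B N, x ∈ N i → s' i (Ψ.toFun x) = s i x := by
  have hb := fun p : Prs side => exists_blkEq S S' hh p.1.1 p.1.2 p.ne
  choose β hβ1 hβ2 hβ3 using hb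
  let φ : ∀ o, ConHomeo (W0f side B N o) (W0f side B' N' o) := fun o =>
    match o with
    | none => h
    | some p => β p
  have hag : ∀ o o', EqOn (φ o).toFun (φ o').toFun (W0f side B N o ∩ W0f side B N o') := by
    rintro (_ | p) (_ | q) x ⟨hx, hx'⟩
    · rfl
    · exact (hβ2 q x hx' hx).symm
    · exact hβ2 p x hx hx'
    · have e1 : p.1.1 = q.1.1 := S.eq_of_mem (p.2.1.trans q.2.1.symm) hx.1 hx'.1
      have e2 : p.1.2 = q.1.2 := S.eq_of_mem (p.2.2.trans q.2.2.symm) hx.2 hx'.2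
      have e : p = q := Subtype.ext (Prod.ext e1 e2)
      subst e
      rfl
  have himg : ∀ o o', W0f side B' N' o ∩ W0f side B' N' o' ⊆
      (φ o).toFun '' (W0f side B N o ∩ W0f side B N o') := by
    rintro (_ | p) (_ | q) y ⟨hy, hy'⟩
    · exact ⟨h.invFun y, ⟨h.mapsTo_inv hy, h.mapsTo_inv hy⟩, h.right_inv hy⟩
    · have hx : (β q).invFun y ∈ N q.1.1 ∩ N q.1.2 := (β q).mapsTo_inv hy'
      have hxy : (β q).toFun ((β q).invFun y) = y := (β q).right_inv hy'
      have hxB : (β q).invFun y ∈ B := (hβ3 q _ hx).1 (by rw [hxy]; exact hy)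
      refine ⟨_, ⟨hxB, hx⟩, ?_⟩
      show h.toFun ((β q).invFun y) = y
      rw [← hβ2 q _ hx hxB, hxy]
    · have hx : (β p).invFun y ∈ N p.1.1 ∩ N p.1.2 := (β p).mapsTo_inv hy
      have hxy : (β p).toFun ((β p).invFun y) = y := (β p).right_inv hy
      have hxB : (β p).invFun y ∈ B := (hβ3 p _ hx).1 (by rw [hxy]; exact hy')
      exact ⟨_, ⟨hx, hxB⟩, hxy⟩
    · have e1 : p.1.1 = q.1.1 := S'.eq_of_mem (p.2.1.trans q.2.1.symm) hy.1 hy'.1
      have e2 : p.1.2 = q.1.2 := S'.eq_of_mem (p.2.2.trans q.2.2.symm) hy.2 hy'.2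
      have e : p = q := Subtype.ext (Prod.ext e1 e2)
      subst e
      exact ⟨_, ⟨(β p).mapsTo_inv hy, (β p).mapsTo_inv hy⟩, (β p).right_inv hy⟩
  obtain ⟨Ψ, hΨ⟩ := ConHomeo.exists_glue_family (RelLF.of_finite S.closed_W0f)
    (RelLF.of_finite S'.closed_W0f) φ hag himg
  have eB : ∀ x ∈ B, Ψ.toFun x = h.toFun x := fun x hx => (hΨ none).1 hx
  have eN : ∀ p : Prs side, ∀ x ∈ N p.1.1 ∩ N p.1.2, Ψ.toFun x = (β p).toFun x := fun p x hx =>
    (hΨ (some p)).1 hx
  refine ⟨Ψ, eB, ?_, ?_, ?_⟩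
  · intro x hx
    rcases mem_iUnion.1 hx with ⟨_ | p, hx⟩
    · rw [eB x hx]
      exact ⟨fun _ => hx, fun hx => h.mapsTo hx⟩
    · rw [eN p x hx, hβ3 p x hx]
  · intro i x hx
    rcases mem_iUnion.1 hx with ⟨_ | p, hx⟩
    · rw [eB x hx, hh.mem i x hx]
    · rw [eN p x hx]
      have h1 : (β p).toFun x ∈ N' p.1.1 ∩ N' p.1.2 := (β p).mapsTo hx
      cases hi : side i with
      | false =>
        constructor
        · intro hy
          rw [S'.eq_of_mem (hi.trans p.2.1.symm) hy h1.1]; exact hx.1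
        · intro hy
          rw [S.eq_of_mem (hi.trans p.2.1.symm) hy hx.1]; exact h1.1
      | true =>
        constructor
        · intro hy
          rw [S'.eq_of_mem (hi.trans p.2.2.symm) hy h1.2]; exact hx.2
        · intro hy
          rw [S.eq_of_mem (hi.trans p.2.2.symm) hy hx.2]; exact h1.2
  · intro i x hx hi
    rcases mem_iUnion.1 hx with ⟨_ | p, hx⟩
    · rw [eB x hx, hh.lev i x hx hi]
    · rw [eN p x hx]
      cases hsi : side i with
      | false =>
        rw [S.eq_of_mem (hsi.trans p.2.1.symm) hi hx.1]; exact (hβ1 p x hx).1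
      | true =>
        rw [S.eq_of_mem (hsi.trans p.2.2.symm) hi hx.2]; exact (hβ1 p x hx).2

end P073.H880
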