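import Vale.Agent.P073.H880.Eq2

/-!
# P073, H880: equivalence of systems of fibred sheets, extension over the sheets
-/

open Set Metric Topology Filter

namespace P073.H880

open P073 P073.H936 P073.H341

variable {E G : Type*} [NormedAddCommGroup E] [NormedSpace ℝ E]
  [NormedAddCommGroup G] [NormedSpace ℝ G]
  {ι : Type*} {side : ι → Bool} {C B : Set E} {D N : ι → Set E} {s : ι → E → ℝ}
  {C' B' : Set G} {D' N' : ι → Set G} {s' : ι → G → ℝ}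

/-- the sheets of the other side -/
noncomputable def oth [Fintype ι] (side : ι → Bool) (i : ι) : Finset ι := by
  classical exact Finset.univ.filter fun k => side i ≠ side k

theorem mem_oth [Fintype ι] {i k : ι} : k ∈ oth side i ↔ side i ≠ side k := by
  classical
  simp [oth]

/-- moving along a fibre -/
theorem FSys.pr_mem_iff (S : FSys side C B D N s) {i k : ι} (h : side i ≠ side k) {x : E}
    (hx : x ∈ N i) : ((S.F i).pr x ∈ N k ↔ x ∈ N k) ∧ (x ∈ N k → s k ((S.F i).pr x) = s k x) := by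
  refine ⟨⟨fun hk => ?_, fun hk => ((S.pres i k h).pr_mem hx hk).1⟩,
    fun hk => ((S.pres i k h).pr_mem hx hk).2⟩
  have h1 := S.pres i k h ((S.F i).pr x) ((S.F i).pr_mem hx) 0 zero_mem_LI (s i x)
    ((S.F i).lev_mem hx) (by rw [(S.F i).zero _ ((S.F i).pr_mem hx)]; exact hk)
  rw [(S.F i).pr_eq hx] at h1
  exact h1.1

theorem FSys.mem_W0_iff (S : FSys side C B D N s) {i : ι} {x : E} (hx : x ∈ N i) :
    x ∈ W0 side B N ↔ x ∈ B ∨ ∃ k, side i ≠ side k ∧ x ∈ N k := by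
  rw [mem_W0]
  refine or_congr Iff.rfl ⟨?_, ?_⟩
  · rintro ⟨a, b, ha, hb, hxa, hxb⟩
    cases hi : side i with
    | false => exact ⟨b, by rw [hb]; decide, hxb⟩
    | true => exact ⟨a, by rw [ha]; decide, hxa⟩
  · rintro ⟨k, hk, hxk⟩
    cases hi : side i with
    | false =>
      refine ⟨i, k, hi, ?_, hx, hxk⟩
      rw [hi] at hk
      cases h : side k with
      | false => rw [h] at hk; exact absurd rfl hk
      | true => rfl
    | true =>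
      refine ⟨k, i, ?_, hi, hxk, hx⟩
      rw [hi] at hk
      cases h : side k with
      | false => rfl
      | true => rw [h] at hk; exact absurd rfl hk

theorem FSys.D_sub_N (S : FSys side C B D N s) (i : ι) : D i ⊆ N i := (S.F i).sub

theorem FSys.thick_eq [Fintype ι] (S : FSys side C B D N s) (i : ι) :
    thick (D i ∩ B) (oth side i) (fun k => D i ∩ N k) = D i ∩ W0 side B N := by
  ext x
  rw [mem_thick]
  constructor
  · rintro (⟨hx, hB⟩ | ⟨k, hk, hx, hxk⟩)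
    · exact ⟨hx, (S.mem_W0_iff (S.D_sub_N i hx)).2 (Or.inl hB)⟩
    · exact ⟨hx, (S.mem_W0_iff (S.D_sub_N i hx)).2 (Or.inr ⟨k, mem_oth.1 hk, hxk⟩)⟩
  · rintro ⟨hx, hW⟩
    rcases (S.mem_W0_iff (S.D_sub_N i hx)).1 hW with hB | ⟨k, hk, hxk⟩
    · exact Or.inl ⟨hx, hB⟩
    · exact Or.inr ⟨k, mem_oth.2 hk, hx, hxk⟩

theorem FSys.pr_mem_W0 (S : FSys side C B D N s) {i : ι} {x : E} (hx : x ∈ N i) :
    (S.F i).pr x ∈ W0 side B N ↔ x ∈ W0 side B N := by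
  rw [S.mem_W0_iff hx, S.mem_W0_iff (S.D_sub_N i ((S.F i).pr_mem hx)), (S.bd i).pr_iff hx]
  refine or_congr Iff.rfl (exists_congr fun k => ?_)
  constructor
  · rintro ⟨h, hk⟩; exact ⟨h, (S.pr_mem_iff h hx).1.1 hk⟩
  · rintro ⟨h, hk⟩; exact ⟨h, (S.pr_mem_iff h hx).1.2 hk⟩

theorem FSys.image_W0 (S : FSys side C B D N s) (i : ι) :
    (S.F i).Γ.toFun '' ((D i ∩ W0 side B N) ×ˢ LI) = N i ∩ W0 side B N := by
  ext x
  constructor
  · rintro ⟨⟨z, t⟩, ⟨hz, ht⟩, rfl⟩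
    have h1 := (S.F i).mem_N hz.1 ht
    refine ⟨h1, ?_⟩
    rw [← S.pr_mem_W0 h1, (S.F i).pr_apply hz.1 ht]
    exact hz.2
  · rintro ⟨hx, hW⟩
    exact ⟨((S.F i).pr x, s i x), ⟨⟨(S.F i).pr_mem hx, (S.pr_mem_W0 hx).2 hW⟩,
      (S.F i).lev_mem hx⟩, (S.F i).pr_eq hx⟩

theorem exists_sheetEq [Fintype ι] (S : FSys side C B D N s) (S' : FSys side C' B' D' N' s')
    (Ψ : ConHomeo (W0 side B N) (W0 side B' N'))
    (hB : ∀ x ∈ W0 side B N, (Ψ.toFun x ∈ B' ↔ x ∈ B))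
    (hN : ∀ i, ∀ x ∈ W0 side B N, (Ψ.toFun x ∈ N' i ↔ x ∈ N i))
    (hs : ∀ i, ∀ x ∈ W0 side B N, x ∈ N i → s' i (Ψ.toFun x) = s i x) (i : ι) :
    ∃ Φ : ConHomeo (N i) (N' i), (∀ x ∈ N i, s' i (Φ.toFun x) = s i x) ∧
      ∀ x ∈ N i, x ∈ W0 side B N → Φ.toFun x = Ψ.toFun x := by
  have cW : ConicalSet (W0 side B N) := Ψ.conicalSet_left
  have cW' : ConicalSet (W0 side B' N') := Ψ.conicalSet_right
  have cT : ConicalSet ((D i ∩ W0 side B N) ×ˢ LI : Set (E × ℝ)) :=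
    ((S.F i).conicalSet_D.inter cW).prod LI_conical
  have cT' : ConicalSet ((D' i ∩ W0 side B' N') ×ˢ LI : Set (G × ℝ)) :=
    ((S'.F i).conicalSet_D.inter cW').prod LI_conical
  have cN : ConicalSet (N i ∩ W0 side B N) := (S.F i).Γ.conicalSet_right.inter cW
  have imN : Ψ.toFun '' (N i ∩ W0 side B N) = N' i ∩ W0 side B' N' := by
    ext y
    constructor
    · rintro ⟨x, hx, rfl⟩
      exact ⟨(hN i x hx.2).2 hx.1, Ψ.mapsTo hx.2⟩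
    · rintro ⟨hy, hyW⟩
      have h1 := Ψ.mapsTo_inv hyW
      have h2 := Ψ.right_inv hyW
      exact ⟨Ψ.invFun y, ⟨(hN i _ h1).1 (by rw [h2]; exact hy), h1⟩, h2⟩
  let g1 : ConHomeo ((D i ∩ W0 side B N) ×ˢ LI) (N i ∩ W0 side B N) :=
    ((S.F i).Γ.restr cT (prod_mono inter_subset_left Subset.rfl)).cast rfl (S.image_W0 i)
  let g2 : ConHomeo (N i ∩ W0 side B N) (N' i ∩ W0 side B' N') :=
    (Ψ.restr cN inter_subset_right).cast rfl imN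
  let g3 : ConHomeo ((D' i ∩ W0 side B' N') ×ˢ LI) (N' i ∩ W0 side B' N') :=
    ((S'.F i).Γ.restr cT' (prod_mono inter_subset_left Subset.rfl)).cast rfl (S'.image_W0 i)
  let χ : ConHomeo ((D i ∩ W0 side B N) ×ˢ LI) ((D' i ∩ W0 side B' N') ×ˢ LI) :=
    g1.trans (g2.trans g3.symm)
  have hχ : ∀ z ∈ D i ∩ W0 side B N, ∀ t ∈ LI, (S.F i).Γ.toFun (z, t) ∈ N i ∩ W0 side B N ∧
      Ψ.toFun ((S.F i).Γ.toFun (z, t)) ∈ N' i ∧
      (χ.toFun (z, t)).1 = (S'.F i).pr (Ψ.toFun ((S.F i).Γ.toFun (z, t))) ∧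
      (χ.toFun (z, t)).2 = t ∧
      (S'.F i).Γ.toFun (χ.toFun (z, t)) = Ψ.toFun ((S.F i).Γ.toFun (z, t)) := by
    intro z hz t ht
    have h1 : (S.F i).Γ.toFun (z, t) ∈ N i ∩ W0 side B N := g1.mapsTo ⟨hz, ht⟩
    have h2 : Ψ.toFun ((S.F i).Γ.toFun (z, t)) ∈ N' i := (hN i _ h1.2).2 h1.1
    have h3 : χ.toFun (z, t) = (S'.F i).Γ.invFun (Ψ.toFun ((S.F i).Γ.toFun (z, t))) := rfl
    refine ⟨h1, h2, by rw [h3]; rfl, ?_, ?_⟩
    · rw [h3, (S'.F i).inv_eq h2]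
      show s' i (Ψ.toFun ((S.F i).Γ.toFun (z, t))) = t
      rw [hs i _ h1.2 h1.1, (S.F i).lev z hz.1 t ht]
    · rw [h3]; exact (S'.F i).Γ.right_inv h2
  have hlev : IsLev χ := fun p hp => (hχ p.1 hp.1 p.2 hp.2).2.2.2.1
  -- the boundary and the strips correspond
  have corB : ∀ z ∈ D i ∩ W0 side B N, ∀ t ∈ LI, ((χ.toFun (z, t)).1 ∈ B' ↔ z ∈ B) := by
    intro z hz t ht
    obtain ⟨h1, h2, h3, -, -⟩ := hχ z hz t ht
    rw [h3, (S'.bd i).pr_iff h2, hB _ h1.2, S.bd i z hz.1 t ht]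
  have corN : ∀ k, side i ≠ side k → ∀ z ∈ D i ∩ W0 side B N, ∀ t ∈ LI,
      ((χ.toFun (z, t)).1 ∈ N' k ↔ z ∈ N k) ∧ (z ∈ N k → s' k (χ.toFun (z, t)).1 = s k z) := by
    intro k hk z hz t ht
    obtain ⟨h1, h2, h3, -, -⟩ := hχ z hz t ht
    have h4 := S'.pr_mem_iff hk h2
    have h5 := S.pr_mem_iff hk h1.1
    rw [(S.F i).pr_apply hz.1 ht] at h5
    constructor
    · rw [h3, h4.1, hN k _ h1.2, h5.1]
    · intro hzk
      have h6 := h5.1.1 hzk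
      rw [h3, h4.2 ((hN k _ h1.2).2 h6), hs k _ h1.2 h6, h5.2 h6]
  have eT := S.thick_eq i
  have eT' := S'.thick_eq i
  set χ' : ConHomeo (thick (D i ∩ B) (oth side i) (fun k => D i ∩ N k) ×ˢ LI)
      (thick (D' i ∩ B') (oth side i) (fun k => D' i ∩ N' k) ×ˢ LI) :=
    χ.cast (by rw [eT]) (by rw [eT']) with hχ'
  have hlev' : IsLev χ' := by
    intro p hp
    rw [eT] at hp
    exact hlev p hp
  have gen : ∀ (X : Set E) (Y : Set G), X ⊆ D i ∩ W0 side B N → Y ⊆ D' i ∩ W0 side B' N' →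
      (∀ z ∈ D i ∩ W0 side B N, ∀ t ∈ LI, ((χ.toFun (z, t)).1 ∈ Y ↔ z ∈ X)) →
      χ'.toFun '' (X ×ˢ LI) = Y ×ˢ LI := by
    intro X Y hX hY hc
    refine image_of_cor_level hlev' (by rw [eT]; exact hX) (by rw [eT']; exact hY) ?_
    rintro x hx y ⟨t, ht, rfl⟩
    rw [eT] at hx
    exact hc x hx t ht
  have hsubN : ∀ k, side i ≠ side k → D i ∩ N k ⊆ D i ∩ W0 side B N := fun k hk x hx =>
    ⟨hx.1, (S.mem_W0_iff (S.D_sub_N i hx.1)).2 (Or.inr ⟨k, hk, hx.2⟩)⟩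
  have hsubN' : ∀ k, side i ≠ side k → D' i ∩ N' k ⊆ D' i ∩ W0 side B' N' := fun k hk x hx =>
    ⟨hx.1, (S'.mem_W0_iff (S'.D_sub_N i hx.1)).2 (Or.inr ⟨k, hk, hx.2⟩)⟩
  have mD' : ∀ z ∈ D i ∩ W0 side B N, ∀ t ∈ LI, (χ.toFun (z, t)).1 ∈ D' i := fun z hz t ht =>
    (χ.mapsTo (show (z, t) ∈ (D i ∩ W0 side B N) ×ˢ LI from ⟨hz, ht⟩)).1.1
  have hfc : ∀ k, side i ≠ side k → ∀ c : ℝ, χ'.toFun '' (face (D i ∩ N k) (s k) c ×ˢ LI) =
      face (D' i ∩ N' k) (s' k) c ×ˢ LI := by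
    intro k hk c
    refine gen _ _ (face_sub.trans (hsubN k hk)) (face_sub.trans (hsubN' k hk)) ?_
    intro z hz t ht
    obtain ⟨h1, h2⟩ := corN k hk z hz t ht
    constructor
    · rintro ⟨⟨-, hy⟩, hc⟩
      have hzk := h1.1 hy
      exact ⟨⟨hz.1, hzk⟩, (h2 hzk).symm.trans hc⟩
    · rintro ⟨⟨-, hy⟩, hc⟩
      exact ⟨⟨mD' z hz t ht, h1.2 hy⟩, (h2 hy).trans hc⟩
  obtain ⟨Φ, hΦl, hΦe⟩ := exists_extend_level cutP_one cutP_one (ioDP 2)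
    (S.tfam_strip i (oth side i) fun k hk => mem_oth.1 hk)
    (S'.tfam_strip i (oth side i) fun k hk => mem_oth.1 hk) χ' hlev'
    (gen _ _ (fun x hx => ⟨hx.1, (S.mem_W0_iff (S.D_sub_N i hx.1)).2 (Or.inl hx.2)⟩)
      (fun x hx => ⟨hx.1, (S'.mem_W0_iff (S'.D_sub_N i hx.1)).2 (Or.inl hx.2)⟩)
      fun z hz t ht => ⟨fun h => ⟨hz.1, (corB z hz t ht).1 h.2⟩,
        fun h => ⟨mD' z hz t ht, (corB z hz t ht).2 h.2⟩⟩)
    (fun k hk => gen _ _ (hsubN k (mem_oth.1 hk)) (hsubN' k (mem_oth.1 hk)) fun z hz t ht =>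
      ⟨fun h => ⟨hz.1, (corN k (mem_oth.1 hk) z hz t ht).1.1 h.2⟩,
        fun h => ⟨mD' z hz t ht, (corN k (mem_oth.1 hk) z hz t ht).1.2 h.2⟩⟩)
    (fun k hk => hfc k (mem_oth.1 hk) _) (fun k hk => hfc k (mem_oth.1 hk) _)
  refine ⟨(S.F i).Γ.symm.trans (Φ.trans (S'.F i).Γ), ?_, ?_⟩
  · intro x hx
    have h1 := (S.F i).Γ.mapsTo_inv hx
    have h2 := Φ.mapsTo h1
    show s' i ((S'.F i).Γ.toFun (Φ.toFun ((S.F i).Γ.invFun x))) = s i x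
    have h3 := (S'.F i).lev _ h2.1 _ h2.2
    simp only [Prod.mk.eta] at h3
    rw [h3, hΦl _ h1, (S.F i).inv_eq hx]
  · intro x hx hW
    have h1 : ((S.F i).pr x, s i x) ∈ (D i ∩ W0 side B N) ×ˢ LI :=
      ⟨⟨(S.F i).pr_mem hx, (S.pr_mem_W0 hx).2 hW⟩, (S.F i).lev_mem hx⟩
    show (S'.F i).Γ.toFun (Φ.toFun ((S.F i).Γ.invFun x)) = Ψ.toFun x
    rw [(S.F i).inv_eq hx, hΦe (by rw [eT]; exact h1)]
    show (S'.F i).Γ.toFun (χ.toFun ((S.F i).pr x, s i x)) = Ψ.toFun x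
    rw [(hχ _ h1.1 _ h1.2).2.2.2.2, (S.F i).pr_eq hx]

end P073.H880
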