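import Vale.Agent.P073.H880.Eq3

/-!
# P073, H880: equivalence of systems of fibred sheets

Two systems of fibred sheets (two families, every pair of sheets of different families meets in one
arc block) whose traces on the boundary spheres correspond are equivalent, with exact levels.
-/

open Set Metric Topology Filter

namespace P073.H880

open P073 P073.H936 P073.H341

variable {E G : Type*} [NormedAddCommGroup E] [NormedSpace ℝ E]
  [NormedAddCommGroup G] [NormedSpace ℝ G]
  {ι : Type*} {side : ι → Bool} {C B : Set E} {D N : ι → Set E} {s : ι → E → ℝ}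
  {C' B' : Set G} {D' N' : ι → Set G} {s' : ι → G → ℝ}

/-- the sheets of one side -/
noncomputable def fam [Fintype ι] (side : ι → Bool) (X : Bool) : Finset ι := by
  classical exact Finset.univ.filter fun k => side k = X

theorem mem_fam [Fintype ι] {X : Bool} {k : ι} : k ∈ fam side X ↔ side k = X := by
  classical
  simp [fam]

theorem mem_W0_of_mem {i j : ι} (h : side i ≠ side j) {x : E} (hi : x ∈ N i) (hj : x ∈ N j) :
    x ∈ W0 side B N := by
  rw [mem_W0]
  right
  cases h1 : side i <;> cases h2 : side j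
  · rw [h1, h2] at h; exact absurd rfl h
  · exact ⟨i, j, h1, h2, hi, hj⟩
  · exact ⟨j, i, h2, h1, hj, hi⟩
  · rw [h1, h2] at h; exact absurd rfl h

/-- the skeleton as a union -/
def W1f (side : ι → Bool) (B : Set E) (N : ι → Set E) : Option ι → Set E
  | none => W0 side B N
  | some i => N i

theorem skel_eq [Fintype ι] : skel B (fam side false) N (fam side true) N =
    ⋃ o, W1f side B N o := by
  ext x
  rw [mem_skel, mem_iUnion, Option.exists]
  simp only [W1f, mem_W0, mem_fam]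
  constructor
  · rintro (h | ⟨k, -, h⟩ | ⟨k, -, h⟩)
    · exact Or.inl (Or.inl h)
    · exact Or.inr ⟨k, h⟩
    · exact Or.inr ⟨k, h⟩
  · rintro ((h | ⟨i, j, hi, -, hx, -⟩) | ⟨k, h⟩)
    · exact Or.inl h
    · exact Or.inr (Or.inl ⟨i, hi, hx⟩)
    · cases hk : side k with
      | false => exact Or.inr (Or.inl ⟨k, hk, h⟩)
      | true => exact Or.inr (Or.inr ⟨k, hk, h⟩)

theorem FSys.closed_W1f [Finite ι] (S : FSys side C B D N s) (o : Option ι) :
    IsClosed (W1f side B N o) := by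
  cases o with
  | none => exact isClosed_iUnion_of_finite S.closed_W0f
  | some i => exact (S.isCompact_N i).isClosed

/-- **Equivalence of systems of fibred sheets.** -/
theorem FSys.exists_equiv [Fintype ι] (S : FSys side C B D N s) (S' : FSys side C' B' D' N' s')
    {h : ConHomeo B B'} (hh : BEq N s N' s' h)
    (hcr : ∀ i j, side i = false → side j = true → ∀ a b : ℝ, (a = -1 ∨ a = 1) →
      (b = -1 ∨ b = 1) → Crosses C' (face (N' i) (s' i) a) (face (N' j) (s' j) b)) :
    ∃ Φ : ConHomeo C C', EqOn Φ.toFun h.toFun B ∧ (∀ i, Φ.toFun '' N i = N' i) ∧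
      ∀ i, ∀ x ∈ N i, s' i (Φ.toFun x) = s i x := by
  obtain ⟨Ψ, hΨh, hΨB, hΨN, hΨs⟩ := exists_W0 S S' hh
  have hsh := fun i => exists_sheetEq S S' Ψ hΨB hΨN hΨs i
  choose φ hφs hφW using hsh
  let θ : ∀ o, ConHomeo (W1f side B N o) (W1f side B' N' o) := fun o =>
    match o with
    | none => Ψ
    | some i => φ i
  have hag : ∀ o o', EqOn (θ o).toFun (θ o').toFun (W1f side B N o ∩ W1f side B N o') := by
    rintro (_ | i) (_ | j) x ⟨hx, hx'⟩
    · rfl
    · exact (hφW j x hx' hx).symm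
    · exact hφW i x hx hx'
    · by_cases hij : side i = side j
      · have e := S.eq_of_mem hij hx hx'
        subst e; rfl
      · have hW : x ∈ W0 side B N := mem_W0_of_mem hij hx hx'
        exact (hφW i x hx hW).trans (hφW j x hx' hW).symm
  have back : ∀ y ∈ W0 side B' N', Ψ.invFun y ∈ W0 side B N ∧ Ψ.toFun (Ψ.invFun y) = y ∧
      ∀ i, y ∈ N' i → Ψ.invFun y ∈ N i := by
    intro y hy
    have h1 := Ψ.mapsTo_inv hy
    have h2 := Ψ.right_inv hy
    exact ⟨h1, h2, fun i hi => (hΨN i _ h1).1 (by rw [h2]; exact hi)⟩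
  have himg : ∀ o o', W1f side B' N' o ∩ W1f side B' N' o' ⊆
      (θ o).toFun '' (W1f side B N o ∩ W1f side B N o') := by
    rintro (_ | i) (_ | j) y ⟨hy, hy'⟩
    · exact ⟨_, ⟨Ψ.mapsTo_inv hy, Ψ.mapsTo_inv hy⟩, Ψ.right_inv hy⟩
    · obtain ⟨h1, h2, h3⟩ := back y hy
      exact ⟨_, ⟨h1, h3 j hy'⟩, h2⟩
    · obtain ⟨h1, h2, h3⟩ := back y hy'
      exact ⟨_, ⟨h3 i hy, h1⟩, (hφW i _ (h3 i hy) h1).trans h2⟩
    · by_cases hij : side i = side j
      · have e := S'.eq_of_mem hij hy hy'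
        subst e
        exact ⟨_, ⟨(φ i).mapsTo_inv hy, (φ i).mapsTo_inv hy⟩, (φ i).right_inv hy⟩
      · obtain ⟨h1, h2, h3⟩ := back y (mem_W0_of_mem hij hy hy')
        exact ⟨_, ⟨h3 i hy, h3 j hy'⟩, (hφW i _ (h3 i hy) h1).trans h2⟩
  obtain ⟨Θ, hΘ⟩ := ConHomeo.exists_glue_family (RelLF.of_finite S.closed_W1f)
    (RelLF.of_finite S'.closed_W1f) θ hag himg
  have eW : ∀ x ∈ W0 side B N, Θ.toFun x = Ψ.toFun x := fun x hx => (hΘ none).1 hx
  have eN : ∀ i, ∀ x ∈ N i, Θ.toFun x = (φ i).toFun x := fun i x hx => (hΘ (some i)).1 hx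
  have BW : ∀ x ∈ B, x ∈ W0 side B N := fun x hx => mem_W0.2 (Or.inl hx)
  have eB : ∀ x ∈ B, Θ.toFun x = h.toFun x := fun x hx => (eW x (BW x hx)).trans (hΨh hx)
  have iB : Θ.toFun '' B = B' := by
    rw [EqOn.image_eq (show EqOn Θ.toFun h.toFun B from eB), h.image_eq]
  have iface : ∀ i, ∀ c : ℝ, Θ.toFun '' face (N i) (s i) c = face (N' i) (s' i) c := by
    intro i c
    ext y
    constructor
    · rintro ⟨x, ⟨hx, hxc⟩, rfl⟩
      rw [eN i x hx]
      exact ⟨(φ i).mapsTo hx, (hφs i x hx).trans hxc⟩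
    · rintro ⟨hy, hyc⟩
      have h1 := (φ i).mapsTo_inv hy
      have h2 := (φ i).right_inv hy
      refine ⟨(φ i).invFun y, ⟨h1, ?_⟩, (eN i _ h1).trans h2⟩
      rw [← hφs i _ h1, h2, hyc]
  have hs1 : skel B (fam side false) N (fam side true) N = ⋃ o, W1f side B N o := skel_eq
  have hs2 : skel B' (fam side false) N' (fam side true) N' = ⋃ o, W1f side B' N' o := skel_eq
  obtain ⟨Φ, hΦ⟩ := exists_extend_thick (n := 1) cutP_two' cutP_two' cutP_one cutP_one (ioDP 3)
    (S.ttwo (fam side false) (fam side true) (fun k hk => mem_fam.1 hk) fun k hk => mem_fam.1 hk)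
    (S'.ttwo (fam side false) (fam side true) (fun k hk => mem_fam.1 hk) fun k hk => mem_fam.1 hk)
    (by
      intro k hk l hl a b _
      have h1 := hcr k l (mem_fam.1 hk) (mem_fam.1 hl)
      cases a <;> cases b
      · exact h1 _ _ (Or.inl rfl) (Or.inl rfl)
      · exact h1 _ _ (Or.inl rfl) (Or.inr rfl)
      · exact h1 _ _ (Or.inr rfl) (Or.inl rfl)
      · exact h1 _ _ (Or.inr rfl) (Or.inr rfl))
    hs1.symm hs2.symm Θ iB (fun k _ => iface k _) (fun k _ => iface k _)
    (fun k _ => iface k _) (fun k _ => iface k _)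
  have NW : ∀ i, ∀ x ∈ N i, x ∈ ⋃ o, W1f side B N o := fun i x hx => mem_iUnion.2 ⟨some i, hx⟩
  refine ⟨Φ, ?_, ?_, ?_⟩
  · intro x hx
    rw [hΦ (mem_iUnion.2 ⟨none, BW x hx⟩), eB x hx]
  · intro i
    rw [EqOn.image_eq (show EqOn Φ.toFun (φ i).toFun (N i) from fun x hx =>
      (hΦ (NW i x hx)).trans (eN i x hx)), (φ i).image_eq]
  · intro i x hx
    rw [hΦ (NW i x hx), eN i x hx, hφs i x hx]

end P073.H880
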