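import Vale.Agent.P073.H142.K3Dy
import Vale.Agent.P073.H936.K3Vert
import Vale.Agent.P073.H267.Glue3

/-!
# P073, H880: [HOOK], the box theorem in all boxes of one round
-/

open Set Metric Topology Filter
open scoped ENNReal

namespace P073.H880

open P073 P073.H936 P073.H936.K3 P073.H142

/-- the data of one target box of a round: bands of one or two coordinates, and the names of the
cells to be redrawn -/
structure HBox where
  ι : Type
  [fin : Fintype ι]
  Q : Type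
  side : ι → Bool
  ax : Bool → Fin 3
  lo : Fin 3 → ℝ
  hi : Fin 3 → ℝ
  c : ι → ℝ
  w : ι → ℝ

attribute [instance] HBox.fin

variable {E : Type} [NormedAddCommGroup E] [NormedSpace ℝ E] {Ω : Set E} {Λ : Set (Fin 3 → ℝ)}

namespace HBox

/-- the target box -/
def P (X : HBox) : Set (Fin 3 → ℝ) := Icc X.lo X.hi

/-- the domain of the box -/
def U (X : HBox) (h : ConHomeo Ω Λ) : Set E := h.invFun '' X.P

/-- the conditions on one box: the cells are in the interior of the box, and their boundaries are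
invariant under moves inside the bands -/
structure In (X : HBox) (h : ConHomeo Ω Λ) where
  H : Bands X.side X.ax X.lo X.hi X.c X.w
  sub : X.P ⊆ Λ
  K : Cells X.Q (X.U h) (h.invFun '' frontier X.P)
  hK : ∀ q, BandInv X.side X.ax X.c X.w (X.U h) h.toFun (frontier (K.C q))

variable {X : HBox} {h : ConHomeo Ω Λ}

theorem isCompact_P (X : HBox) : IsCompact X.P := isCompact_Icc

theorem locCone_P (X : HBox) : LocCone X.P := locCone_Icc_pi _ _

theorem mem_U (I : X.In h) {x : E} (hx : x ∈ Ω) : x ∈ X.U h ↔ h.toFun x ∈ X.P := by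
  constructor
  · rintro ⟨y, hy, rfl⟩
    rw [h.right_inv (I.sub hy)]; exact hy
  · intro hy
    exact ⟨_, hy, h.left_inv hx⟩

theorem U_sub (I : X.In h) : X.U h ⊆ Ω := by
  rintro _ ⟨y, hy, rfl⟩
  exact h.mapsTo_inv (I.sub hy)

/-- the homeomorphism restricted to the box -/
noncomputable def In.h₀ (I : X.In h) : ConHomeo (X.U h) (Icc X.lo X.hi) :=
  (h.symm.restr X.locCone_P.conicalSet I.sub).symm

theorem In.h₀_toFun (I : X.In h) : I.h₀.toFun = h.toFun := rfl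

theorem In.h₀_invFun (I : X.In h) : I.h₀.invFun = h.invFun := rfl

/-- **the box theorem applies** -/
noncomputable def In.boxK (I : X.In h) (hΩ : IsOpen Ω) :
    BoxK X.side X.ax X.lo X.hi X.c X.w (X.U h) X.Q where
  H := I.H
  h := I.h₀
  hU := by
    intro x hx hxf
    have hxΩ := U_sub I hx
    have h1 : h.toFun x ∈ interior X.P := by
      by_contra hn
      exact hxf ⟨subset_closure ((mem_U I hxΩ).1 hx), hn⟩
    have h2 : ContinuousAt h.toFun x := h.cont.continuousAt (hΩ.mem_nhds hxΩ)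
    filter_upwards [h2 (isOpen_interior.mem_nhds h1), hΩ.mem_nhds hxΩ] with y hy hyΩ
    exact (mem_U I hyΩ).2 (interior_subset hy)
  K := I.K
  hK := I.hK

end HBox

/-- `h'` is `h` with replacements in the boxes -/
structure Glued {γ : Type*} (X : γ → HBox) (h h' : ConHomeo Ω Λ) : Prop where
  off : ∀ x ∈ Ω, (∀ b, h.toFun x ∉ interior (X b).P) → h'.toFun x = h.toFun x
  off_inv : ∀ y ∈ Λ, (∀ b, y ∉ interior (X b).P) → h'.invFun y = h.invFun y
  mem : ∀ b, ∀ x ∈ Ω, (h'.toFun x ∈ (X b).P ↔ h.toFun x ∈ (X b).P)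
  dist : ∀ b, ∀ x ∈ Ω, h.toFun x ∈ (X b).P → dist (h'.toFun x) (h.toFun x) ≤ diam (X b).P

/-- **[HOOK]**: replacement in all boxes of a round -/
theorem exists_glued {γ : Type*} (hΩ : IsOpen Ω) (hΛ : IsOpen Λ) (h : ConHomeo Ω Λ)
    (X : γ → HBox) (I : ∀ b, (X b).In h)
    (hfin : ∀ z ∈ Λ, ∃ O ∈ 𝓝 z, {b | ((X b).P ∩ O).Nonempty}.Finite)
    (hdis : ∀ b b', b ≠ b' → Disjoint (interior (X b).P) (X b').P)
    (G : ∀ b, ConHomeo ((X b).U h) (Icc (X b).lo (X b).hi) → Prop)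
    (hG : ∀ b, ∃ g, G b g ∧ EqOn g.toFun h.toFun (h.invFun '' frontier (X b).P)) :
    ∃ h' : ConHomeo Ω Λ, Glued X h h' ∧
      ∀ b, ∃ g : ConHomeo ((X b).U h) (Icc (X b).lo (X b).hi), G b g ∧
        EqOn h'.toFun g.toFun ((X b).U h) ∧ EqOn h'.invFun g.invFun (X b).P := by
  choose g hg1 hg2 using hG
  obtain ⟨h', h1, h2, h3, h4, h5, h6, -⟩ := H267.exists_glue_boxes hΩ hΛ h
    (fun b => (X b).isCompact_P) (fun b => (I b).sub) (fun b => (X b).locCone_P) hfin hdis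
    (fun b => g b) (fun b x hx hf => by
      obtain ⟨y, hy, rfl⟩ := hx
      rw [h.right_inv ((I b).sub hy)] at hf
      exact hg2 b ⟨y, hf, rfl⟩)
  exact ⟨h', ⟨h3, h4, h5, h6⟩, fun b => ⟨g b, hg1 b, h1 b, h2 b⟩⟩

/-- **[HOOK] for plates** (two families) -/
theorem exists_hook_switched {γ : Type*} (hΩ : IsOpen Ω) (hΛ : IsOpen Λ) (h : ConHomeo Ω Λ)
    (X : γ → HBox) (I : ∀ b, (X b).In h)
    (hfin : ∀ z ∈ Λ, ∃ O ∈ 𝓝 z, {b | ((X b).P ∩ O).Nonempty}.Finite)
    (hdis : ∀ b b', b ≠ b' → Disjoint (interior (X b).P) (X b').P)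
    (r : γ → ℝ) (h0 : ∀ b, 0 < r b) (h1 : ∀ b, r b < 1) :
    ∃ h' : ConHomeo Ω Λ, Glued X h h' ∧
      ∀ b, ∃ g : ConHomeo ((X b).U h) (Icc (X b).lo (X b).hi),
        ((I b).boxK hΩ).Switched (r b) g ∧
        EqOn h'.toFun g.toFun ((X b).U h) ∧ EqOn h'.invFun g.invFun (X b).P := by
  refine exists_glued hΩ hΛ h X I hfin hdis (fun b g => ((I b).boxK hΩ).Switched (r b) g)
    fun b => ?_
  obtain ⟨g, hg⟩ := ((I b).boxK hΩ).exists_switched (h0 b) (h1 b)
  exact ⟨g, hg, hg.bd⟩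

/-- **[HOOK] for tubes** (one family) -/
theorem exists_hook_tube {γ : Type*} (hΩ : IsOpen Ω) (hΛ : IsOpen Λ) (h : ConHomeo Ω Λ)
    (X : γ → HBox) (I : ∀ b, (X b).In h)
    (hfin : ∀ z ∈ Λ, ∃ O ∈ 𝓝 z, {b | ((X b).P ∩ O).Nonempty}.Finite)
    (hdis : ∀ b b', b ≠ b' → Disjoint (interior (X b).P) (X b').P)
    (hone : ∀ b i j, (X b).side i = (X b).side j) :
    ∃ h' : ConHomeo Ω Λ, Glued X h h' ∧
      ∀ b, ∃ g : ConHomeo ((X b).U h) (Icc (X b).lo (X b).hi), ((I b).boxK hΩ).Tube g ∧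
        EqOn h'.toFun g.toFun ((X b).U h) ∧ EqOn h'.invFun g.invFun (X b).P := by
  refine exists_glued hΩ hΛ h X I hfin hdis (fun b g => ((I b).boxK hΩ).Tube g) fun b => ?_
  obtain ⟨g, hg⟩ := ((I b).boxK hΩ).exists_tube (hone b)
  exact ⟨g, hg, hg.bd⟩

end P073.H880
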