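import Vale.Agent.P073.H880.Hook1

/-!
# P073, H880: [HOOK], metric clauses for passive sets
-/

open Set Metric Topology Filter
open scoped ENNReal

namespace P073.H880

open P073 P073.H936 P073.H936.K3 P073.H142

/-! ### the sum of clipped levels -/

/-- the projection to `[c - w, c + w]` -/
theorem mul_clp_eq {c w t : ℝ} (hw : 0 < w) :
    w * clp 1 ((t - c) / w) = max (c - w) (min t (c + w)) - c := by
  unfold clp
  rw [mul_max_of_nonneg _ _ hw.le, mul_min_of_nonneg _ _ hw.le, mul_div_cancel₀ _ hw.ne',
    ← max_sub_sub_right, ← min_sub_sub_right]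
  congr 1
  · ring
  · congr 1
    ring

theorem proj_sub_le {c w s t : ℝ} (hw : 0 < w) (hst : s ≤ t) :
    max (c - w) (min t (c + w)) - max (c - w) (min s (c + w)) ≤
      max 0 (min (c + w) t - max (c - w) s) := by
  rcases le_total t (c - w) with h1 | h1
  · rw [max_eq_left (a := c - w) ((min_le_left _ _).trans h1),
      max_eq_left (a := c - w) ((min_le_left _ _).trans (hst.trans h1)), sub_self]
    exact le_max_left _ _
  · rcases le_total (c + w) s with h2 | h2
    · rw [min_eq_right (a := t) (h2.trans hst), min_eq_right (a := s) h2, sub_self]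
      exact le_max_left _ _
    · refine le_trans ?_ (le_max_right _ _)
      rw [min_comm t, min_eq_left (a := s) h2, max_eq_right (a := c - w)
        (le_min (by linarith) h1)]

/-- **the sum of the clipped levels of disjoint bands** -/
theorem sum_clp_le {ι : Type*} (T : Finset ι) {c w : ι → ℝ} (hw : ∀ i ∈ T, 0 < w i)
    (hdis : ∀ i ∈ T, ∀ j ∈ T, i ≠ j → w i + w j < |c i - c j|) (s t : ℝ) :
    ∑ i ∈ T, w i * |clp 1 ((t - c i) / w i) - clp 1 ((s - c i) / w i)| ≤ |t - s| := by
  wlog hst : s ≤ t generalizing s t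
  · have := this t s (le_of_not_ge hst)
    rw [abs_sub_comm t s]
    simp_rw [abs_sub_comm (clp 1 ((t - c _) / w _))]
    exact this
  rw [abs_of_nonneg (sub_nonneg.2 hst)]
  have hpd : (T : Set ι).PairwiseDisjoint fun i => Icc (c i - w i) (c i + w i) ∩ Icc s t := by
    intro i hi j hj hij
    rw [Function.onFun, Set.disjoint_left]
    rintro x ⟨hx, -⟩ ⟨hx', -⟩
    have h1 := hdis i hi j hj hij
    rcases abs_cases (c i - c j) with ⟨h2, -⟩ | ⟨h2, -⟩
    · linarith [hx.1, hx'.2]
    · linarith [hx.2, hx'.1]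
  have hmeas := MeasureTheory.measure_biUnion_finset (μ := MeasureTheory.volume) hpd
    fun i _ => measurableSet_Icc.inter measurableSet_Icc
  have hle : ∑ i ∈ T, MeasureTheory.volume (Icc (c i - w i) (c i + w i) ∩ Icc s t) ≤
      ENNReal.ofReal (t - s) := by
    rw [← hmeas, ← Real.volume_Icc]
    exact MeasureTheory.measure_mono (iUnion₂_subset fun i _ => inter_subset_right)
  rw [← ENNReal.ofReal_le_ofReal_iff (sub_nonneg.2 hst), ENNReal.ofReal_sum_of_nonneg
    fun i hi => mul_nonneg (hw i hi).le (abs_nonneg _)]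
  refine le_trans (Finset.sum_le_sum fun i hi => ?_) hle
  have hwi := hw i hi
  rw [Icc_inter_Icc, Real.volume_Icc, ← abs_of_pos hwi, ← abs_mul, abs_of_pos hwi, mul_sub,
    mul_clp_eq hwi, mul_clp_eq hwi, sub_sub_sub_cancel_right, abs_of_nonneg
      (sub_nonneg.2 (max_le_max (le_refl _) (min_le_min hst (le_refl _))))]
  refine (ENNReal.ofReal_le_ofReal (proj_sub_le hwi hst)).trans ?_
  rcases le_total 0 (min (c i + w i) t - max (c i - w i) s) with h | h
  · rw [max_eq_right h]
  · rw [max_eq_left h, ENNReal.ofReal_zero]; exact zero_le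

variable {ι : Type*} [Fintype ι] {side : ι → Bool} {ax : Bool → Fin 3} {lo hi : Fin 3 → ℝ}
  {c w : ι → ℝ}

/-- **the levels are Lipschitz relative to the map** -/
theorem dsum_wlev_le (H : Bands side ax lo hi c w) {E : Type*} {g : E → Fin 3 → ℝ} {A L : ℝ}
    (hL : 0 ≤ L) (hAw : ∀ i, A ≤ L * w i) (x y : E) :
    A * dsum (wlev side ax 1 c w g) x y ≤
      L * ∑ b : Bool, |g y (ax b) - g x (ax b)| := by
  classical
  unfold dsum
  rw [Finset.mul_sum]
  calc ∑ i, A * |wlev side ax 1 c w g i y - wlev side ax 1 c w g i x|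
      ≤ ∑ i, L * (w i * |wlev side ax 1 c w g i y - wlev side ax 1 c w g i x|) := by
        refine Finset.sum_le_sum fun i _ => ?_
        rw [← mul_assoc]
        exact mul_le_mul_of_nonneg_right (hAw i) (abs_nonneg _)
    _ = L * ∑ b : Bool, ∑ i with side i = b,
          w i * |wlev side ax 1 c w g i y - wlev side ax 1 c w g i x| := by
        rw [← Finset.mul_sum, Finset.sum_fiberwise]
    _ ≤ _ := by
        refine mul_le_mul_of_nonneg_left (Finset.sum_le_sum fun b _ => ?_) hL
        refine le_trans (le_of_eq (Finset.sum_congr rfl fun i hi => ?_))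
          (sum_clp_le (Finset.univ.filter fun i => side i = b) (c := c) (w := w)
            (fun i _ => (H.ok i).pos) (fun i hi j hj hij => ?_) (g x (ax b)) (g y (ax b)))
        · rw [Finset.mem_filter] at hi
          simp only [wlev, cl, hi.2]
        · rw [Finset.mem_filter] at hi hj
          exact H.disj i j hij (hi.2.trans hj.2.symm)

end P073.H880
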