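import Vale.Agent.P073.H238.RT1A
import Vale.Agent.P073.H196.LipS
import Vale.Agent.P073.H236.SA3

/-!
# P073, H880: **[LIP-H]**, one Lipschitz number per cell for the output of ROUND T, chosen before the
thin numbers `e` of the staircases (before `σ`)
-/

open Set Metric Topology Filter
open scoped NNReal ENNReal

namespace P073.H880.LH

open _root_.P073 _root_.P073.Net _root_.P073.PA691 _root_.P073.H236 _root_.P073.H579
open _root_.P073.H267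
open _root_.P073.H196 (FixD)
open _root_.P073.H142 (FStar)
open Vale.Agent.P073.St (V)
open Vale.Agent.P073.H471 Vale.Agent.P073.H267 Vale.Agent.P073.H267.Geo
open Vale.Agent.P073.H73 (Mesh)
open Vale.Agent.P073.H193 (Edges)
open Vale.Agent.P073.H304 (In Zmax)
open Vale.Agent.P073.H669 (TLv)
open Vale.Agent.P073.H238.K3 (RTD V0)
open Vale.Agent.P073.H926

/-! ### variable constants -/

/-- **gluing of Lipschitz bounds**, at one point, the constant only sees the boxes of this point -/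
theorem lip_at_glue {γ E : Type*} [NormedAddCommGroup E] {Λ : Set E} {G : E → E} {P : γ → Set E}
    (hP : ∀ b, IsClosed (P b)) (hΛ : IsOpen Λ) (hG : ContinuousOn G Λ) {C : ℝ} (hC : 1 ≤ C)
    (lf : ∀ z ∈ Λ, ∃ U ∈ 𝓝 z, {b | (P b ∩ U).Nonempty}.Finite) {y : E}
    (hbox : ∀ b, y ∈ P b → ∀ z ∈ P b, ‖G z - G y‖ ≤ C * ‖z - y‖)
    (off : ∀ y, (∀ b, y ∉ P b) → G y = y) (hy : y ∈ Λ) :
    ∀ᶠ y' in 𝓝 y, ‖G y' - G y‖ ≤ C * ‖y' - y‖ := by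
  classical
  obtain ⟨U, hU, hfin⟩ := lf y hy
  have hev : ∀ᶠ y' in 𝓝 y, ∀ b, y' ∈ P b → y ∈ P b := by
    have h1 : ∀ b ∈ {b | (P b ∩ U).Nonempty}, ∀ᶠ y' in 𝓝 y, y' ∈ P b → y ∈ P b := by
      intro b _
      by_cases hb : y ∈ P b
      · exact Eventually.of_forall fun _ _ => hb
      · have h2 : (P b)ᶜ ∈ 𝓝 y := (hP b).isOpen_compl.mem_nhds hb
        filter_upwards [h2] with y' hy' hy''
        exact absurd hy'' hy'
    have h2 := (hfin.eventually_all).2 h1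
    filter_upwards [h2, hU] with y' h3 hyU b hb
    exact h3 b ⟨y', hb, hyU⟩ hb
  have hΛy : Λ ∈ 𝓝 y := hΛ.mem_nhds hy
  by_cases hcl : ∀ᶠ y' in 𝓝 y, ∃ b, y' ∈ P b
  · filter_upwards [hev, hcl] with y' h1 ⟨b, hb⟩
    exact hbox b (h1 b hb) y' hb
  · have hfr : ∃ᶠ y' in 𝓝 y, ∀ b, y' ∉ P b := by
      intro hcon
      exact hcl (hcon.mono fun y' h => by push Not at h; exact h)
    have hGy : G y = y := by
      have hc : ContinuousAt G y := hG.continuousAt hΛy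
      by_contra hne
      have h3 : ∀ᶠ y' in 𝓝 y, G y' ≠ y' := by
        have h4 : Tendsto (fun y' => (G y', y')) (𝓝 y) (𝓝 (G y, y)) := hc.prodMk_nhds tendsto_id
        have h5 : {p : E × E | p.1 ≠ p.2} ∈ 𝓝 (G y, y) :=
          (isOpen_ne_fun continuous_fst continuous_snd).mem_nhds hne
        exact h4 h5
      obtain ⟨y', h4, h5⟩ := (hfr.and_eventually h3).exists
      exact h5 (off y' h4)
    filter_upwards [hev] with y' h1
    by_cases hb : ∃ b, y' ∈ P b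
    · obtain ⟨b, hb⟩ := hb
      exact hbox b (h1 b hb) y' hb
    · push Not at hb
      rw [hGy, off y' hb]
      nlinarith [norm_nonneg (y' - y)]

/-- boxes which meet a compact set: finitely many -/
theorem fin_meet {γ : Type*} {Λ : Set V} {P : γ → Set V}
    (lf : ∀ z ∈ Λ, ∃ U ∈ 𝓝 z, {b | (P b ∩ U).Nonempty}.Finite) {X : Set V} (hX : IsCompact X)
    (hXΛ : X ⊆ Λ) : {b | (P b ∩ X).Nonempty}.Finite := by
  choose! U hU hf using lf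
  obtain ⟨t, ht, hcov⟩ := hX.elim_nhds_subcover U fun z hz => hU z (hXΛ hz)
  refine (Set.Finite.biUnion t.finite_toSet fun z hz => hf z (hXΛ (ht z hz))).subset ?_
  rintro b ⟨y, hy, hyX⟩
  obtain ⟨z, hz, hyz⟩ := mem_iUnion₂.1 (hcov hyX)
  exact mem_iUnion₂.2 ⟨z, hz, y, hy, hyz⟩

variable {Ω Λ : Set V} {M : Mesh Ω}

/-- **one Lipschitz number per cell** for all compositions `S ∘ g`, `S` with Lipschitz constants
`Cb b` on the boxes `P b` -/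
theorem exists_lip_cells {γ : Type*} (hΩ : IsOpen Ω) (hΛ : IsOpen Λ) (M : Mesh Ω)
    (g : ConHomeo Ω Λ) {P : γ → Set V} (hP : ∀ b, IsClosed (P b))
    (lf : ∀ z ∈ Λ, ∃ U ∈ 𝓝 z, {b | (P b ∩ U).Nonempty}.Finite) (Cb : γ → ℝ) :
    ∃ Lh : M.ι → ℝ, (∀ i, 0 ≤ Lh i) ∧ ∀ S : ConHomeo Λ Λ,
      (∀ b, ∀ y ∈ P b, ∀ z ∈ P b, ‖S.toFun z - S.toFun y‖ ≤ Cb b * ‖z - y‖) →
      (∀ y, (∀ b, y ∉ P b) → S.toFun y = y) →
      ∀ i, ∀ x ∈ M.Q i, ∀ y ∈ M.Q i,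
        ‖S.toFun (g.toFun x) - S.toFun (g.toFun y)‖ ≤ Lh i * ‖x - y‖ := by
  classical
  have key : ∀ i : M.ι, ∃ L : ℝ, 0 ≤ L ∧ ∀ S : ConHomeo Λ Λ,
      (∀ b, ∀ y ∈ P b, ∀ z ∈ P b, ‖S.toFun z - S.toFun y‖ ≤ Cb b * ‖z - y‖) →
      (∀ y, (∀ b, y ∉ P b) → S.toFun y = y) → ∀ x ∈ M.Q i, ∀ y ∈ M.Q i,
        ‖S.toFun (g.toFun x) - S.toFun (g.toFun y)‖ ≤ L * ‖x - y‖ := by
    intro i
    obtain ⟨Lg, hLg, hg⟩ := H196.exists_lip_near hΩ g (M.poly i).cpt (M.sub i)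
    have hcpt : IsCompact (g.toFun '' M.Q i) :=
      (M.poly i).cpt.image_of_continuousOn (g.cont.mono (M.sub i))
    have hsub : g.toFun '' M.Q i ⊆ Λ := by
      rintro _ ⟨x, hx, rfl⟩
      exact g.mapsTo (M.sub i hx)
    have hfin := fin_meet lf hcpt hsub
    set C : ℝ := 1 + ∑ b ∈ hfin.toFinset, |Cb b| with hCdef
    have hC : 1 ≤ C := by
      have : 0 ≤ ∑ b ∈ hfin.toFinset, |Cb b| := Finset.sum_nonneg fun _ _ => abs_nonneg _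
      linarith
    refine ⟨C * Lg, by positivity, fun S hS hoff => ?_⟩
    refine H142.lip_of_local (g := fun x => S.toFun (g.toFun x)) (Vale.Agent.P073.H926.convex_poly (M.poly i))
      fun x hx => ?_
    have hy : g.toFun x ∈ Λ := hsub ⟨x, hx, rfl⟩
    have h1 : ∀ᶠ y' in 𝓝 (g.toFun x), ‖S.toFun y' - S.toFun (g.toFun x)‖ ≤
        C * ‖y' - g.toFun x‖ := by
      refine lip_at_glue hP hΛ S.cont hC lf (fun b hb z hz => ?_) hoff hy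
      refine (hS b _ hb z hz).trans (mul_le_mul_of_nonneg_right ?_ (norm_nonneg _))
      have h2 : |Cb b| ≤ ∑ b ∈ hfin.toFinset, |Cb b| :=
        Finset.single_le_sum (f := fun b => |Cb b|) (fun _ _ => abs_nonneg _)
          (hfin.mem_toFinset.2 ⟨_, hb, x, hx, rfl⟩)
      linarith [le_abs_self (Cb b)]
    have h2 : Tendsto g.toFun (𝓝[M.Q i] x) (𝓝 (g.toFun x)) :=
      (g.cont.continuousAt (hΩ.mem_nhds (M.sub i hx))).tendsto.mono_left nhdsWithin_le_nhds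
    filter_upwards [h2.eventually h1, (hg x hx).filter_mono nhdsWithin_le_nhds] with y h3 h4
    calc ‖S.toFun (g.toFun y) - S.toFun (g.toFun x)‖ ≤ C * ‖g.toFun y - g.toFun x‖ := h3
      _ ≤ C * (Lg * ‖y - x‖) := mul_le_mul_of_nonneg_left h4 (by linarith)
      _ = C * Lg * ‖y - x‖ := by ring
  choose Lh h0 h1 using key
  exact ⟨Lh, h0, fun S hS hoff i => h1 i S hS hoff⟩


/-- the same with one more map, locally Lipschitz with constant `A` -/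
theorem exists_lip_cells2 {γ : Type*} (hΩ : IsOpen Ω) (hΛ : IsOpen Λ) (M : Mesh Ω)
    (g : ConHomeo Ω Λ) {P : γ → Set V} (hP : ∀ b, IsClosed (P b))
    (lf : ∀ z ∈ Λ, ∃ U ∈ 𝓝 z, {b | (P b ∩ U).Nonempty}.Finite) (Cb : γ → ℝ) {A : ℝ}
    (hA : 0 ≤ A) :
    ∃ Lh : M.ι → ℝ, (∀ i, 0 ≤ Lh i) ∧ ∀ S Ψ : ConHomeo Λ Λ,
      (∀ b, ∀ y ∈ P b, ∀ z ∈ P b, ‖S.toFun z - S.toFun y‖ ≤ Cb b * ‖z - y‖) →
      (∀ y, (∀ b, y ∉ P b) → S.toFun y = y) →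
      (∀ y ∈ Λ, ∀ᶠ z in 𝓝 y, ‖Ψ.toFun z - Ψ.toFun y‖ ≤ A * ‖z - y‖) →
      ∀ i, ∀ x ∈ M.Q i, ∀ y ∈ M.Q i,
        ‖Ψ.toFun (S.toFun (g.toFun x)) - Ψ.toFun (S.toFun (g.toFun y))‖ ≤ Lh i * ‖x - y‖ := by
  obtain ⟨Lh, h0, h1⟩ := exists_lip_cells hΩ hΛ M g hP lf Cb
  refine ⟨fun i => A * Lh i, fun i => mul_nonneg hA (h0 i), fun S Ψ hS hoff hΨ i => ?_⟩
  have h2 := h1 S hS hoff i
  refine H142.lip_of_local (g := fun x => Ψ.toFun (S.toFun (g.toFun x)))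
    (Vale.Agent.P073.H926.convex_poly (M.poly i)) fun x hx => ?_
  have hxΩ := M.sub i hx
  have h3 : Tendsto (fun y => S.toFun (g.toFun y)) (𝓝[M.Q i] x) (𝓝 (S.toFun (g.toFun x))) := by
    have h4 : Tendsto g.toFun (𝓝 x) (𝓝 (g.toFun x)) :=
      (g.cont.continuousAt (hΩ.mem_nhds hxΩ)).tendsto
    have h5 : Tendsto S.toFun (𝓝 (g.toFun x)) (𝓝 (S.toFun (g.toFun x))) :=
      (S.cont.continuousAt (hΛ.mem_nhds (g.mapsTo hxΩ))).tendsto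
    exact (h5.comp h4).mono_left nhdsWithin_le_nhds
  filter_upwards [h3.eventually (hΨ _ (S.mapsTo (g.mapsTo hxΩ))), self_mem_nhdsWithin]
    with y h4 hy
  calc ‖Ψ.toFun (S.toFun (g.toFun y)) - Ψ.toFun (S.toFun (g.toFun x))‖
      ≤ A * ‖S.toFun (g.toFun y) - S.toFun (g.toFun x)‖ := h4
    _ ≤ A * (Lh i * ‖y - x‖) := mul_le_mul_of_nonneg_left (h2 y hy x hx) hA
    _ = A * Lh i * ‖y - x‖ := by ring

/-! ### the staircases of ROUND T -/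

section rts

variable {v : V} {K : BoxCx Λ v} {S₀ : Rad K} {Wd : Wid K S₀} {B : Boxes Wd}
  {G : Geo B} {E : Edges M} {h h' : ConHomeo Ω Λ} {ω : TBx K → ℝ}
  {T : TBx K → Finset (ℝ × ℝ)} {η : ℝ} {τ : Type*} {A : τ → Set V} {C : Set ℝ} {εE : E.ε → ℝ}
  {δ : TBx K → ℝ} {L : TLv G E h ω T η A C εE δ} {G₀ : Set (TBx K)}
  {c : TBx K → ℝ} {hc0 : ∀ b, 0 < c b} {hc : ∀ b, c b ≤ δ b / 8}
  {e : TBx K → ℝ} {he : ∀ b, 0 < e b} {he2 : ∀ b, 2 * e b < δ b}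
  {V₀ : G₀ → Finset ℝ}
  {X : FixD (F1 L hc0 hc he he2 G₀) V₀} {Hα H₁ Tf : ConHomeo Λ Λ}

/-- the pair estimate, constant independent of the thin number `e` -/
theorem abs_ph_sub_le' (N : SNum X) (b : G₀) (y y' : V) :
    |ph X b y (y b.1.ax) - ph X b y' (y' b.1.ax)| ≤
      (δ b.1 / c b.1 + 35) * ‖y - y'‖ := by
  have h1 := abs_ph_sub_le_fl N b y y' (y b.1.ax) (y' b.1.ax)
  have h2 := hgtA_lip (L := L) (hc0 := hc0) (hc := hc) (N.hω b) y y'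
  have h3 := hgt1_lip (L := L) (hc0 := hc0) (hc := hc) (he := he) (he2 := he2) (N.hω b) y y'
  have h4 : |y b.1.ax - y' b.1.ax| ≤ ‖y - y'‖ := by
    have := norm_le_pi_norm (y - y') b.1.ax
    rwa [Pi.sub_apply, Real.norm_eq_abs] at this
  have hsep : Sepd (thk L b.1).lvs.L (c b.1) := by
    have h5 := (thk L b.1).lvs.sepd
    intro a ha a' ha' haa
    have h6 := h5 a ha a' ha' haa
    have h7 := hc b.1
    change a + 2 * (δ b.1 / 8) ≤ a' - 2 * (δ b.1 / 8) at h6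
    linarith
  have h5 := H196.sum_abs_fl_le (hc0 b.1).le hsep (y b.1.ax) (y' b.1.ax)
  have hc1 := hc0 b.1
  have he1 := he b.1
  have h6 : 2 * ((δ b.1 - 2 * e b.1) / (2 * c b.1) *
      ∑ a ∈ (thk L b.1).lvs.L, |fl (c b.1) a (y b.1.ax) - fl (c b.1) a (y' b.1.ax)|) ≤
      δ b.1 / c b.1 * ‖y - y'‖ := by
    have h7 : (δ b.1 - 2 * e b.1) / (2 * c b.1) ≤ δ b.1 / (2 * c b.1) := by
      gcongr
      linarith
    have hδ := L.δ0 b.1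
    calc 2 * ((δ b.1 - 2 * e b.1) / (2 * c b.1) *
        ∑ a ∈ (thk L b.1).lvs.L, |fl (c b.1) a (y b.1.ax) - fl (c b.1) a (y' b.1.ax)|)
        ≤ 2 * (δ b.1 / (2 * c b.1) * ‖y - y'‖) := by
          refine mul_le_mul_of_nonneg_left ?_ (by norm_num)
          exact mul_le_mul h7 (h5.trans h4) (Finset.sum_nonneg fun _ _ => abs_nonneg _)
            (by positivity)
      _ = δ b.1 / c b.1 * ‖y - y'‖ := by
          field_simp
  linarith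

/-- **the staircase is Lipschitz on the boxes, constant independent of `e`** -/
theorem rts_lip (H : RTS L hc0 hc he he2 X Hα H₁ Tf) (N : SNum X) (b : G₀) {y z : V}
    (hy : y ∈ rtK G ω b.1 60) (hz : z ∈ rtK G ω b.1 60) :
    ‖((Hα.trans H₁).trans Tf).toFun z - ((Hα.trans H₁).trans Tf).toFun y‖ ≤
      (δ b.1 / c b.1 + 35) * ‖z - y‖ := by
  have hδ := L.δ0 b.1
  have hc1 := hc0 b.1
  have h0 : 0 ≤ (δ b.1 / c b.1 + 35) * ‖z - y‖ := by positivity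
  rw [H.vrt.on b z hz, H.vrt.on b y hy, pi_norm_le_iff_of_nonneg h0]
  intro i
  by_cases hi : i = b.1.ax
  · subst hi
    rw [Pi.sub_apply, Function.update_self, Function.update_self, Real.norm_eq_abs]
    exact abs_ph_sub_le' N b z y
  · rw [Pi.sub_apply, Function.update_of_ne hi, Function.update_of_ne hi]
    have h1 := norm_le_pi_norm (z - y) i
    rw [Pi.sub_apply] at h1
    have h2 : (1:ℝ) ≤ δ b.1 / c b.1 + 35 := by
      have : 0 ≤ δ b.1 / c b.1 := by positivity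
      linarith
    nlinarith [norm_nonneg (z - y)]

theorem isClosed_rtK (b : TBx K) (u : ℝ) : IsClosed (rtK G ω b u) :=
  H196.isClosed_bigBox b.ax (G.tlo true b b.ax) (G.thi true b b.ax)
    (fun i => G.tlo true b i - u * ω b) fun i => G.thi true b i + u * ω b

/-- **[LIP-H]** -/
theorem exists_liph (hΩ : IsOpen Ω) (hΛ : IsOpen Λ) (g : ConHomeo Ω Λ)
    (L : TLv G E h ω T η A C εE δ) (G₀ : Set (TBx K)) {c : TBx K → ℝ} (hc0 : ∀ b, 0 < c b)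
    (hc : ∀ b, c b ≤ δ b / 8) {B₁ : ℝ} (hB : 0 ≤ B₁) :
    ∃ Lh : M.ι → ℝ, (∀ i, 0 ≤ Lh i) ∧ ∀ (e : TBx K → ℝ) (he : ∀ b, 0 < e b)
      (he2 : ∀ b, 2 * e b < δ b) (V₀ : G₀ → Finset ℝ)
      (X : FixD (F1 L hc0 hc he he2 G₀) V₀) (Hα H₁ Tf Ψ : ConHomeo Λ Λ),
      RTS L hc0 hc he he2 X Hα H₁ Tf → SNum X →
      (∀ y ∈ Λ, ∀ᶠ z in 𝓝 y, ‖Ψ.toFun z - Ψ.toFun y‖ ≤ B₁ * ‖z - y‖) →
      ∀ i, ∀ x ∈ M.Q i, ∀ y ∈ M.Q i,
        ‖(g.trans (((Hα.trans H₁).trans Tf).trans Ψ)).toFun x -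
          (g.trans (((Hα.trans H₁).trans Tf).trans Ψ)).toFun y‖ ≤ Lh i * ‖x - y‖ := by
  obtain ⟨Lh, h0, h1⟩ := exists_lip_cells2 hΩ hΛ M g
    (P := fun b : G₀ => rtK G ω b.1 60) (fun b => isClosed_rtK b.1 60) (lf_rtK L)
    (fun b : G₀ => δ b.1 / c b.1 + 35) hB
  exact ⟨Lh, h0, fun e he he2 V₀ X Hα H₁ Tf Ψ H N hΨ i x hx y hy =>
    h1 ((Hα.trans H₁).trans Tf) Ψ (fun b y hy z hz => rts_lip H N b hy hz)
      (fun y hy => H.vrt.off y hy) hΨ i x hx y hy⟩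

/-- **[LIP-H]**, the staircases only -/
theorem exists_liph0 (hΩ : IsOpen Ω) (hΛ : IsOpen Λ) (g : ConHomeo Ω Λ)
    (L : TLv G E h ω T η A C εE δ) (G₀ : Set (TBx K)) {c : TBx K → ℝ} (hc0 : ∀ b, 0 < c b)
    (hc : ∀ b, c b ≤ δ b / 8) :
    ∃ Lh : M.ι → ℝ, (∀ i, 0 ≤ Lh i) ∧ ∀ (e : TBx K → ℝ) (he : ∀ b, 0 < e b)
      (he2 : ∀ b, 2 * e b < δ b) (V₀ : G₀ → Finset ℝ)
      (X : FixD (F1 L hc0 hc he he2 G₀) V₀) (Hα H₁ Tf : ConHomeo Λ Λ),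
      RTS L hc0 hc he he2 X Hα H₁ Tf → SNum X →
      ∀ i, ∀ x ∈ M.Q i, ∀ y ∈ M.Q i,
        ‖(g.trans ((Hα.trans H₁).trans Tf)).toFun x -
          (g.trans ((Hα.trans H₁).trans Tf)).toFun y‖ ≤ Lh i * ‖x - y‖ := by
  obtain ⟨Lh, h0, h1⟩ := exists_lip_cells hΩ hΛ M g
    (P := fun b : G₀ => rtK G ω b.1 60) (fun b => isClosed_rtK b.1 60) (lf_rtK L)
    (fun b : G₀ => δ b.1 / c b.1 + 35)
  exact ⟨Lh, h0, fun e he he2 V₀ X Hα H₁ Tf H N i x hx y hy =>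
    h1 ((Hα.trans H₁).trans Tf) (fun b y hy z hz => rts_lip H N b hy hz)
      (fun y hy => H.vrt.off y hy) i x hx y hy⟩

/-- maps of `Vrt` form with a pair estimate are locally Lipschitz -/
theorem lip_of_pair {ι : Type*} {j : ι → Fin 3} {al be : ι → ℝ} {lo hi : ι → V}
    {F : V → V} {φ : ι → V → ℝ → ℝ} (H : H196.Vrt F j al be lo hi φ) (hΛ : IsOpen Λ)
    (hF : ContinuousOn F Λ) {B₁ : ℝ} (hB : 1 ≤ B₁)
    (lf : ∀ z ∈ Λ, ∃ U ∈ 𝓝 z,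
      {b | (H196.bigBox (j b) (al b) (be b) (lo b) (hi b) ∩ U).Nonempty}.Finite)
    (hL : ∀ b, ∀ y ∈ H196.bigBox (j b) (al b) (be b) (lo b) (hi b),
      ∀ y' ∈ H196.bigBox (j b) (al b) (be b) (lo b) (hi b),
      |φ b y (y (j b)) - φ b y' (y' (j b))| ≤ B₁ * ‖y - y'‖) :
    ∀ y ∈ Λ, ∀ᶠ z in 𝓝 y, ‖F z - F y‖ ≤ B₁ * ‖z - y‖ := fun _ hy =>
  H.local_lip hΛ hF hB lf hL hy

end rts

end P073.H880.LH
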