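import Vale.Agent.P073.H880.Out2

/-!
# P073, H880: metric bookkeeping of the full switch, the local inequality
-/

open Set Metric Topology Filter

namespace P073.H880

open P073 P073.H936 P073.H341 P073.H669

section clip

variable {E : Type*} [TopologicalSpace E]

/-- clipping at `±r` -/
noncomputable def clp (r t : ℝ) : ℝ := max (-r) (min t r)

theorem clp_of_le {r t : ℝ} (h : |t| ≤ r) : clp r t = t := by
  obtain ⟨h1, h2⟩ := abs_le.1 h
  rw [clp, min_eq_left h2, max_eq_right h1]

theorem abs_clp_of_ge {r t : ℝ} (h0 : 0 < r) (h : r ≤ |t|) : |clp r t| = r := by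
  rcases le_abs.1 h with h1 | h1
  · rw [clp, min_eq_right h1, max_eq_right (by linarith), abs_of_pos h0]
  · rw [clp, min_eq_left (by linarith), max_eq_left (by linarith), abs_neg, abs_of_pos h0]

theorem abs_clp_le {r t : ℝ} (h0 : 0 < r) : |clp r t| ≤ r := by
  rw [abs_le]
  exact ⟨le_max_left _ _, max_le (by linarith) (min_le_right _ _)⟩

theorem continuous_clp (r : ℝ) : Continuous (clp r) := by
  unfold clp; fun_prop

/-- near a point, a clipped level changes only inside its sheet -/
theorem eventually_clip {C B : Set E} {w : E → ℝ} {r : ℝ} (h0 : 0 < r) (hB : IsClosed B)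
    (hw : ContinuousOn w C) (h1 : ∀ x ∈ C, |w x| ≤ r) (h2 : ∀ x ∈ C, x ∉ B → |w x| = r)
    {x : E} (hx : x ∈ C) : ∀ᶠ y in 𝓝[C] x, (x ∈ B ∧ y ∈ B) ∨ w y = w x := by
  have hc : Tendsto w (𝓝[C] x) (𝓝 (w x)) := hw x hx
  have hsmall : ∀ δ : ℝ, 0 < δ → ∀ᶠ y in 𝓝[C] x, |w y - w x| < δ := by
    intro δ hδ
    have := hc.eventually (Metric.ball_mem_nhds (w x) hδ)
    filter_upwards [this] with y hy
    rwa [Real.dist_eq] at hy
  by_cases hxB : x ∈ B
  · rcases (h1 x hx).lt_or_eq with h | h
    · filter_upwards [hsmall (r - |w x|) (by linarith), self_mem_nhdsWithin] with y hy hyC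
      left
      refine ⟨hxB, ?_⟩
      by_contra hyB
      have h3 := h2 y hyC hyB
      have h4 : |w y| ≤ |w y - w x| + |w x| := by
        have := abs_add_le (w y - w x) (w x)
        simpa using this
      linarith
    · filter_upwards [hsmall r h0, self_mem_nhdsWithin] with y hy hyC
      by_cases hyB : y ∈ B
      · exact Or.inl ⟨hxB, hyB⟩
      · right
        have h3 := h2 y hyC hyB
        obtain ⟨a1, a2⟩ := abs_lt.1 hy
        rcases (abs_eq h0.le).1 h3 with h4 | h4 <;> rcases (abs_eq h0.le).1 h with h5 | h5 <;>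
          rw [h4, h5] at a1 a2 ⊢ <;> linarith
  · have hxr := h2 x hx hxB
    have hn : ∀ᶠ y in 𝓝[C] x, y ∉ B := nhdsWithin_le_nhds (hB.isOpen_compl.mem_nhds hxB)
    filter_upwards [hsmall r h0, self_mem_nhdsWithin, hn] with y hy hyC hyB
    right
    have h3 := h2 y hyC hyB
    obtain ⟨a1, a2⟩ := abs_lt.1 hy
    rcases (abs_eq h0.le).1 h3 with h4 | h4 <;> rcases (abs_eq h0.le).1 hxr with h5 | h5 <;>
      rw [h4, h5] at a1 a2 ⊢ <;> linarith

/-- near a point of a finite union of closed sets, only the sets containing it matter -/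
theorem eventually_pieces {J : Type*} [Finite J] {P : J → Set E} (hP : ∀ j, IsClosed (P j)) (x : E) :
    ∀ᶠ y in 𝓝 x, ∀ j, y ∈ P j → x ∈ P j := by
  rw [eventually_all]
  intro j
  by_cases hx : x ∈ P j
  · exact Eventually.of_forall fun y _ => hx
  · filter_upwards [(hP j).isOpen_compl.mem_nhds hx] with y hy hy'
    exact absurd hy' hy

end clip

variable {ι E G : Type*} [NormedAddCommGroup E] [NormedSpace ℝ E] [NormedAddCommGroup G]
  [NormedSpace ℝ G] {V : VFam ι E} {r : ℝ} {L : LamData V.swData}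

/-- the change of the level of a sheet between two points of it -/
noncomputable def chg (N : Set E) (s : E → ℝ) (x y : E) : ℝ := by
  classical exact if x ∈ N ∧ y ∈ N then |s y - s x| else 0

omit [NormedAddCommGroup E] [NormedSpace ℝ E] in
theorem chg_nonneg (N : Set E) (s : E → ℝ) (x y : E) : 0 ≤ chg N s x y := by
  classical
  unfold chg
  split_ifs
  · exact abs_nonneg _
  · exact le_refl _

omit [NormedAddCommGroup E] [NormedSpace ℝ E] in
theorem chg_eq {N : Set E} {s : E → ℝ} {x y : E} (hx : x ∈ N) (hy : y ∈ N) :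
    chg N s x y = |s y - s x| := by
  classical
  unfold chg
  rw [if_pos ⟨hx, hy⟩]

/-- the total change of the levels of all sheets -/
noncomputable def tot [Fintype ι] (N : ι → Set E) (s : ι → E → ℝ) (x y : E) : ℝ :=
  ∑ m, chg (N m) (s m) x y

omit [NormedAddCommGroup E] [NormedSpace ℝ E] in
theorem le_tot [Fintype ι] {N : ι → Set E} {s : ι → E → ℝ} {x y : E} {m : ι} (hx : x ∈ N m)
    (hy : y ∈ N m) : |s m y - s m x| ≤ tot N s x y := by
  rw [← chg_eq hx hy]
  exact Finset.single_le_sum (f := fun m => chg (N m) (s m) x y)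
    (fun m _ => chg_nonneg _ _ _ _) (Finset.mem_univ m)

omit [NormedAddCommGroup E] [NormedSpace ℝ E] in
theorem add_le_tot [Fintype ι] {N : ι → Set E} {s : ι → E → ℝ} {x y : E} {m n : ι} (hmn : m ≠ n)
    (hx : x ∈ N m) (hy : y ∈ N m) (hx' : x ∈ N n) (hy' : y ∈ N n) :
    |s m y - s m x| + |s n y - s n x| ≤ tot N s x y := by
  classical
  rw [← chg_eq hx hy, ← chg_eq hx' hy', ← Finset.sum_pair (f := fun m => chg (N m) (s m) x y) hmn]
  exact Finset.sum_le_sum_of_subset_of_nonneg (Finset.subset_univ _)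
    fun m _ _ => chg_nonneg _ _ _ _

/-- the pieces of the new sheets -/
def pc [Finite ι] (L : LamData V.swData) (r : ℝ) :
    (ι ⊕ (V.Circ × Bool)) ⊕ (V.Circ × Bool) → Set E
  | Sum.inl n => L.PP r n
  | Sum.inr d => L.Jc r d.1 d.2

theorem isClosed_pc [Finite ι] (h0 : 0 < r) (h1 : r < 1) (j) : IsClosed (pc L r j) := by
  rcases j with n | d
  · exact (L.doors h0 h1).P_closed n
  · obtain ⟨ψ, -⟩ := (L.doors h0 h1).J_collar d
    exact (ψ.isCompact_right ((isCompact_sphere _ _).prod
      (isCompact_Icc.prod isCompact_Icc))).isClosed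

theorem sh_ne (c : V.Circ) (X : Bool) : V.swData.sh c X ≠ V.swData.sh c (!X) := by
  intro h
  have h5 := congrArg V.side h
  have e1 : V.side (V.swData.sh c X) = X := V.swData.sh_side c X
  have e2 : V.side (V.swData.sh c (!X)) = !X := V.swData.sh_side c (!X)
  rw [e1, e2] at h5
  cases X <;> simp at h5

/-- one sheet: the change of the new level between two nearby points -/
theorem eventually_piece [Fintype ι] (O : SwOut V.swData L r) (h0 : 0 < r) (h1 : r < 1) (x : E) :
    ∀ᶠ y in 𝓝 x, ∀ i, x ∈ O.B i → y ∈ O.B i → |O.b i y - O.b i x| ≤ tot V.N V.s x y := by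
  filter_upwards [eventually_pieces (P := pc L r) (isClosed_pc h0 h1) x] with y hy i hx hyB
  obtain ⟨m, hm, h | ⟨d, hd, h⟩⟩ := (O.B_eq i y).1 hyB
  · have hx' : x ∈ L.PP r m := hy (Sum.inl m) h
    rw [O.level_P i m hm y h, O.level_P i m hm x hx', ← mul_sub, abs_mul]
    have hσ : |O.σ i m| = 1 := by rcases O.sign i m with h | h <;> rw [h] <;> norm_num
    rw [hσ, one_mul]
    exact le_tot (s := V.s) hx'.1 h.1
  · have hx' : x ∈ L.Jc r d.1 d.2 := hy (Sum.inr d) h
    have hdV : L.out d ∈ O.V i := by rw [hd]; exact hm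
    rw [O.level_J i d hdV y h, O.level_J i d hdV x hx', ← mul_sub, abs_mul]
    have hσ : |O.σ i (L.out d)| = 1 := by
      rcases O.sign i (L.out d) with h | h <;> rw [h] <;> norm_num
    rw [hσ, one_mul]
    have hK1 := SwData.K_sub (D := V.swData) d.1 d.2
    have hK2 := SwData.K_sub (D := V.swData) d.1 (!d.2)
    have h2 := add_le_tot (s := V.s) (N := V.N) (sh_ne d.1 d.2) (hK1 hx'.1) (hK1 h.1)
      (hK2 hx'.1) (hK2 h.1)
    refine le_trans ?_ h2
    have e : L.beta d.1 d.2 y - L.beta d.1 d.2 x =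
        (V.s (V.swData.sh d.1 d.2) y - V.s (V.swData.sh d.1 d.2) x) -
        L.eps d.1 d.2 * L.eps d.1 (!d.2) *
          (V.s (V.swData.sh d.1 (!d.2)) y - V.s (V.swData.sh d.1 (!d.2)) x) := by
      show (V.s _ y - _ * V.s _ y + _) - (V.s _ x - _ * V.s _ x + _) = _
      ring
    rw [e]
    refine (abs_sub _ _).trans (add_le_add (le_refl _) ?_)
    rw [abs_mul, abs_mul]
    have e1 : |L.eps d.1 d.2| = 1 := by
      rcases LamData.eps_cases (L := L) d.1 d.2 with h | h <;> rw [h] <;> norm_num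
    have e2 : |L.eps d.1 (!d.2)| = 1 := by
      rcases LamData.eps_cases (L := L) d.1 (!d.2) with h | h <;> rw [h] <;> norm_num
    rw [e1, e2, one_mul, one_mul]

/-- the clipped levels after the switch -/
structure Lev [Finite ι] (O : SwOut V.swData L r) (C : Set E) (w : ι → E → ℝ) : Prop where
  cont : ∀ i, ContinuousOn (w i) C
  le : ∀ i, ∀ x ∈ C, |w i x| ≤ r
  off : ∀ i, ∀ x ∈ C, x ∉ O.B i → |w i x| = r
  on : ∀ i, ∀ x ∈ O.B i, w i x = O.b i x

/-- **the local inequality of the full switch** -/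
theorem Lev.eventually_le [Fintype ι] {O : SwOut V.swData L r} {C : Set E} {w : ι → E → ℝ}
    (H : Lev O C w) (h0 : 0 < r) (h1 : r < 1) {x : E} (hx : x ∈ C) :
    ∀ᶠ y in 𝓝[C] x, ∑ i, |w i y - w i x| ≤ tot V.N V.s x y := by
  have hBc : ∀ i, IsClosed (O.B i) := by
    intro i
    have hc : IsCompact {x | x ∈ V.swData.N i ∧ |V.swData.s i x| ≤ r} := by
      have h2 := ((vfib V i).shrink h0 h1.le).isCompact_N (V.ball i).isCompact
      exact h2
    exact ((O.Φ i).symm.isCompact_right hc).isClosed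
  have e1 : ∀ᶠ y in 𝓝[C] x, ∀ i, (x ∈ O.B i ∧ y ∈ O.B i) ∨ w i y = w i x := by
    rw [eventually_all]
    exact fun i => eventually_clip h0 (hBc i) (H.cont i) (H.le i) (H.off i) hx
  filter_upwards [e1, nhdsWithin_le_nhds (eventually_piece O h0 h1 x)] with y hy1 hy2
  classical
  -- the sheets which contain both points
  set T : Finset ι := Finset.univ.filter fun i => x ∈ O.B i ∧ y ∈ O.B i with hT
  have hsum : ∑ i, |w i y - w i x| = ∑ i ∈ T, |O.b i y - O.b i x| := by
    rw [hT, Finset.sum_filter]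
    refine Finset.sum_congr rfl fun i _ => ?_
    by_cases h : x ∈ O.B i ∧ y ∈ O.B i
    · rw [if_pos h, H.on i x h.1, H.on i y h.2]
    · rw [if_neg h, (hy1 i).resolve_left h, sub_self, abs_zero]
  rw [hsum]
  have hmem : ∀ i, i ∈ T ↔ x ∈ O.B i ∧ y ∈ O.B i := fun i => by simp [hT]
  have hside : ∀ i ∈ T, ∀ j ∈ T, i ≠ j → V.side i ≠ V.side j := by
    intro i hi j hj hij h
    exact disjoint_left.1 (O.disj i j hij h) ((hmem i).1 hi).1 ((hmem j).1 hj).1
  rcases T.eq_empty_or_nonempty with hT0 | ⟨i, hi⟩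
  · rw [hT0, Finset.sum_empty]
    exact Finset.sum_nonneg fun m _ => chg_nonneg _ _ _ _
  · by_cases hone : ∃ j ∈ T, i ≠ j
    · obtain ⟨j, hj, hij⟩ := hone
      have hT2 : T = {i, j} := by
        ext k
        rw [Finset.mem_insert, Finset.mem_singleton]
        constructor
        · intro hk
          by_contra hne
          push Not at hne
          have a1 := hside k hk i hi hne.1
          have a2 := hside k hk j hj hne.2
          have a3 := hside i hi j hj hij
          cases h1 : V.side i <;> cases h2 : V.side j <;> cases h3 : V.side k <;> simp_all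
        · rintro (rfl | rfl)
          · exact hi
          · exact hj
      rw [hT2, Finset.sum_pair hij]
      have hs := hside i hi j hj hij
      have hi' := (hmem i).1 hi
      have hj' := (hmem j).1 hj
      rw [(Phi_eq O hs hi'.1 hj'.1).2.2, (Phi_eq O hs hi'.2 hj'.2).2.2,
        (Phi_eq O hs.symm hj'.1 hi'.1).2.2, (Phi_eq O hs.symm hj'.2 hi'.2).2.2]
      obtain ⟨-, a2, a3, -, -⟩ := (mem_inter O hs).1 ⟨hi'.1, hj'.1⟩
      obtain ⟨-, b2, b3, -, -⟩ := (mem_inter O hs).1 ⟨hi'.2, hj'.2⟩
      exact add_le_tot (s := V.s) hij a2 b2 a3 b3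
    · push Not at hone
      have hT1 : T = {i} := by
        ext k
        rw [Finset.mem_singleton]
        constructor
        · intro hk; exact (hone k hk).symm
        · rintro rfl; exact hi
      rw [hT1, Finset.sum_singleton]
      exact hy2 i ((hmem i).1 hi).1 ((hmem i).1 hi).2

end P073.H880
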