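import Vale.Agent.P073.H880.Box1
import Vale.Agent.P073.H142.Asm2

/-!
# P073, H880: the total change of the levels of the sheets with caps
-/

open Set Metric Topology Filter
open scoped ENNReal

namespace P073.H880

open P073 P073.H936 P073.H341 P073.H669

section local_cost

variable {ι E : Type*} [NormedAddCommGroup E] [NormedSpace ℝ E] {V : VFam ι E} {r : ℝ}
  {L : LamData V.swData}

/-- **the variation of the new levels along a curve**, with a local bound of the cost -/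
theorem Lev.cvar_le_of_local [Fintype ι] {O : SwOut V.swData L r} {C : Set E} {w : ι → E → ℝ}
    (H : Lev O C w) (h0 : 0 < r) (h1 : r < 1) {γ : ℝ → E} {a b : ℝ}
    (hγ : ContinuousOn γ (Icc a b)) {Z : Set E} (hC : MapsTo γ (Icc a b) Z) (hZ : Z ⊆ C)
    {c : E → E → ℝ} (hc : ∀ x y, c x y = c y x)
    (hloc : ∀ x ∈ Z, ∀ᶠ y in 𝓝[Z] x, tot V.N V.s x y ≤ c x y) :
    cvar (fun s t => ENNReal.ofReal (dsum w (γ s) (γ t))) a b ≤
      cvar (fun s t => ENNReal.ofReal (c (γ s) (γ t))) a b := by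
  rcases le_or_gt a b with hab | hab
  swap
  · refine cvar_le_iff.2 fun n u hu h => ?_
    exact absurd ((h 0).1.trans (h 0).2) (not_le.2 hab)
  set d : ℝ → ℝ → ℝ≥0∞ := fun s t => ENNReal.ofReal (c (γ s) (γ t)) with hd
  refine P073.H880.cvar_le_of_le (μ := fun s t => cvar d s t) hab ?_ ?_
  · intro s hs t ht hst
    refine cost_le_of_local (c := fun s t => ENNReal.ofReal (dsum w (γ s) (γ t)))
      (μ := fun s t => cvar d s t) (a := a) (b := b) ?_ ?_ ?_ ?_ hs ht hst
    · intro s _ m _ t _ hsm hmt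
      exact cvar_add_le hsm hmt
    · intro t
      simp [dsum_self]
    · intro s _ m _ t _ _ _
      rw [← ENNReal.ofReal_add (dsum_nonneg _ _ _) (dsum_nonneg _ _ _)]
      exact ENNReal.ofReal_le_ofReal (dsum_triangle _ _ _ _)
    · intro t ht
      have h2 : Tendsto γ (𝓝[Icc a b] t) (𝓝[Z] (γ t)) := by
        refine tendsto_nhdsWithin_iff.2 ⟨hγ t ht, ?_⟩
        filter_upwards [self_mem_nhdsWithin] with s hs using hC hs
      have h3 := (H.eventually_dsum_le h0 h1 (hZ (hC ht))).filter_mono (nhdsWithin_mono _ hZ)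
      filter_upwards [h2.eventually (h3.and (hloc _ (hC ht)))] with s hs
      have h4 := hs.1.trans hs.2
      refine ⟨fun hts => ?_, fun hst => ?_⟩
      · exact (ENNReal.ofReal_le_ofReal h4).trans (le_cvar hts)
      · refine le_trans (ENNReal.ofReal_le_ofReal ?_) (le_cvar hst)
        rw [dsum_comm, hc]; exact h4
  · intro s _ m _ t _ hsm hmt
    exact cvar_add_le hsm hmt

end local_cost

section old

variable {ι E : Type*} [Fintype ι] {side : ι → Bool} {ax : Bool → Fin 3} {c w : ι → ℝ}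

/-- the total change of the levels of the bands of a map -/
theorem tot_le_wlev {N : ι → Set E} {s : ι → E → ℝ} {g : E → Fin 3 → ℝ} (hw : ∀ m, 0 < w m)
    (hN : ∀ m, ∀ x ∈ N m, |g x (ax (side m)) - c m| ≤ w m)
    (hs : ∀ m, ∀ x ∈ N m, s m x = (g x (ax (side m)) - c m) / w m) (x y : E) :
    tot N s x y ≤ dsum (wlev side ax 1 c w g) x y := by
  refine tot_le_dsum fun m hx hy => ?_
  have key : ∀ x ∈ N m, wlev side ax 1 c w g m x = s m x := by
    intro x hx
    rw [hs m x hx]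
    show clp 1 ((g x (ax (side m)) - c m) / w m) = _
    refine clp_of_le ?_
    rw [abs_div, abs_of_pos (hw m)]
    exact div_le_one_of_le₀ (hN m x hx) (hw m).le
  exact ⟨key x hx, key y hy⟩

end old

section pre

variable {ι Q : Type*} {E : Type} [NormedAddCommGroup E] [NormedSpace ℝ E] (P : H142.Pre ι Q E)

/-- the finite set of the traces of a sheet -/
noncomputable def ks (i : ι) : Finset (P.κ i) :=
  (Set.finite_univ_iff.2 (P.κ_fin i) : (Set.univ : Set (P.κ i)).Finite).toFinset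

theorem mem_ks (i : ι) (c : P.κ i) : c ∈ ks P i := by simp [ks]

/-- the total change of the levels of the caps of a sheet in a cell -/
noncomputable def csum (q : Q) (i : ι) (x y : E) : ℝ := by
  classical
  exact ∑ c ∈ ks P i, if P.cell i c = q then chg (P.Δ i c) (P.sΔ i c) x y else 0

theorem csum_nonneg (q : Q) (i : ι) (x y : E) : 0 ≤ csum P q i x y := by
  classical
  unfold csum
  refine Finset.sum_nonneg fun c _ => ?_
  split_ifs
  · exact chg_nonneg _ _ _ _
  · exact le_refl _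

/-- one cap of the sheet -/
theorem le_csum {q : Q} {x y : E} {i : ι} {c : P.κ i} (hc : P.cell i c = q)
    (hx : x ∈ P.Δ i c) (hy : y ∈ P.Δ i c) :
    |P.sΔ i c y - P.sΔ i c x| ≤ csum P q i x y := by
  classical
  unfold csum
  have h1 := Finset.single_le_sum (f := fun c => if P.cell i c = q then
    chg (P.Δ i c) (P.sΔ i c) x y else 0) (s := ks P i) (fun c _ => by
      split_ifs
      · exact chg_nonneg _ _ _ _
      · exact le_refl _) (mem_ks P i c)
  rw [if_pos hc, chg_eq hx hy] at h1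
  exact h1

/-- the total change of the levels of all caps of a cell -/
noncomputable def ctot [Fintype ι] (q : Q) (x y : E) : ℝ := ∑ i, csum P q i x y

theorem ctot_nonneg [Fintype ι] (q : Q) (x y : E) : 0 ≤ ctot P q x y :=
  Finset.sum_nonneg fun i _ => csum_nonneg P q i x y

theorem Delta_closed (i : ι) (c : P.κ i) : IsClosed (P.Δ i c) := by
  have h1 : IsCompact (P.Δ₀ i c ×ˢ Icc (-1:ℝ) 1) := (P.cap_ball i c).isCompact.prod isCompact_Icc
  exact ((P.G i c).isCompact_right h1).isClosed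

theorem co_closed (i : ι) : IsClosed (P.co i) := by
  refine isClosed_of_closure_subset fun x hx => ?_
  have h1 : x ∈ P.D i := by
    rw [← (P.ball i).isClosed.closure_eq]
    exact closure_mono (P.co_sub i) hx
  exact (P.sheet i).core_closed h1 hx

theorem PP_closed (i : ι) : IsClosed (P.PP i) := by
  have h1 : IsCompact (P.co i) := (P.ball i).isCompact.of_isClosed_subset (co_closed P i)
    (P.co_sub i)
  exact ((h1.prod isCompact_Icc).image_of_continuousOn ((P.Γ i).cont.mono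
    (prod_mono (P.co_sub i) Subset.rfl))).isClosed

/-- the pieces of the sheets near a point -/
theorem eventually_pre [Fintype ι] (x : E) : ∀ᶠ y in 𝓝 x, ∀ i,
    (y ∈ P.PP i → x ∈ P.PP i) ∧ ∀ c, y ∈ P.Δ i c → x ∈ P.Δ i c := by
  rw [eventually_all]
  intro i
  have := P.κ_fin i
  have h1 := eventually_pieces (P := fun c : P.κ i => P.Δ i c) (fun c => Delta_closed P i c) x
  have h2 := eventually_pieces (P := fun _ : Unit => P.PP i) (fun _ => PP_closed P i) x
  filter_upwards [h1, h2] with y hy1 hy2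
  exact ⟨hy2 (), hy1⟩

theorem Delta_cell {i : ι} {c : P.κ i} {x : E} (hx : x ∈ P.Δ i c) {q : Q} (hq : x ∈ P.V q) :
    P.cell i c = q := by
  by_contra hne
  rcases P.cap_sub i c hx with h | ⟨⟨z, t⟩, ⟨hz, ht⟩, rfl⟩
  · exact disjoint_left.1 (P.V_disj _ _ hne) h hq
  · exact disjoint_left.1 (P.VB q (P.cell i c)) hq
      ((P.vB i _ z (P.γD i c hz) t ht).2 (P.γB i c hz))

/-- a point of a new sheet outside the open cells is in the core part -/
theorem mem_PP_of {i : ι} {x : E} (hx : x ∈ P.N' i) (hV : ∀ q, x ∉ P.V q) : x ∈ P.PP i := by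
  rcases hx with hx | hx
  · exact hx
  · obtain ⟨c, hx⟩ := mem_iUnion.1 hx
    rcases P.cap_sub i c hx with h | h
    · exact absurd h (hV _)
    · exact P.Lat_PP i c c.2 h

/-- the levels on the side of a cap -/
theorem sD_lat {i : ι} {c : P.κ i} {x : E} (hx : x ∈ P.Lat i c) :
    x ∈ P.Δ i c ∧ P.sΔ i c x = P.s i x := by
  obtain ⟨⟨z, t⟩, ⟨hz, ht⟩, rfl⟩ := hx
  have h1 : z ∈ P.Δ₀ i c := (P.cap_ball i c).1 hz
  refine ⟨?_, ?_⟩
  · show (P.Γ i).toFun (z, t) ∈ _
    rw [← P.GΓ i c z hz t ht]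
    exact (P.G i c).mapsTo ⟨h1, ht⟩
  · show P.sΔ i c ((P.Γ i).toFun (z, t)) = P.s i ((P.Γ i).toFun (z, t))
    rw [P.lev i z (P.γD i c hz) t ht, ← P.GΓ i c z hz t ht, P.Gs i c z h1 t ht]

/-- a point of the sheet on the boundary of a cell is in the side of a cap -/
theorem mem_lat {i : ι} {x : E} (hx : x ∈ P.PP i) {q : Q} (hB : x ∈ P.B q) :
    ∃ c, P.cell i c = q ∧ x ∈ P.Lat i c := by
  obtain ⟨⟨z, t⟩, ⟨hz, ht⟩, rfl⟩ := hx
  have h1 := (P.vB i q z hz.1 t ht).1 hB
  obtain ⟨c, hc, hzc⟩ := (P.trace i q z hz.1).1 h1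
  exact ⟨c, hc, ⟨(z, t), ⟨hzc, ht⟩, rfl⟩⟩

/-- **[MET-PRE], cells**: inside a processed cell only the caps of this cell count. -/
theorem tot_le_ctot [Fintype ι] (x : E) : ∀ᶠ y in 𝓝 x, ∀ q, y ∈ P.V q →
    tot P.N' P.s' x y ≤ ctot P q x y := by
  classical
  filter_upwards [eventually_pre P x] with y hy q hq
  unfold tot ctot
  refine Finset.sum_le_sum fun i _ => ?_
  by_cases h : x ∈ P.N' i ∧ y ∈ P.N' i
  · rw [chg_eq h.1 h.2]
    rcases h.2 with h2 | h2
    · exact absurd hq (disjoint_left.1 (P.PP_V i q) h2)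
    · obtain ⟨c, h2⟩ := mem_iUnion.1 h2
      have h3 := (hy i).2 c h2
      rw [P.s'_cap i c h2, P.s'_cap i c h3]
      exact le_csum P (Delta_cell P h2 hq) h3 h2
  · have h1 : chg (P.N' i) (P.s' i) x y = 0 := by unfold chg; rw [if_neg h]
    rw [h1]
    exact csum_nonneg P q i x y

/-- **[MET-PRE], the rest**: outside the processed cells the old levels count. -/
theorem tot_le_old [Fintype ι] (x : E) : ∀ᶠ y in 𝓝 x, (∀ q, y ∉ P.V q) →
    tot P.N' P.s' x y ≤ tot P.N P.s x y := by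
  classical
  filter_upwards [eventually_pre P x] with y hy hq
  unfold tot
  refine Finset.sum_le_sum fun i _ => ?_
  by_cases h : x ∈ P.N' i ∧ y ∈ P.N' i
  · have h2 := mem_PP_of P h.2 hq
    have h3 := (hy i).1 h2
    rw [chg_eq h.1 h.2, P.s'_PP i h2, P.s'_PP i h3, chg_eq (P.PP_N i h3) (P.PP_N i h2)]
  · have h1 : chg (P.N' i) (P.s' i) x y = 0 := by unfold chg; rw [if_neg h]
    rw [h1]
    exact chg_nonneg _ _ _ _

/-- **[MET-PRE], closed cells** -/
theorem tot_le_ctot_closed [Fintype ι] (x : E) : ∀ᶠ y in 𝓝 x, ∀ q, x ∈ P.V q ∪ P.B q →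
    y ∈ P.V q ∪ P.B q → tot P.N' P.s' x y ≤ ctot P q x y := by
  classical
  filter_upwards [eventually_pre P x, tot_le_ctot P x] with y hy hy' q hx hq
  rcases hq with hq | hB
  · exact hy' q hq
  unfold tot ctot
  refine Finset.sum_le_sum fun i _ => ?_
  by_cases h : x ∈ P.N' i ∧ y ∈ P.N' i
  · have h2 : y ∈ P.PP i := mem_PP_of P h.2 fun q' hq' => disjoint_left.1 (P.VB q' q) hq' hB
    have h3 := (hy i).1 h2
    obtain ⟨c, hc, hyc⟩ := mem_lat P h2 hB
    obtain ⟨h4, h5⟩ := sD_lat P hyc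
    have h6 := (hy i).2 c h4
    have h7 : x ∈ P.Lat i c := by
      rcases P.cap_sub i c h6 with h | h
      · exact absurd h (disjoint_left.1 (P.PP_V i _) h3)
      · exact h
    obtain ⟨-, h8⟩ := sD_lat P h7
    rw [chg_eq h.1 h.2, P.s'_PP i h2, P.s'_PP i h3, ← h5, ← h8]
    exact le_csum P hc h6 h4
  · have h1 : chg (P.N' i) (P.s' i) x y = 0 := by unfold chg; rw [if_neg h]
    rw [h1]
    exact csum_nonneg P q i x y

variable {r : ℝ} {L : LamData P.vfam.swData} {P}

/-- the new levels inside a processed cell -/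
theorem Lev.cell_le [Fintype ι] {O : SwOut P.vfam.swData L r} {U : Set E} {w : ι → E → ℝ}
    (H : Lev O U w) (h0 : 0 < r) (h1 : r < 1) {q : Q} (hqU : P.V q ⊆ U) {x : E} (hx : x ∈ P.V q) :
    ∀ᶠ y in 𝓝 x, dsum w x y ≤ ctot P q x y := by
  have h2 := H.eventually_dsum_le h0 h1 (hqU hx)
  rw [nhdsWithin_eq_nhds.2 (mem_of_superset ((P.V_open q).mem_nhds hx) hqU)] at h2
  filter_upwards [h2, tot_le_ctot P x, (P.V_open q).mem_nhds hx] with y h3 h4 h5
  exact h3.trans (h4 q h5)

/-- the new levels on a closed processed cell -/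
theorem Lev.cell_le_closed [Fintype ι] {O : SwOut P.vfam.swData L r} {U : Set E} {w : ι → E → ℝ}
    (H : Lev O U w) (h0 : 0 < r) (h1 : r < 1) {q : Q} (hqU : P.V q ∪ P.B q ⊆ U) {x : E}
    (hx : x ∈ P.V q ∪ P.B q) : ∀ᶠ y in 𝓝[P.V q ∪ P.B q] x, dsum w x y ≤ ctot P q x y := by
  filter_upwards [(H.eventually_dsum_le h0 h1 (hqU hx)).filter_mono (nhdsWithin_mono _ hqU),
    nhdsWithin_le_nhds (tot_le_ctot_closed P x), self_mem_nhdsWithin] with y h3 h4 h5
  exact h3.trans (h4 q hx h5)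

/-- **Lipschitz bound on a closed processed cell** -/
theorem Lev.cell_lip [Fintype ι] {O : SwOut P.vfam.swData L r} {U : Set E} {w : ι → E → ℝ}
    (H : Lev O U w) (h0 : 0 < r) (h1 : r < 1) {q : Q} (hqU : P.V q ∪ P.B q ⊆ U)
    (hq : Convex ℝ (P.V q ∪ P.B q)) {K : ℝ}
    (hK : ∀ x ∈ P.V q ∪ P.B q, ∀ᶠ y in 𝓝[P.V q ∪ P.B q] x, ctot P q x y ≤ K * dist y x) {x y : E}
    (hx : x ∈ P.V q ∪ P.B q) (hy : y ∈ P.V q ∪ P.B q) : dsum w x y ≤ K * dist y x := by
  refine dsum_le_of_local hq (fun i => (H.cont i).mono hqU) ?_ hx hy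
  intro z hz
  filter_upwards [hK z hz, H.cell_le_closed h0 h1 hqU hz] with t ht1 ht2
  exact ht2.trans ht1

/-- the new levels outside the processed cells -/
theorem Lev.rest_le [Fintype ι] {O : SwOut P.vfam.swData L r} {U : Set E} {w : ι → E → ℝ}
    (H : Lev O U w) (h0 : 0 < r) (h1 : r < 1) {x : E} (hx : x ∈ U) :
    ∀ᶠ y in 𝓝[U] x, (∀ q, y ∉ P.V q) → dsum w x y ≤ tot P.N P.s x y := by
  filter_upwards [H.eventually_dsum_le h0 h1 hx, nhdsWithin_le_nhds (tot_le_old P x)] with y h3 h4 h5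
  exact h3.trans (h4 h5)

/-- **the variation along a curve outside the open processed cells** (in particular along every
edge of the mesh) -/
theorem Lev.rest_cvar [Fintype ι] {O : SwOut P.vfam.swData L r} {U : Set E} {w : ι → E → ℝ}
    (H : Lev O U w) (h0 : 0 < r) (h1 : r < 1) {γ : ℝ → E} {a b : ℝ}
    (hγ : ContinuousOn γ (Icc a b)) (hC : MapsTo γ (Icc a b) U)
    (hV : ∀ t ∈ Icc a b, ∀ q, γ t ∉ P.V q) :
    cvar (fun s t => ENNReal.ofReal (dsum w (γ s) (γ t))) a b ≤
      cvar (fun s t => ENNReal.ofReal (tot P.N P.s (γ s) (γ t))) a b := by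
  refine H.cvar_le_of_local h0 h1 (Z := U \ ⋃ q, P.V q) hγ (fun t ht => ⟨hC ht, ?_⟩)
    sdiff_subset (fun x y => tot_comm _ _ x y) ?_
  · intro h
    obtain ⟨q, h⟩ := mem_iUnion.1 h
    exact hV t ht q h
  · intro x hx
    filter_upwards [nhdsWithin_le_nhds (tot_le_old P x), self_mem_nhdsWithin] with y h4 h5
    exact h4 fun q hq => h5.2 (mem_iUnion.2 ⟨q, hq⟩)

end pre

end P073.H880
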