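import Vale.Agent.P073.H880.Shrink
import Vale.Agent.P073.H669.Swin

/-!
# P073, H880: from the full switch to a system of fibred sheets, and to the new homeomorphism
-/

open Set Metric Topology Filter

namespace P073.H880

open P073 P073.H936 P073.H341 P073.H669

variable {ι E : Type*} [NormedAddCommGroup E] [NormedSpace ℝ E] [Finite ι] {V : VFam ι E}
  {L : LamData V.swData} {r : ℝ}

/-- the sheets of a `VFam` as fibred sheets -/
noncomputable def vfib (V : VFam ι E) (i : ι) : Fib (mid (V.N i) (V.s i)) (V.N i) (V.s i) where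
  Γ := V.Gam i
  lev := V.gam_s i
  zero := V.gam_zero i

theorem vfib_bd (V : VFam ι E) (i : ι) : (vfib V i).Bd V.Bd := V.gam_bd i

theorem vfib_pres (V : VFam ι E) {i j : ι} (h : V.side i ≠ V.side j) :
    Pres (vfib V i) (V.N j) (V.s j) := by
  intro z hz t ht t' ht' hx
  have h1 := (V.vert i j h z hz t ht).1 hx
  refine ⟨(V.vert i j h z hz t' ht').2 h1, ?_⟩
  show V.s j ((V.Gam i).toFun (z, t')) = V.s j ((V.Gam i).toFun (z, t))
  rw [V.vert_s i j h z hz t' ht' h1, V.vert_s i j h z hz t ht h1]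

/-- points of the boundary are in the root region -/
theorem root_of_bd (O : SwOut V.swData L r) {i : ι} {x : E} (hx : x ∈ O.B i) (hb : x ∈ V.Bd) :
    x ∈ L.PP r (Sum.inl i) := by
  obtain ⟨m, hm, h | ⟨d, -, h⟩⟩ := (O.B_eq i x).1 hx
  · rcases m with i' | ⟨c, X⟩
    · by_cases he : i' = i
      · subst he; exact h
      · exact absurd hm (Set.disjoint_left.1 (O.V_disj i' i he) (O.root i'))
    · exfalso
      have h1 : x ∈ V.N (V.shc c X) := h.1
      have h2 : ((V.phi (V.shc c X)).toFun x).1 ∈ L.pp (Sum.inr (c, X)) := h.2.1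
      have h3 : ((V.phi (V.shc c X)).toFun x).1 ∈ L.I c X := LamData.pp_sub _ h2
      have h4 := L.O_sub c X (Or.inl h3)
      rw [mem_ball_zero_iff] at h4
      have h5 := (VFam.norm_phi (V := V) h1).2 hb
      exact h4.ne h5
  · exact absurd hb (VFam.Kc_bd d.1 h.1)

theorem root_sub (O : SwOut V.swData L r) (i : ι) : L.PP r (Sum.inl i) ⊆ O.B i := fun x hx =>
  (O.B_eq i x).2 ⟨_, O.root i, Or.inl hx⟩

theorem lev_root (O : SwOut V.swData L r) {i : ι} {x : E} (hx : x ∈ L.PP r (Sum.inl i)) :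
    O.b i x = V.s i x := by
  rw [O.level_P i _ (O.root i) x hx, O.sign_root, one_mul]
  rfl

theorem root_N {i : ι} {x : E} (hx : x ∈ L.PP r (Sum.inl i)) : x ∈ shr (V.N i) (V.s i) r :=
  ⟨hx.1, hx.2.2⟩

theorem Phi_bd (O : SwOut V.swData L r) {i : ι} {x : E} (hx : x ∈ O.B i) :
    (O.Φ i).toFun x ∈ V.Bd ↔ x ∈ V.Bd := by
  constructor
  · intro hb
    have h1 : (O.Φ i).toFun x ∈ {x | x ∈ V.N i ∧ |V.s i x| ≤ r} := (O.Φ i).mapsTo hx
    have h2 : (O.Φ i).toFun x ∈ L.PP r (Sum.inl i) :=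
      LamData.mem_PP_root h1.1 h1.2 (Or.inr ((VFam.norm_phi (V := V) h1.1).2 hb))
    have h3 : (O.Φ i).toFun ((O.Φ i).toFun x) = (O.Φ i).toFun x := O.Φ_id i h2
    have h4 := (O.Φ i).injOn (root_sub O i h2) hx h3
    rw [← h4]; exact hb
  · intro hb
    have h2 := O.Φ_id i (root_of_bd O hx hb)
    rw [h2]; exact hb

/-- the new sheets as fibred sheets -/
noncomputable def nfib (O : SwOut V.swData L r) (h0 : 0 < r) (h1 : r ≤ 1) (i : ι) :
    Fib (face (O.B i) (fun x => O.b i x / r) 0) (O.B i) (fun x => O.b i x / r) :=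
  ((vfib V i).shrink h0 h1).transport (s₁ := fun x => O.b i x / r) (O.Φ i) (fun x hx => by
    show V.s i ((O.Φ i).toFun x) / r = O.b i x / r
    rw [show V.s i ((O.Φ i).toFun x) = O.b i x from O.Φ_level i x hx]) rfl

theorem nfib_toFun (O : SwOut V.swData L r) (h0 : 0 < r) (h1 : r ≤ 1) (i : ι) (z : E) (t : ℝ) :
    (nfib O h0 h1 i).Γ.toFun (z, t) =
      (O.Φ i).invFun ((V.Gam i).toFun ((O.Φ i).toFun z, r * t)) := rfl

/-- the arc block of two new sheets -/
theorem mem_inter (O : SwOut V.swData L r) {i j : ι} (h : V.side i ≠ V.side j) {x : E} :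
    (x ∈ O.B i ∧ x ∈ O.B j) ↔ x ∈ V.Rc ∧ x ∈ V.N i ∧ x ∈ V.N j ∧ |V.s i x| ≤ r ∧ |V.s j x| ≤ r := by
  have := O.inter i j h
  rw [← mem_inter_iff, this]
  exact Iff.rfl

theorem Phi_eq (O : SwOut V.swData L r) {i j : ι} (h : V.side i ≠ V.side j) {x : E}
    (hx : x ∈ O.B i) (hx' : x ∈ O.B j) : x ∈ L.PP r (Sum.inl i) ∧ (O.Φ i).toFun x = x ∧
      O.b i x = V.s i x := by
  obtain ⟨h1, h2, -, h4, -⟩ := (mem_inter O h).1 ⟨hx, hx'⟩
  have h5 : x ∈ L.PP r (Sum.inl i) := LamData.mem_PP_root h2 h4 (Or.inl h1)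
  exact ⟨h5, O.Φ_id i h5, lev_root O h5⟩

/-- arc blocks are vertical -/
theorem Rc_vert {i j : ι} (h : V.side i ≠ V.side j) {x : E} (hx : x ∈ V.N i) (hxj : x ∈ V.N j) :
    V.foot i x ∈ V.Rc ↔ x ∈ V.Rc := by
  have key : ∀ {i' j' : ι} (a : V.J i' j'), V.side i' = false → V.side j' = true →
      (i = i' ∨ i = j') → (V.foot i x ∈ V.blk i' j' (V.C i' j' a) ↔
        x ∈ V.blk i' j' (V.C i' j' a)) := by
    intro i' j' a hi' hj' hk
    have hne : V.side i' ≠ V.side j' := by rw [hi', hj']; decide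
    rcases hk with rfl | rfl
    · exact VFam.mem_blk_iff hne hx
    · have : Finite (V.J i' i) := V.fin _ _
      rw [VFam.blk_swap hne (V.C_union _ _ hi' hj') (V.C_disj _ _ hi' hj')
        (V.C_closed _ _ hi' hj') a]
      exact VFam.mem_blk_iff hne.symm hx
  have own : ∀ {i' j' : ι} {y : E}, V.side i' = false → V.side j' = true → y ∈ V.N i →
      y ∈ V.N i' → y ∈ V.N j' → (i = i' ∨ i = j') := by
    intro i' j' y hi' hj' hy h1 h2
    cases hi : V.side i with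
    | false =>
      left; by_contra hn
      exact disjoint_left.1 (V.disj i i' hn (hi.trans hi'.symm)) hy h1
    | true =>
      right; by_contra hn
      exact disjoint_left.1 (V.disj i j' hn (hi.trans hj'.symm)) hy h2
  constructor
  · rintro ⟨i', j', a, hi', hj', hb, hm⟩
    have h1 := own hi' hj' (VFam.foot_mem hx).1 hm.1 hm.2.1
    exact ⟨i', j', a, hi', hj', hb, (key a hi' hj' h1).1 hm⟩
  · rintro ⟨i', j', a, hi', hj', hb, hm⟩
    have h1 := own hi' hj' hx hm.1 hm.2.1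
    exact ⟨i', j', a, hi', hj', hb, (key a hi' hj' h1).2 hm⟩

theorem nfib_pres (O : SwOut V.swData L r) (h0 : 0 < r) (h1 : r ≤ 1) {i j : ι}
    (h : V.side i ≠ V.side j) : Pres (nfib O h0 h1 i) (O.B j) (fun x => O.b j x / r) := by
  intro z hz t ht t' ht' hx
  set y := (nfib O h0 h1 i).Γ.toFun (z, t) with hy
  have hyB : y ∈ O.B i := (nfib O h0 h1 i).mem_N hz ht
  obtain ⟨e1, e2, e3⟩ := Phi_eq O h hyB hx
  obtain ⟨f1, f2, f3, f4, f5⟩ := (mem_inter O h).1 ⟨hyB, hx⟩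
  -- the point `Φ z` is the foot of `y`
  have hz' : (O.Φ i).toFun z ∈ mid (V.N i) (V.s i) := by
    have h2 : (O.Φ i).toFun z ∈ {x | x ∈ V.N i ∧ |V.s i x| ≤ r} := (O.Φ i).mapsTo hz.1
    refine ⟨h2.1, ?_⟩
    rw [show V.s i ((O.Φ i).toFun z) = O.b i z from O.Φ_level i z hz.1]
    have h3 := hz.2
    simp only at h3
    rcases div_eq_zero_iff.1 h3 with h3 | h3
    · exact h3
    · exact absurd h3 h0.ne'
  have hrt := mul_mem_LI h0 h1 ht
  have hrt' := mul_mem_LI h0 h1 ht'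
  have g1 : (V.Gam i).toFun ((O.Φ i).toFun z, r * t) ∈ {x | x ∈ V.N i ∧ |V.s i x| ≤ r} := by
    refine ⟨VFam.gam_mem hz' hrt, ?_⟩
    rw [V.gam_s i _ hz' _ hrt, abs_mul, abs_of_pos h0]
    have h3 : |t| ≤ 1 := abs_le.2 ht
    nlinarith [abs_nonneg t]
  have g2 : (O.Φ i).toFun y = (V.Gam i).toFun ((O.Φ i).toFun z, r * t) := (O.Φ i).right_inv g1
  rw [e2] at g2
  have hfoot : V.foot i y = (O.Φ i).toFun z := by rw [g2, VFam.foot_gam hz' hrt]
  -- the other point of the fibre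
  set w := (V.Gam i).toFun ((O.Φ i).toFun z, r * t') with hw
  have hwN : w ∈ V.N i := VFam.gam_mem hz' hrt'
  have hwf : V.foot i w = V.foot i y := by rw [hw, VFam.foot_gam hz' hrt', hfoot]
  have hwj : w ∈ V.N j := by
    rw [← VFam.foot_other h hwN, hwf, VFam.foot_other h f2]; exact f3
  have hwR : w ∈ V.Rc := by
    rw [← Rc_vert h hwN hwj, hwf, Rc_vert h f2 f3]; exact f1
  have hws : V.s j w = V.s j y := by
    rw [← VFam.foot_s h hwN hwj, hwf, VFam.foot_s h f2 f3]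
  have hwi : |V.s i w| ≤ r := by
    rw [hw, V.gam_s i _ hz' _ hrt', abs_mul, abs_of_pos h0]
    have h3 : |t'| ≤ 1 := abs_le.2 ht'
    nlinarith [abs_nonneg t']
  have hwB : w ∈ O.B i ∧ w ∈ O.B j :=
    (mem_inter O h).2 ⟨hwR, hwN, hwj, hwi, by rw [hws]; exact f5⟩
  have hwP := Phi_eq O h hwB.1 hwB.2
  have he : (nfib O h0 h1 i).Γ.toFun (z, t') = w := by
    show (O.Φ i).invFun w = w
    conv_lhs => rw [← hwP.2.1]
    exact (O.Φ i).left_inv hwB.1
  rw [he]
  refine ⟨hwB.2, ?_⟩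
  show O.b j w / r = O.b j y / r
  rw [(Phi_eq O h.symm hwB.2 hwB.1).2.2, (Phi_eq O h.symm hx hyB).2.2, hws]

theorem nfib_bd (O : SwOut V.swData L r) (h0 : 0 < r) (h1 : r ≤ 1) (i : ι) :
    (nfib O h0 h1 i).Bd V.Bd := by
  intro z hz t ht
  have h2 := (nfib O h0 h1 i).mem_N hz ht
  rw [← Phi_bd O h2, ← Phi_bd O hz.1]
  have hz' : (O.Φ i).toFun z ∈ mid (V.N i) (V.s i) := by
    have h2 : (O.Φ i).toFun z ∈ {x | x ∈ V.N i ∧ |V.s i x| ≤ r} := (O.Φ i).mapsTo hz.1
    refine ⟨h2.1, ?_⟩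
    rw [show V.s i ((O.Φ i).toFun z) = O.b i z from O.Φ_level i z hz.1]
    have h3 := hz.2
    simp only at h3
    rcases div_eq_zero_iff.1 h3 with h3 | h3
    · exact h3
    · exact absurd h3 h0.ne'
  have hrt := mul_mem_LI h0 h1 ht
  have g1 : (V.Gam i).toFun ((O.Φ i).toFun z, r * t) ∈ {x | x ∈ V.N i ∧ |V.s i x| ≤ r} := by
    refine ⟨VFam.gam_mem hz' hrt, ?_⟩
    rw [V.gam_s i _ hz' _ hrt, abs_mul, abs_of_pos h0]
    have h3 : |t| ≤ 1 := abs_le.2 ht
    nlinarith [abs_nonneg t]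
  have g2 : (O.Φ i).toFun ((nfib O h0 h1 i).Γ.toFun (z, t)) =
      (V.Gam i).toFun ((O.Φ i).toFun z, r * t) := (O.Φ i).right_inv g1
  rw [g2]
  exact V.gam_bd i _ hz' _ hrt

/-- exactly one arc for every pair of sheets of different sides -/
structure One (V : VFam ι E) (C : Set E) : Prop where
  hC : ConBall 3 C V.Bd
  sub : ∀ i, V.N i ⊆ C
  arc : ∀ i j, V.side i = false → V.side j = true →
    ∃ a, ConBall 1 (V.C i j a) (V.C i j a ∩ V.Bd) ∧ ∀ b, (V.C i j b ∩ V.Bd).Nonempty → b = a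

theorem face_div (h0 : 0 < r) {N : Set E} {s : E → ℝ} :
    face N (fun x => s x / r) 0 = face N s 0 := by
  ext x
  refine and_congr_right fun _ => ?_
  show s x / r = 0 ↔ s x = 0
  rw [div_eq_zero_iff]
  exact or_iff_left h0.ne'

/-- the arcs of the new sheets -/
theorem new_arc (O : SwOut V.swData L r) (h0 : 0 < r) {C : Set E} (h1 : One V C) {i j : ι}
    (hi : V.side i = false) (hj : V.side j = true) :
    ConBall 1 (face (O.B i) (O.b i) 0 ∩ face (O.B j) (O.b j) 0)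
      (face (O.B i) (O.b i) 0 ∩ face (O.B j) (O.b j) 0 ∩ V.Bd) := by
  have h : V.side i ≠ V.side j := by rw [hi, hj]; decide
  obtain ⟨a, ha, hu⟩ := h1.arc i j hi hj
  have hne : (V.C i j a ∩ V.Bd).Nonempty := by
    obtain ⟨p, q, hpq⟩ := GB200.exists_pair ha
    exact ⟨p, hpq ▸ Or.inl rfl⟩
  have e : face (O.B i) (O.b i) 0 ∩ face (O.B j) (O.b j) 0 = V.C i j a := by
    apply Subset.antisymm
    · rintro x ⟨⟨hx, hx0⟩, ⟨hx', hx0'⟩⟩
      obtain ⟨f1, f2, f3, f4, f5⟩ := (mem_inter O h).1 ⟨hx, hx'⟩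
      rw [(Phi_eq O h hx hx').2.2] at hx0
      rw [(Phi_eq O h.symm hx' hx).2.2] at hx0'
      obtain ⟨i', j', a', hi', hj', hb, hm⟩ := f1
      have e1 : i = i' := by
        by_contra hn
        exact disjoint_left.1 (V.disj i i' hn (hi.trans hi'.symm)) f2 hm.1
      have e2 : j = j' := by
        by_contra hn
        exact disjoint_left.1 (V.disj j j' hn (hj.trans hj'.symm)) f3 hm.2.1
      subst e1 e2
      have e3 := hu a' hb
      subst e3
      have e4 := hm.2.2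
      rwa [VFam.foot_of_mid ⟨f2, hx0⟩, VFam.foot_of_mid ⟨f3, hx0'⟩] at e4
    · intro x hx
      obtain ⟨hx1, hx2⟩ := VFam.C_sub hi hj a hx
      have hR : x ∈ V.Rc := ⟨i, j, a, hi, hj, hne, hx1.1, hx2.1, by
        rw [VFam.foot_of_mid hx1, VFam.foot_of_mid hx2]; exact hx⟩
      have a1 : |V.s i x| ≤ r := by rw [hx1.2, abs_zero]; exact h0.le
      have a2 : |V.s j x| ≤ r := by rw [hx2.2, abs_zero]; exact h0.le
      obtain ⟨b1, b2⟩ := (mem_inter O h).2 ⟨hR, hx1.1, hx2.1, a1, a2⟩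
      exact ⟨⟨b1, (Phi_eq O h b1 b2).2.2.trans hx1.2⟩, ⟨b2, (Phi_eq O h.symm b2 b1).2.2.trans hx2.2⟩⟩
  rw [e]; exact ha

theorem new_disc (O : SwOut V.swData L r) (h0 : 0 < r) (i : ι) :
    ConBall 2 (face (O.B i) (O.b i) 0) (face (O.B i) (O.b i) 0 ∩ V.Bd) := by
  have h1 := V.ball i
  have hsub : mid (V.N i) (V.s i) ⊆ {x | x ∈ V.N i ∧ |V.s i x| ≤ r} := fun x hx =>
    ⟨hx.1, by rw [hx.2, abs_zero]; exact h0.le⟩
  have h2 := h1.image (O.Φ i).symm hsub
  have e1 : (O.Φ i).symm.toFun '' mid (V.N i) (V.s i) = face (O.B i) (O.b i) 0 := by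
    apply Subset.antisymm
    · rintro _ ⟨y, hy, rfl⟩
      have h3 : (O.Φ i).invFun y ∈ O.B i := (O.Φ i).mapsTo_inv (hsub hy)
      have h4 : (O.Φ i).toFun ((O.Φ i).invFun y) = y := (O.Φ i).right_inv (hsub hy)
      refine ⟨h3, ?_⟩
      show O.b i ((O.Φ i).invFun y) = 0
      rw [← O.Φ_level i _ h3, h4]; exact hy.2
    · rintro x ⟨hx, hx0⟩
      have h3 : (O.Φ i).toFun x ∈ {x | x ∈ V.N i ∧ |V.s i x| ≤ r} := (O.Φ i).mapsTo hx
      refine ⟨(O.Φ i).toFun x, ⟨h3.1, ?_⟩, (O.Φ i).left_inv hx⟩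
      rw [show V.s i ((O.Φ i).toFun x) = O.b i x from O.Φ_level i x hx]; exact hx0
  have e2 : (O.Φ i).symm.toFun '' (mid (V.N i) (V.s i) ∩ V.Bd) =
      face (O.B i) (O.b i) 0 ∩ V.Bd := by
    rw [← e1]
    ext x
    constructor
    · rintro ⟨y, hy, rfl⟩
      refine ⟨⟨y, hy.1, rfl⟩, ?_⟩
      have h3 : (O.Φ i).invFun y ∈ O.B i := (O.Φ i).mapsTo_inv (hsub hy.1)
      show (O.Φ i).invFun y ∈ V.Bd
      rw [← Phi_bd O h3, (O.Φ i).right_inv (hsub hy.1)]; exact hy.2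
    · rintro ⟨⟨y, hy, rfl⟩, hb⟩
      have h3 : (O.Φ i).invFun y ∈ O.B i := (O.Φ i).mapsTo_inv (hsub hy)
      refine ⟨y, ⟨hy, ?_⟩, rfl⟩
      have hb' : (O.Φ i).invFun y ∈ V.Bd := hb
      rwa [← Phi_bd O h3, (O.Φ i).right_inv (hsub hy)] at hb'
  rwa [e1, e2] at h2

theorem B_sub (O : SwOut V.swData L r) {C : Set E} (h1 : One V C) (i : ι) : O.B i ⊆ C := by
  intro x hx
  obtain ⟨m, hm, h | ⟨d, -, h⟩⟩ := (O.B_eq i x).1 hx
  · exact h1.sub _ h.1
  · exact h1.sub _ h.1.1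

/-- **the new sheets form a system of fibred sheets** -/
noncomputable def newSys (O : SwOut V.swData L r) (h0 : 0 < r) (h1 : r ≤ 1) {C : Set E}
    (hone : One V C) : FSys V.side C V.Bd (fun i => face (O.B i) (fun x => O.b i x / r) 0) O.B
      (fun i x => O.b i x / r) where
  hC := hone.hC
  F := fun i => nfib O h0 h1 i
  sub := B_sub O hone
  disc := fun i => by rw [face_div h0]; exact new_disc O h0 i
  bd := nfib_bd O h0 h1
  disj := O.disj
  pres := fun i j h => nfib_pres O h0 h1 h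
  arc := by
    intro i j h
    simp only [face_div h0]
    cases hi : V.side i with
    | false =>
      have hj : V.side j = true := by
        cases hj : V.side j
        · exact absurd (hi.trans hj.symm) h
        · rfl
      exact new_arc O h0 hone hi hj
    | true =>
      have hj : V.side j = false := by
        cases hj : V.side j
        · rfl
        · exact absurd (hi.trans hj.symm) h
      rw [inter_comm (face (O.B i) (O.b i) 0)]
      exact new_arc O h0 hone hj hi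

end P073.H880
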