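import Vale.Agent.P073.H880.Eq4

/-!
# P073, H880: shrinking and transporting fibred sheets
-/

open Set Metric Topology Filter

namespace P073.H880

open P073 P073.H936 P073.H341

variable {E G : Type*} [NormedAddCommGroup E] [NormedSpace ℝ E]
  [NormedAddCommGroup G] [NormedSpace ℝ G] {D N : Set E} {s : E → ℝ} {r : ℝ}

/-- the part of a sheet at the levels `≤ r` -/
def shr (N : Set E) (s : E → ℝ) (r : ℝ) : Set E := {x | x ∈ N ∧ |s x| ≤ r}

theorem mul_mem_LI (h0 : 0 < r) (h1 : r ≤ 1) {t : ℝ} (ht : t ∈ LI) : r * t ∈ LI := by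
  have h2 : |t| ≤ 1 := abs_le.2 ht
  have h3 : |r * t| ≤ 1 := by
    rw [abs_mul, abs_of_pos h0]
    exact mul_le_one₀ h1 (abs_nonneg _) h2
  exact abs_le.1 h3

theorem div_mem_LI (h0 : 0 < r) {t : ℝ} (ht : |t| ≤ r) : t / r ∈ LI := by
  have h3 : |t / r| ≤ 1 := by
    rw [abs_div, abs_of_pos h0]
    exact (div_le_one h0).2 ht
  exact abs_le.1 h3

/-- shrinking a fibred sheet -/
noncomputable def Fib.shrink (F : Fib D N s) (h0 : 0 < r) (h1 : r ≤ 1) :
    Fib D (shr N s r) (fun x => s x / r) where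
  Γ :=
    { toFun := fun q => F.Γ.toFun (q.1, r * q.2)
      invFun := fun x => (F.pr x, s x / r)
      mapsTo := fun q hq => by
        have h2 := mul_mem_LI h0 h1 hq.2
        refine ⟨F.mem_N hq.1 h2, ?_⟩
        rw [F.lev _ hq.1 _ h2, abs_mul, abs_of_pos h0]
        have h3 : |q.2| ≤ 1 := abs_le.2 hq.2
        nlinarith [abs_nonneg q.2]
      mapsTo_inv := fun x hx => ⟨F.pr_mem hx.1, div_mem_LI h0 hx.2⟩
      left_inv := fun q hq => by
        have h2 := mul_mem_LI h0 h1 hq.2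
        show (F.pr (F.Γ.toFun (q.1, r * q.2)), s (F.Γ.toFun (q.1, r * q.2)) / r) = q
        rw [F.pr_apply hq.1 h2, F.lev _ hq.1 _ h2, mul_div_cancel_left₀ _ h0.ne']
      right_inv := fun x hx => by
        show F.Γ.toFun (F.pr x, r * (s x / r)) = x
        rw [mul_div_cancel₀ _ h0.ne', F.pr_eq hx.1]
      cont := F.Γ.cont.comp (by fun_prop) fun q hq => ⟨hq.1, mul_mem_LI h0 h1 hq.2⟩
      cont_inv := (F.continuousOn_pr.mono fun _ hx => hx.1).prodMk
        ((F.continuousOn_s.mono fun _ hx => hx.1).div_const r)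
      conical := by
        have hX : ConicalSet (D ×ˢ Icc (-1:ℝ) 1) := F.Γ.conicalSet_left
        have k1 : ConicalOn (fun q : E × ℝ => ((q.1, r * q.2) : E × ℝ)) (D ×ˢ Icc (-1:ℝ) 1) := by
          have := (conicalOn_id hX).linear_comp
            ((LinearMap.fst ℝ E ℝ).prod (r • LinearMap.snd ℝ E ℝ))
          exact this.congr fun q _ => by simp
        exact ConicalOn.comp (g := F.Γ.toFun) F.Γ.conical k1
          (fun q hq => ⟨hq.1, mul_mem_LI h0 h1 hq.2⟩) (by fun_prop) }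
  lev := fun z hz t ht => by
    show s (F.Γ.toFun (z, r * t)) / r = t
    rw [F.lev z hz _ (mul_mem_LI h0 h1 ht), mul_div_cancel_left₀ _ h0.ne']
  zero := fun z hz => by
    show F.Γ.toFun (z, r * 0) = z
    rw [mul_zero, F.zero z hz]

theorem Fib.shrink_toFun (F : Fib D N s) (h0 : 0 < r) (h1 : r ≤ 1) (z : E) (t : ℝ) :
    (F.shrink h0 h1).Γ.toFun (z, t) = F.Γ.toFun (z, r * t) := rfl

theorem Fib.Bd.shrink {B : Set E} {F : Fib D N s} (h : F.Bd B) (h0 : 0 < r) (h1 : r ≤ 1) :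
    (F.shrink h0 h1).Bd B := fun z hz t ht => h z hz _ (mul_mem_LI h0 h1 ht)

theorem Pres.shrink {F : Fib D N s} {N' : Set E} {s' : E → ℝ} (h : Pres F N' s') (h0 : 0 < r)
    (h1 : r ≤ 1) : Pres (F.shrink h0 h1) (shr N' s' r) (fun x => s' x / r) := by
  intro z hz t ht t' ht' hx
  obtain ⟨a, b⟩ := h z hz _ (mul_mem_LI h0 h1 ht) _ (mul_mem_LI h0 h1 ht') hx.1
  refine ⟨⟨a, ?_⟩, ?_⟩
  · show |s' (F.Γ.toFun (z, r * t'))| ≤ r
    rw [b]; exact hx.2
  · show s' (F.Γ.toFun (z, r * t')) / r = s' (F.Γ.toFun (z, r * t)) / r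
    rw [b]

/-- transport of a fibred sheet -/
noncomputable def Fib.transport (F : Fib D N s) {N₁ : Set G} {s₁ : G → ℝ} (Φ : ConHomeo N₁ N)
    (hΦ : ∀ x ∈ N₁, s (Φ.toFun x) = s₁ x) {D₁ : Set G} (hD : D₁ = face N₁ s₁ 0) :
    Fib D₁ N₁ s₁ := by
  have hm : MapsTo Φ.toFun D₁ D := fun x hx => by
    rw [hD] at hx
    exact F.mem_D_iff.2 ⟨Φ.mapsTo hx.1, (hΦ x hx.1).trans hx.2⟩
  have hm' : MapsTo Φ.invFun D D₁ := fun y hy => by
    rw [hD]
    have h1 := F.mem_D_iff.1 hy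
    have h2 := Φ.mapsTo_inv h1.1
    refine ⟨h2, ?_⟩
    rw [← hΦ _ h2, Φ.right_inv h1.1]; exact h1.2
  have hD1 : D₁ ⊆ N₁ := by rw [hD]; exact face_sub
  have hDc : ConicalSet D₁ := by
    have h1 : Φ.symm.toFun '' D = D₁ := by
      apply Subset.antisymm
      · rintro _ ⟨y, hy, rfl⟩
        exact hm' hy
      · intro x hx
        exact ⟨Φ.toFun x, hm hx, Φ.left_inv (hD1 hx)⟩
    rw [← h1]
    exact Φ.symm.conicalSet_image F.conicalSet_D F.sub
  have hX : ConicalSet (D₁ ×ˢ Icc (-1:ℝ) 1) := hDc.prod (conicalSet_Icc _ _)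
  have m1 : MapsTo (fun q : G × ℝ => ((Φ.toFun q.1, q.2) : E × ℝ)) (D₁ ×ˢ Icc (-1:ℝ) 1)
      (D ×ˢ Icc (-1:ℝ) 1) := fun q hq => ⟨hm hq.1, hq.2⟩
  have c1 : ContinuousOn (fun q : G × ℝ => ((Φ.toFun q.1, q.2) : E × ℝ))
      (D₁ ×ˢ Icc (-1:ℝ) 1) :=
    (Φ.cont.comp continuousOn_fst fun q hq => hD1 hq.1).prodMk continuousOn_snd
  have k1 : ConicalOn (fun q : G × ℝ => ((Φ.toFun q.1, q.2) : E × ℝ)) (D₁ ×ˢ Icc (-1:ℝ) 1) :=
    (ConicalOn.comp (g := Φ.toFun) Φ.conical (conicalOn_fst hX) (fun q hq => hD1 hq.1)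
      continuousOn_fst).prodMk (conicalOn_snd hX)
  exact
  { Γ :=
      { toFun := fun q => Φ.invFun (F.Γ.toFun (Φ.toFun q.1, q.2))
        invFun := fun x => (Φ.invFun (F.pr (Φ.toFun x)), s₁ x)
        mapsTo := fun q hq => Φ.mapsTo_inv (F.Γ.mapsTo (m1 hq))
        mapsTo_inv := fun x hx => ⟨hm' (F.pr_mem (Φ.mapsTo hx)), by
          show s₁ x ∈ Icc (-1:ℝ) 1
          rw [← hΦ x hx]; exact F.lev_mem (Φ.mapsTo hx)⟩
        left_inv := fun q hq => by
          obtain ⟨h1, h2⟩ := m1 hq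
          have h3 : F.Γ.toFun (Φ.toFun q.1, q.2) ∈ N := F.mem_N h1 h2
          have h4 := Φ.mapsTo_inv h3
          have h5 := Φ.right_inv h3
          show (Φ.invFun (F.pr (Φ.toFun (Φ.invFun (F.Γ.toFun (Φ.toFun q.1, q.2))))),
            s₁ (Φ.invFun (F.Γ.toFun (Φ.toFun q.1, q.2)))) = q
          rw [← hΦ _ h4, h5, F.pr_apply h1 h2, F.lev _ h1 _ h2, Φ.left_inv (hD1 hq.1)]
        right_inv := fun x hx => by
          have h1 := Φ.mapsTo hx
          show Φ.invFun (F.Γ.toFun (Φ.toFun (Φ.invFun (F.pr (Φ.toFun x))), s₁ x)) = x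
          rw [Φ.right_inv (F.sub (F.pr_mem h1)), ← hΦ x hx, F.pr_eq h1, Φ.left_inv hx]
        cont := Φ.cont_inv.comp (F.Γ.cont.comp c1 m1) fun q hq => F.Γ.mapsTo (m1 hq)
        cont_inv := by
          refine ContinuousOn.prodMk ?_ ?_
          · exact Φ.cont_inv.comp (F.continuousOn_pr.comp Φ.cont Φ.mapsTo)
              fun x hx => F.sub (F.pr_mem (Φ.mapsTo hx))
          · exact (F.continuousOn_s.comp Φ.cont Φ.mapsTo).congr fun x hx => (hΦ x hx).symm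
        conical := by
          have k2 : ConicalOn (fun q : G × ℝ => F.Γ.toFun (Φ.toFun q.1, q.2))
              (D₁ ×ˢ Icc (-1:ℝ) 1) := ConicalOn.comp (g := F.Γ.toFun) F.Γ.conical k1 m1 c1
          exact ConicalOn.comp (g := Φ.invFun) Φ.conical_inv k2 (fun q hq => F.Γ.mapsTo (m1 hq))
            (F.Γ.cont.comp c1 m1) }
    lev := fun z hz t ht => by
      have h3 : F.Γ.toFun (Φ.toFun z, t) ∈ N := F.mem_N (hm hz) ht
      show s₁ (Φ.invFun (F.Γ.toFun (Φ.toFun z, t))) = t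
      rw [← hΦ _ (Φ.mapsTo_inv h3), Φ.right_inv h3, F.lev _ (hm hz) _ ht]
    zero := fun z hz => by
      show Φ.invFun (F.Γ.toFun (Φ.toFun z, 0)) = z
      rw [F.zero _ (hm hz), Φ.left_inv (hD1 hz)] }

theorem Fib.transport_toFun (F : Fib D N s) {N₁ : Set G} {s₁ : G → ℝ} (Φ : ConHomeo N₁ N)
    (hΦ : ∀ x ∈ N₁, s (Φ.toFun x) = s₁ x) {D₁ : Set G} (hD : D₁ = face N₁ s₁ 0) (z : G) (t : ℝ) :
    (F.transport Φ hΦ hD).Γ.toFun (z, t) = Φ.invFun (F.Γ.toFun (Φ.toFun z, t)) := rfl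

/-- shrinking a system -/
noncomputable def FSys.shrink {ι : Type*} {side : ι → Bool} {C B : Set E} {D N : ι → Set E}
    {s : ι → E → ℝ} (S : FSys side C B D N s) (h0 : 0 < r) (h1 : r ≤ 1) :
    FSys side C B D (fun i => shr (N i) (s i) r) (fun i x => s i x / r) where
  hC := S.hC
  F := fun i => (S.F i).shrink h0 h1
  sub := fun i _ hx => S.sub i hx.1
  disc := S.disc
  bd := fun i => (S.bd i).shrink h0 h1
  disj := fun i j hij h => (S.disj i j hij h).mono (fun _ hx => hx.1) fun _ hx => hx.1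
  pres := fun i j h => (S.pres i j h).shrink h0 h1
  arc := S.arc

end P073.H880
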