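import Vale.Agent.P073.H880.Stage2P
import Vale.Agent.P073.H267.Given

/-!
# P073, H880, **[STAGE2-G]**: insertion with given faces, given cells, active faces, passive faces

`κ` is an arbitrary insertion map.  On the faces of `W` and on the cells of `Gv` the maps are given;
on the active faces `Act` we get good maps; for all other faces only the existence of some map
(`PassFace`) is needed.
-/

open Set Metric Topology Filter

namespace P073.H880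

open P073 P073.TR P073.H936 P073.H236 P073.H579 P073.H212 P073.H345
open Vale.Agent.P073.H73 (Mesh)
open Vale.Agent.P073.H193 (Edges)

variable {Ω Λ : Set (Fin 3 → ℝ)} {κ : (Fin 3 → ℝ) → Fin 3 → ℝ}

/-- given maps on the faces of `W` -/
structure GivenF (M : Mesh Ω) (E : Edges M) (h : ConHomeo Ω Λ) (κ : (Fin 3 → ℝ) → Fin 3 → ℝ)
    (W : Set M.κ) (ΦW : ∀ k ∈ W, ConHomeo (M.F k) (Pre κ Λ h (M.F k))) : Prop where
  agree : ∀ k (hk : k ∈ W) l (hl : l ∈ W),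
    EqOn (ΦW k hk).toFun (ΦW l hl).toFun (M.F k ∩ M.F l)
  edge : ∀ k (hk : k ∈ W) e, E.seg e ⊆ M.F k → (ΦW k hk).toFun '' E.seg e = Pre κ Λ h (E.seg e)
  vert : ∀ k (hk : k ∈ W), ∀ x ∈ E.verts, x ∈ M.F k → κ ((ΦW k hk).toFun x) = h.toFun x

/-- **[STAGE2-G]** -/
theorem exists_stage2G (hΩ : IsOpen Ω) (M : Mesh Ω) (E : Edges M) (h : ConHomeo Ω Λ)
    (hI : InsMap κ Λ Λ) (hN : ∀ x ∈ E.verts, (Pre κ Λ h {x}).Subsingleton)
    (W : Set M.κ) (ΦW : ∀ k ∈ W, ConHomeo (M.F k) (Pre κ Λ h (M.F k)))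
    (hW : GivenF M E h κ W ΦW)
    (Act : Set M.κ) (hAW : ∀ k ∈ Act, k ∉ W)
    (hpass : ∀ k, k ∉ W → k ∉ Act → PassFace M E h κ k)
    (GE : E.ε → ((Fin 3 → ℝ) → Fin 3 → ℝ) → Prop) (GF : M.κ → ((Fin 3 → ℝ) → Fin 3 → ℝ) → Prop)
    (hWG : ∀ k (hk : k ∈ W) e, E.seg e ⊆ M.F k → (∃ l ∈ Act, E.seg e ⊆ M.F l) →
      GE e (ΦW k hk).toFun)
    (hedge : ∀ k ∈ Act, ∀ e, E.seg e ⊆ M.F k → (∀ l ∈ W, ¬ E.seg e ⊆ M.F l) →
      ∃ Φ : ConHomeo (E.seg e) (Pre κ Λ h (E.seg e)),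
      GE e Φ.toFun ∧ ∀ x ∈ E.seg e, x ∈ E.verts → κ (Φ.toFun x) = h.toFun x)
    (hface : ∀ k ∈ Act, ∀ Φe : ∀ e, E.seg e ⊆ M.F k → ConHomeo (E.seg e) (Pre κ Λ h (E.seg e)),
      (∀ e he, GE e (Φe e he).toFun) →
      (∀ e he e' he', EqOn (Φe e he).toFun (Φe e' he').toFun (E.seg e ∩ E.seg e')) →
      (∀ e he, ∀ x ∈ E.seg e, x ∈ E.verts → κ ((Φe e he).toFun x) = h.toFun x) →
      ∃ Φ : ConHomeo (M.F k) (Pre κ Λ h (M.F k)), GF k Φ.toFun ∧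
        ∀ e he, EqOn Φ.toFun (Φe e he).toFun (E.seg e))
    (Gv : Set M.ι) (Ψ : ∀ i ∈ Gv, ConHomeo (M.Q i) (Pre κ Λ h (M.Q i)))
    (hΨ : ∀ i (hi : i ∈ Gv) k, M.F k ⊆ M.Q i → ∃ hk : k ∈ W,
      EqOn (Ψ i hi).toFun (ΦW k hk).toFun (M.F k)) :
    ∃ g : ConHomeo Ω Λ, Out2 M E h κ Act GE GF g ∧
      (∀ k (hk : k ∈ W), EqOn g.toFun (ΦW k hk).toFun (M.F k)) ∧
      ∀ i (hi : i ∈ Gv), EqOn g.toFun (Ψ i hi).toFun (M.Q i) := by
  classical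
  have hFΩ : ∀ k, M.F k ⊆ Ω := Vale.Agent.P073.H193.mesh_sub M
  have hsc : ∀ e, IsCompact (E.seg e) := E.isCompact_seg
  have hsΩ : ∀ e, E.seg e ⊆ Ω := E.seg_sub_Ω
  choose! Ψp hΨ3 hΨN using hpass
  obtain ⟨g, g0, g1, g2, g3, g4, g5, g6⟩ := exists_round (s := E.seg) (N := E.verts)
    (Vale.Agent.P073.H244.cellCx M hΩ) E.edgeCx h hI hN
    (fun e f => (∃ k ∈ Act, E.seg e ⊆ M.F k) → GE e f) (fun k f => k ∈ Act → GF k f)
    W ΦW hW.agree hW.edge hW.vert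
    (fun k hk e he _ hA => hWG k hk e he hA)
    (by
      rintro e heW ⟨k, hk⟩
      by_cases hA : ∃ k ∈ Act, E.seg e ⊆ M.F k
      · obtain ⟨k', hk', hek'⟩ := hA
        obtain ⟨Φ, a1, a2⟩ := hedge k' hk' e hek' heW
        exact ⟨Φ, fun _ => a1, a2⟩
      · have hkW : k ∉ W := fun hkm => heW k hkm hk
        have hkA : k ∉ Act := fun hkm => hA ⟨k, hkm, hk⟩
        refine ⟨((Ψp k hkW hkA).restr (E.edgeCx.con e) hk).cast rfl (hΨ3 k hkW hkA e hk),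
          fun h => absurd h hA, fun x hx hxN => ?_⟩
        exact hΨN k hkW hkA x hxN (hk hx))
    (by
      intro k hkW Φe a1 a2 a3
      by_cases hk : k ∈ Act
      · obtain ⟨Φ, b1, b2⟩ := hface k hk Φe (fun e he => a1 e he ⟨k, hk, he⟩) a2 a3
        exact ⟨Φ, fun _ => b1, b2⟩
      · have hball : ConBall 2 (M.F k) (⋃ e ∈ {e | E.seg e ⊆ M.F k}, E.seg e) := by
          rw [← E.fr_eq k]; exact Vale.Agent.P073.H244.conBall_face M k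
        obtain ⟨Φ, b1⟩ := exists_wild_face E.edgeCx h hI hsc hsΩ (E.fin_face k) hN hball
          (Ψp k hkW hk) (hΨ3 k hkW hk) Φe a2 a3
        exact ⟨Φ, fun h => absurd h hk, b1⟩)
  -- the given cells
  obtain ⟨g', k1, k2, -, k4⟩ := H267.exists_given (Vale.Agent.P073.H244.cellCx M hΩ) hI g g6 Gv Ψ
    (by
      intro i hi x hx
      obtain ⟨k, hxk, hki⟩ := M.bd i x hx
      obtain ⟨hkW, he⟩ := hΨ i hi k hki
      rw [he hxk, g0 k hkW hxk])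
  have hgF : ∀ X k, X ⊆ M.F k → EqOn g'.toFun g.toFun X := fun X k hX => (k4 k).mono hX
  refine ⟨g', ⟨fun k hk => ?_, fun k hk e he => ?_, fun e => ?_, fun x hx => ?_, fun k => ?_, k1⟩,
    fun k hk x hx => (k4 k hx).trans (g0 k hk hx), k2⟩
  · obtain ⟨Φ, b1, b2⟩ := g1 k (hAW k hk)
    exact ⟨Φ, b1 hk, fun x hx => (k4 k hx).trans (b2 hx)⟩
  · obtain ⟨f, b1, b2⟩ := g2 k k (hAW k hk) e he he
    exact ⟨f, b1 ⟨k, hk, he⟩, fun x hx => (k4 k (he hx)).trans (b2 hx)⟩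
  · obtain ⟨k, hk⟩ := E.own e
    exact (hgF (E.seg e) k hk).image_eq.trans (g3 e k hk)
  · obtain ⟨k, hk⟩ := exists_face_of_vert E hx
    rw [k4 k hk]
    exact g4 x hx k hk
  · rw [(k4 k).image_eq]; exact g5 k

end P073.H880
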