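import Vale.Agent.P073.H880.TopF
import Vale.Agent.P073.H851.Chain5
import Vale.Agent.P073.H244.RT3

/-!
# P073, H880: **[K3-TOP]**, the chain: `Chain5 C₀` from ROUND T
-/

open Set Metric Topology Filter MeasureTheory
open scoped ENNReal

set_option linter.unusedSectionVars false

namespace Vale.Agent.P073.Top880

open _root_.P073 _root_.P073.Net _root_.P073.PA691 _root_.P073.H236 _root_.P073.H579
open Vale.Agent.P073.H238.K3
open Vale.Agent.P073.H267.K3

/-- **the chain up to the last stage** -/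
theorem chain5 {C₀ : ℝ} (hC₀ : 1 ≤ C₀) (HS : S1Ex C₀) : Chain5 C₀ := by
  intro c₀ n δ j Ω Λ v w ρ M h J₀ J P Z K D C p μ r ν Ys sc HN Zw HZ S
  have hn := D.pos
  exact exists_chain5 hC₀ HS D C (by positivity)
    (fun b _ => len_T300 D C HN.δo (by linarith) b) HZ HN.fn.m0 HN.fn.m1 HN.fn.K0 HN.fn.ρ1
    HN.fn.sf HN.δn S

/-- **the constant of ROUND T**, and the chain -/
theorem exists_C₀ : ∃ C₀ : ℝ, 1 ≤ C₀ ∧ S1Ex C₀ :=
  exists_s1 _root_.P073.H244.roundT3

end Vale.Agent.P073.Top880
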